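import Vale.Agent.P353.Core

open MeasureTheory Filter Topology
open scoped ContDiff

namespace Vale.Agent.P353

variable {F : Type*} [NormedAddCommGroup F] [InnerProductSpace ℂ F]

/-- gradient of a real function in direction (i,A) -/
noncomputable def pdr (i : Fin 9) (A : Fin 3) (φ : X3 → ℝ) (x : X3) : ℝ :=
  fderiv ℝ φ x (EuclideanSpace.single (i, A) 1)

/-! ### basic rules for `pd` -/

section pd

variable {d : ℕ}

lemma pd_add {i : Fin 9} {A : Fin d} {u v : Cfg d → F} {x : Cfg d}
    (hu : DifferentiableAt ℝ u x) (hv : DifferentiableAt ℝ v x) :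
    pd i A (fun y => u y + v y) x = pd i A u x + pd i A v x := by
  unfold pd
  rw [fderiv_fun_add hu hv]; rfl

lemma pd_sub {i : Fin 9} {A : Fin d} {u v : Cfg d → F} {x : Cfg d}
    (hu : DifferentiableAt ℝ u x) (hv : DifferentiableAt ℝ v x) :
    pd i A (fun y => u y - v y) x = pd i A u x - pd i A v x := by
  unfold pd
  rw [fderiv_fun_sub hu hv]; rfl

lemma pd_neg {i : Fin 9} {A : Fin d} {u : Cfg d → F} {x : Cfg d} :
    pd i A (fun y => -u y) x = -pd i A u x := by
  unfold pd
  rw [fderiv_fun_neg]; rfl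

lemma pd_sum {ι : Type*} (s : Finset ι) {i : Fin 9} {A : Fin d} {u : ι → Cfg d → F} {x : Cfg d}
    (hu : ∀ k ∈ s, DifferentiableAt ℝ (u k) x) :
    pd i A (fun y => ∑ k ∈ s, u k y) x = ∑ k ∈ s, pd i A (u k) x := by
  unfold pd
  rw [fderiv_fun_sum hu]
  simp

/-- product rule for an operator valued multiplier -/
lemma pd_clm_apply {i : Fin 9} {A : Fin d} {T : Cfg d → F →L[ℂ] F} {u : Cfg d → F} {x : Cfg d}
    (hT : DifferentiableAt ℝ T x) (hu : DifferentiableAt ℝ u x) :
    pd i A (fun y => T y (u y)) x =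
      (fderiv ℝ T x (EuclideanSpace.single (i, A) 1)) (u x) + T x (pd i A u x) := by
  unfold pd
  have hB : IsBoundedBilinearMap ℝ (fun p : (F →L[ℂ] F) × F => p.1 p.2) := by
    have h := (isBoundedBilinearMap_apply (𝕜 := ℂ) (E := F) (F := F))
    refine ⟨fun a b c => by simp, fun c a b => ?_, fun a b c => by simp, fun c a b => ?_, ?_⟩
    · simp
    · simp
    · obtain ⟨C, hC, hb⟩ := h.bound
      exact ⟨C, hC, hb⟩
  have h1 := hB.hasFDerivAt (T x, u x)
  have h2 := hT.hasFDerivAt.prodMk hu.hasFDerivAt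
  have h3 := h1.comp x h2
  have h4 : fderiv ℝ (fun y => T y (u y)) x = _ := h3.fderiv
  rw [h4]
  simp [add_comm]

lemma pd_clm {i : Fin 9} {A : Fin d} (T : F →L[ℂ] F) {u : Cfg d → F} {x : Cfg d}
    (hu : DifferentiableAt ℝ u x) :
    pd i A (fun y => T (u y)) x = T (pd i A u x) := by
  rw [pd_clm_apply (T := fun _ => T) (differentiableAt_const T) hu]
  simp

lemma pd_csmul {i : Fin 9} {A : Fin d} {c : Cfg d → ℂ} {u : Cfg d → F} {x : Cfg d}
    (hc : DifferentiableAt ℝ c x) (hu : DifferentiableAt ℝ u x) :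
    pd i A (fun y => c y • u y) x =
      (fderiv ℝ c x (EuclideanSpace.single (i, A) 1)) • u x + c x • pd i A u x := by
  unfold pd
  rw [fderiv_fun_smul hc hu]
  simp [add_comm]

lemma fderiv_ofReal_comp {φ : Cfg d → ℝ} {x : Cfg d} (hφ : DifferentiableAt ℝ φ x)
    (e : Cfg d) : fderiv ℝ (fun y => ((φ y : ℝ) : ℂ)) x e = ((fderiv ℝ φ x e : ℝ) : ℂ) := by
  have h := (Complex.ofRealCLM.hasFDerivAt (x := φ x)).comp x hφ.hasFDerivAt
  have h2 : fderiv ℝ (fun y => ((φ y : ℝ) : ℂ)) x = _ := h.fderiv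
  rw [h2]
  simp

lemma pd_rsmul {i : Fin 9} {A : Fin d} {φ : Cfg d → ℝ} {u : Cfg d → F} {x : Cfg d}
    (hφ : DifferentiableAt ℝ φ x) (hu : DifferentiableAt ℝ u x) :
    pd i A (fun y => ((φ y : ℝ) : ℂ) • u y) x =
      ((fderiv ℝ φ x (EuclideanSpace.single (i, A) 1) : ℝ) : ℂ) • u x
        + ((φ x : ℝ) : ℂ) • pd i A u x := by
  have hc : DifferentiableAt ℝ (fun y => ((φ y : ℝ) : ℂ)) x :=
    Complex.ofRealCLM.differentiableAt.comp x hφ
  rw [pd_csmul hc hu, fderiv_ofReal_comp hφ]

lemma contDiff_pd {i : Fin 9} {A : Fin d} {u : Cfg d → F} (hu : ContDiff ℝ ∞ u) :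
    ContDiff ℝ ∞ (pd i A u) := by
  unfold pd
  exact (hu.fderiv_right (m := ∞) (by simp)).clm_apply contDiff_const

lemma continuous_pd {i : Fin 9} {A : Fin d} {u : Cfg d → F} (hu : ContDiff ℝ 1 u) :
    Continuous (pd i A u) := by
  unfold pd
  exact (hu.continuous_fderiv (by simp)).clm_apply continuous_const

lemma hasCompactSupport_pd {i : Fin 9} {A : Fin d} {u : Cfg d → F} (hu : HasCompactSupport u) :
    HasCompactSupport (pd i A u) := by
  have h := hu.fderiv_apply (𝕜 := ℝ) (EuclideanSpace.single (i, A) (1 : ℝ) : Cfg d)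
  exact h

end pd

/-! ### integration by parts -/

section parts

variable {d : ℕ} {G : Type*} [NormedAddCommGroup G] [NormedSpace ℝ G]

lemma integral_fderiv_eq_zero (w : Cfg d → G) (hw : ContDiff ℝ 1 w)
    (hc : HasCompactSupport w) (e : Cfg d) :
    ∫ x, fderiv ℝ w x e = 0 := by
  have h := integral_smul_fderiv_eq_neg_fderiv_smul_of_integrable (μ := volume)
    (f := fun _ : Cfg d => (1 : ℝ)) (g := w) (v := e) (𝕜 := ℝ) ?_ ?_ ?_ ?_ ?_
  · simpa using h
  · simp
  · simp only [one_smul]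
    exact ((hw.continuous_fderiv (by simp)).clm_apply continuous_const).integrable_of_hasCompactSupport
      (hc.fderiv_apply (𝕜 := ℝ) e)
  · simp only [one_smul]
    exact hw.continuous.integrable_of_hasCompactSupport hc
  · intro x _; exact differentiableAt_const _
  · intro x _; exact (hw.differentiable (by simp)) x

lemma integral_inner_pd (u v : Cfg d → F) (hu : ContDiff ℝ 1 u) (hv : ContDiff ℝ 1 v)
    (hc : HasCompactSupport u) (i : Fin 9) (A : Fin d) :
    ∫ x, inner ℂ (pd i A u x) (v x) = - ∫ x, inner ℂ (u x) (pd i A v x) := by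
  have hw : ContDiff ℝ 1 (fun x => inner ℂ (u x) (v x)) := hu.inner ℂ hv
  have hcw : HasCompactSupport (fun x => inner ℂ (u x) (v x)) := by
    refine hc.mono ?_
    intro x hx
    simp only [Function.mem_support] at hx ⊢
    intro h0
    exact hx (by rw [h0, inner_zero_left])
  have h := integral_fderiv_eq_zero _ hw hcw (EuclideanSpace.single (i, A) (1 : ℝ))
  have hd : ∀ x, fderiv ℝ (fun x => inner ℂ (u x) (v x)) x (EuclideanSpace.single (i, A) (1 : ℝ)) =
      inner ℂ (u x) (pd i A v x) + inner ℂ (pd i A u x) (v x) := by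
    intro x
    rw [fderiv_inner_apply ℂ ((hu.differentiable (by simp)) x) ((hv.differentiable (by simp)) x)]
    rfl
  have hcu' : HasCompactSupport (pd i A u) := hasCompactSupport_pd hc
  have hi1 : Integrable (fun x => inner ℂ (u x) (pd i A v x)) := by
    refine (hu.continuous.inner (continuous_pd hv)).integrable_of_hasCompactSupport ?_
    refine hc.mono ?_
    intro x hx
    simp only [Function.mem_support] at hx ⊢
    intro h0
    exact hx (by rw [h0, inner_zero_left])
  have hi2 : Integrable (fun x => inner ℂ (pd i A u x) (v x)) := by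
    refine ((continuous_pd hu).inner hv.continuous).integrable_of_hasCompactSupport ?_
    refine hcu'.mono ?_
    intro x hx
    simp only [Function.mem_support] at hx ⊢
    intro h0
    exact hx (by rw [h0, inner_zero_left])
  simp only [hd] at h
  rw [integral_add hi1 hi2] at h
  linear_combination h

end parts

/-! ### symmetric operators -/

namespace Setup

variable (S : Setup F)

lemma th_symm (α : Fin 16) (A : Fin 3) (v w : F) :
    inner ℂ (S.th α A v) w = inner ℂ v (S.th α A w) := S.th_sa α A v w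

lemma vec_symm (N : Matrix (Fin 16) (Fin 16) ℂ) (hN : ∀ α β, (N α β).im = 0) (A : Fin 3)
    (β : Fin 16) (v w : F) :
    inner ℂ (S.vec N A β v) w = inner ℂ v (S.vec N A β w) := by
  simp only [CS.vec, _root_.sum_apply, _root_.smul_apply, sum_inner,
    inner_sum, inner_smul_left, inner_smul_right, S.th_symm]
  refine Finset.sum_congr rfl fun γ _ => ?_
  rw [Complex.conj_eq_iff_im.mpr (hN β γ)]

lemma g_im (i : Fin 9) (α β : Fin 16) : (S.g i α β).im = 0 := S.g_real i α β

lemma mul_im_zero {N M : Matrix (Fin 16) (Fin 16) ℂ} (hN : ∀ α β, (N α β).im = 0)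
    (hM : ∀ α β, (M α β).im = 0) (α β : Fin 16) : ((N * M) α β).im = 0 := by
  rw [Matrix.mul_apply, Complex.im_sum]
  refine Finset.sum_eq_zero fun γ _ => ?_
  rw [Complex.mul_im, hN, hM]; ring

lemma g2_im (i j : Fin 9) (α β : Fin 16) : (S.g2 i j α β).im = 0 := by
  have h1 := mul_im_zero (S.g_im i) (S.g_im j) α β
  have h2 := mul_im_zero (S.g_im j) (S.g_im i) α β
  simp only [CS.g2, Matrix.smul_apply, Matrix.sub_apply, smul_eq_mul]
  rw [Complex.mul_im, Complex.sub_im, h1, h2]
  norm_num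

lemma W_symm (β : Fin 16) (x : X3) (v w : F) :
    inner ℂ (S.W β x v) w = inner ℂ v (S.W β x w) := by
  simp only [W, _root_.sum_apply, _root_.smul_apply, sum_inner,
    inner_sum, inner_smul_left, inner_smul_right, S.vec_symm _ (S.g2_im _ _), Complex.conj_ofReal]
  congr 1
  norm_num [Complex.ext_iff]

/-! smoothness in `x` of the operator valued coefficients -/

lemma contDiff_coord (p : Fin 9 × Fin 3) : ContDiff ℝ ∞ (fun x : X3 => x p) := by
  exact (EuclideanSpace.proj (𝕜 := ℝ) p).contDiff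

lemma contDiff_FF (A : Fin 3) (i j : Fin 9) : ContDiff ℝ ∞ (S.FF A i j) := by
  unfold FF
  refine contDiff_const.mul (ContDiff.sum fun B _ => ContDiff.sum fun C _ => ?_)
  exact (contDiff_const.mul (contDiff_coord _)).mul (contDiff_coord _)

lemma contDiff_ofReal {φ : X3 → ℝ} (h : ContDiff ℝ ∞ φ) :
    ContDiff ℝ ∞ (fun x => ((φ x : ℝ) : ℂ)) :=
  Complex.ofRealCLM.contDiff.comp h

lemma contDiff_W (β : Fin 16) : ContDiff ℝ ∞ (S.W β) := by
  unfold W
  refine ContDiff.const_smul (1 / 2 : ℂ) (ContDiff.sum fun A _ => ContDiff.sum fun i _ =>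
    ContDiff.sum fun j _ => ?_)
  exact (contDiff_ofReal (S.contDiff_FF A i j)).smul contDiff_const

lemma contDiff_B (β : Fin 16) : ContDiff ℝ ∞ (S.B β) := by
  unfold B
  refine ContDiff.sum fun i _ => ContDiff.sum fun A _ => ?_
  exact (contDiff_ofReal (contDiff_coord _)).smul contDiff_const

lemma contDiff_clm_apply' {T : X3 → F →L[ℂ] F} {u : X3 → F} (hT : ContDiff ℝ ∞ T)
    (hu : ContDiff ℝ ∞ u) : ContDiff ℝ ∞ (fun x => T x (u x)) := by
  have hB : IsBoundedBilinearMap ℝ (fun p : (F →L[ℂ] F) × F => p.1 p.2) := by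
    have h := (isBoundedBilinearMap_apply (𝕜 := ℂ) (E := F) (F := F))
    refine ⟨fun a b c => by simp, fun c a b => ?_, fun a b c => by simp, fun c a b => ?_, ?_⟩
    · simp
    · simp
    · obtain ⟨C, hC, hb⟩ := h.bound
      exact ⟨C, hC, hb⟩
  exact hB.contDiff.comp (hT.prodMk hu)

lemma contDiff_Q (β : Fin 16) {u : X3 → F} (hu : ContDiff ℝ ∞ u) : ContDiff ℝ ∞ (S.Q β u) := by
  unfold Q
  refine ContDiff.add (contDiff_const.smul (ContDiff.sum fun i _ => ContDiff.sum fun A _ => ?_))
    (contDiff_clm_apply' (S.contDiff_W β) hu)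
  exact contDiff_clm_apply' contDiff_const (contDiff_pd hu)

lemma hasCompactSupport_Q (β : Fin 16) {u : X3 → F} (hu : HasCompactSupport u) :
    HasCompactSupport (S.Q β u) := by
  refine HasCompactSupport.intro' (K := tsupport u) hu (isClosed_tsupport u) ?_
  intro x hx
  have h0 : u x = 0 := image_eq_zero_of_notMem_tsupport hx
  have h1 : ∀ i A, pd i A u x = 0 := by
    intro i A
    have : fderiv ℝ u x = 0 := by
      have h := (tsupport_fderiv_subset ℝ (f := u))
      by_contra hne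
      exact hx (h (subset_tsupport _ hne))
    simp [pd, this]
  simp [Q, h0, h1]

lemma Tst.contDiff {u : X3 → F} (hu : Tst u) : ContDiff ℝ ∞ u := hu.1

lemma Tst.hcs {u : X3 → F} (hu : Tst u) : HasCompactSupport u := hu.2

lemma Tst.diff {u : X3 → F} (hu : Tst u) (x : X3) : DifferentiableAt ℝ u x :=
  (hu.1.differentiable (by simp)) x

lemma Tst.Q {u : X3 → F} (hu : Tst u) (β : Fin 16) : Tst (S.Q β u) :=
  ⟨S.contDiff_Q β hu.1, S.hasCompactSupport_Q β hu.2⟩

lemma Tst.clm {T : X3 → F →L[ℂ] F} {u : X3 → F} (hT : ContDiff ℝ ∞ T) (hu : Tst u) :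
    Tst (fun x => T x (u x)) := by
  refine ⟨contDiff_clm_apply' hT hu.1, hu.2.mono ?_⟩
  intro x hx
  simp only [Function.mem_support] at hx ⊢
  intro h0
  exact hx (by rw [h0, map_zero])

lemma Tst.rsmul {φ : X3 → ℝ} {u : X3 → F} (hφ : ContDiff ℝ ∞ φ) (hu : Tst u) :
    Tst (fun x => ((φ x : ℝ) : ℂ) • u x) := by
  refine ⟨(contDiff_ofReal hφ).smul hu.1, hu.2.mono ?_⟩
  intro x hx
  simp only [Function.mem_support] at hx ⊢
  intro h0
  exact hx (by rw [h0, smul_zero])

lemma Tst.pd {u : X3 → F} (hu : Tst u) (i : Fin 9) (A : Fin 3) : Tst (pd i A u) :=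
  ⟨contDiff_pd hu.1, hasCompactSupport_pd hu.2⟩

lemma Tst.add {u v : X3 → F} (hu : Tst u) (hv : Tst v) : Tst (fun x => u x + v x) :=
  ⟨hu.1.add hv.1, hu.2.add hv.2⟩

lemma Tst.neg {u : X3 → F} (hu : Tst u) : Tst (fun x => -u x) := by
  refine ⟨hu.1.neg, hu.2.mono ?_⟩
  intro x hx
  simpa using hx

lemma Tst.sub {u v : X3 → F} (hu : Tst u) (hv : Tst v) : Tst (fun x => u x - v x) := by
  have h := hu.add hv.neg
  simpa [sub_eq_add_neg] using h

lemma Tst.inner_cs {u v : X3 → F} (hu : Tst u) : HasCompactSupport (fun x => inner ℂ (u x) (v x)) := by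
  refine hu.2.mono ?_
  intro x hx
  simp only [Function.mem_support] at hx ⊢
  intro h0
  exact hx (by rw [h0, inner_zero_left])

lemma Tst.inner_int {u v : X3 → F} (hu : Tst u) (hv : Continuous v) :
    Integrable (fun x => inner ℂ (u x) (v x)) :=
  (hu.1.continuous.inner hv).integrable_of_hasCompactSupport hu.inner_cs

lemma Tst.inner_int' {u v : X3 → F} (hu : Tst u) (hv : Continuous v) :
    Integrable (fun x => inner ℂ (v x) (u x)) := by
  refine (hv.inner hu.1.continuous).integrable_of_hasCompactSupport (hu.2.mono ?_)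
  intro x hx
  simp only [Function.mem_support] at hx ⊢
  intro h0
  exact hx (by rw [h0, inner_zero_right])

lemma Tst.norm_sq_int {u : X3 → F} (hu : Tst u) : Integrable (fun x => ‖u x‖ ^ 2) := by
  refine (hu.1.continuous.norm.pow 2).integrable_of_hasCompactSupport (hu.2.mono ?_)
  intro x hx
  simp only [Function.mem_support] at hx ⊢
  intro h0
  exact hx (by simp [h0])

lemma Tst.mul_norm_sq_int {φ : X3 → ℝ} {u : X3 → F} (hφ : Continuous φ) (hu : Tst u) :
    Integrable (fun x => φ x * ‖u x‖ ^ 2) := by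
  refine (hφ.mul (hu.1.continuous.norm.pow 2)).integrable_of_hasCompactSupport (hu.2.mono ?_)
  intro x hx
  simp only [Function.mem_support] at hx ⊢
  intro h0
  exact hx (by simp [h0])

end Setup

/-! ### Q and J -/

theorem Q_smul (S : Setup F) (β : Fin 16) (φ : X3 → ℝ) (u : X3 → F) (x : X3)
    (hφ : DifferentiableAt ℝ φ x) (hu : DifferentiableAt ℝ u x) :
    S.Q β (fun y => ((φ y : ℝ) : ℂ) • u y) x = ((φ x : ℝ) : ℂ) • S.Q β u x -
      Complex.I • ∑ i, ∑ A, ((pdr i A φ x : ℝ) : ℂ) • S.vec (S.g i) A β (u x) := by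
  have h : ∀ i A, pd i A (fun y => ((φ y : ℝ) : ℂ) • u y) x =
      ((pdr i A φ x : ℝ) : ℂ) • u x + ((φ x : ℝ) : ℂ) • pd i A u x := fun i A => pd_rsmul hφ hu
  simp only [Setup.Q, h, map_add, map_smul, Finset.sum_add_distrib, smul_add, Finset.smul_sum,
    neg_smul]
  simp only [smul_smul, mul_comm Complex.I, Finset.sum_neg_distrib, smul_neg]
  abel

theorem Q_symm (S : Setup F) (β : Fin 16) (u v : X3 → F)
    (hu : Setup.Tst u) (hv : ContDiff ℝ ∞ v) :
    ∫ x, inner ℂ (S.Q β u x) (v x) = ∫ x, inner ℂ (u x) (S.Q β v x) := by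
  have hv1 : ContDiff ℝ 1 v := hv.of_le (by simp)
  have hu1 : ContDiff ℝ 1 u := hu.1.of_le (by simp)
  have hpt : ∀ x, inner ℂ (S.Q β u x) (v x) - inner ℂ (u x) (S.Q β v x) =
      ∑ i, ∑ A, Complex.I * (fderiv ℝ (fun y => inner ℂ (u y) (S.vec (S.g i) A β (v y))) x
        (EuclideanSpace.single (i, A) (1 : ℝ))) := by
    intro x
    have hd : ∀ i A, fderiv ℝ (fun y => inner ℂ (u y) (S.vec (S.g i) A β (v y))) x
        (EuclideanSpace.single (i, A) (1 : ℝ)) =
        inner ℂ (u x) (S.vec (S.g i) A β (pd i A v x)) +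
          inner ℂ (pd i A u x) (S.vec (S.g i) A β (v x)) := by
      intro i A
      have hdv : DifferentiableAt ℝ v x := (hv1.differentiable (by simp)) x
      have hdT : DifferentiableAt ℝ (fun y => S.vec (S.g i) A β (v y)) x :=
        ((S.vec (S.g i) A β).restrictScalars ℝ).differentiableAt.comp x hdv
      rw [fderiv_inner_apply ℂ ((hu1.differentiable (by simp)) x) hdT]
      have := pd_clm (i := i) (A := A) (S.vec (S.g i) A β) hdv
      unfold pd at this ⊢
      rw [this]
    simp only [hd, Setup.Q, inner_add_left, inner_add_right, inner_smul_left, inner_smul_right,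
      sum_inner, inner_sum, S.W_symm, S.vec_symm _ (S.g_im _)]
    simp only [map_neg, Complex.conj_I, neg_neg]
    simp only [mul_add, Finset.sum_add_distrib, Finset.mul_sum]
    simp only [neg_mul, Finset.sum_neg_distrib]
    ring
  have hI : ∫ x, (inner ℂ (S.Q β u x) (v x) - inner ℂ (u x) (S.Q β v x)) = 0 := by
    simp only [hpt]
    have hw : ∀ i A, ContDiff ℝ 1 (fun y => inner ℂ (u y) (S.vec (S.g i) A β (v y))) := by
      intro i A
      exact hu1.inner ℂ ((S.vec (S.g i) A β).restrictScalars ℝ |>.contDiff.comp hv1)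
    have hcs : ∀ i A, HasCompactSupport (fun y => inner ℂ (u y) (S.vec (S.g i) A β (v y))) :=
      fun i A => hu.inner_cs
    have hint : ∀ i A, Integrable (fun x => fderiv ℝ (fun y => inner ℂ (u y)
        (S.vec (S.g i) A β (v y))) x (EuclideanSpace.single (i, A) (1 : ℝ))) := by
      intro i A
      exact (((hw i A).continuous_fderiv (by simp)).clm_apply
        continuous_const).integrable_of_hasCompactSupport ((hcs i A).fderiv_apply (𝕜 := ℝ) _)
    rw [integral_finsetSum _ fun i _ => integrable_finsetSum _ fun A _ => (hint i A).const_mul _]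
    refine Finset.sum_eq_zero fun i _ => ?_
    rw [integral_finsetSum _ fun A _ => (hint i A).const_mul _]
    refine Finset.sum_eq_zero fun A _ => ?_
    rw [integral_const_mul, integral_fderiv_eq_zero _ (hw i A) (hcs i A), mul_zero]
  rw [integral_sub ((hu.Q S β).inner_int hv.continuous)
    (hu.inner_int (S.contDiff_Q β hv).continuous)] at hI
  exact sub_eq_zero.mp hI


namespace Setup

variable (S : Setup F)

lemma bil_adj (N : Matrix (Fin 16) (Fin 16) ℂ) (hN : ∀ α β, (N α β).im = 0) (A B : Fin 3)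
    (v w : F) : inner ℂ (S.bil N A B v) w = inner ℂ v (S.bil N.transpose B A w) := by
  have h1 : S.bil N.transpose B A = ∑ α, S.vec N B α * S.th α A := by
    simp only [CS.bil, CS.vec, Finset.mul_sum, Finset.sum_mul, Matrix.transpose_apply,
      mul_smul_comm, smul_mul_assoc]
    rw [Finset.sum_comm]
  rw [h1]
  simp only [CS.bil, _root_.sum_apply, sum_inner, inner_sum]
  refine Finset.sum_congr rfl fun α _ => ?_
  rw [mul_apply_eq_comp, mul_apply_eq_comp, S.th_symm,
    S.vec_symm N hN]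

lemma tot_adj (N : Matrix (Fin 16) (Fin 16) ℂ) (hN : ∀ α β, (N α β).im = 0) (v w : F) :
    inner ℂ (S.tot N v) w = inner ℂ v (S.tot N.transpose w) := by
  simp only [CS.tot, _root_.sum_apply, sum_inner, inner_sum, S.bil_adj N hN]

lemma g2_transpose (k l : Fin 9) : (S.g2 k l).transpose = - S.g2 k l := by
  simp only [CS.g2, Matrix.transpose_smul, Matrix.transpose_sub, Matrix.transpose_mul, S.g_symm]
  rw [← smul_neg, neg_sub]

lemma Skl_symm (k l : Fin 9) (v w : F) :
    inner ℂ (S.Skl k l v) w = inner ℂ v (S.Skl k l w) := by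
  simp only [Skl, _root_.smul_apply, inner_smul_left, inner_smul_right,
    S.tot_adj _ (S.g2_im k l), S.g2_transpose, S.tot_neg, _root_.neg_apply, inner_neg_right]
  have : (starRingEnd ℂ) (-Complex.I / 4) = Complex.I / 4 := by
    have h4 : (starRingEnd ℂ) 4 = 4 := by norm_num [Complex.ext_iff]
    simp [map_div₀, h4]
  rw [this]; ring

lemma cS_symm (C : Fin 3) (v w : F) :
    inner ℂ (S.cS C v) w = inner ℂ v (S.cS C w) := by
  have h1 : ∀ α β, ((1 : Matrix (Fin 16) (Fin 16) ℂ) α β).im = 0 := by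
    intro α β
    rw [Matrix.one_apply]
    split_ifs <;> simp
  have he : ∀ D E : Fin 3, eps C E D = - eps C D E := by
    revert C; decide
  have hc : ∀ D E : Fin 3, (starRingEnd ℂ) ((eps C D E : ℤ) : ℂ) = ((eps C D E : ℤ) : ℂ) := by
    intro D E; simp
  simp only [cS, _root_.smul_apply, _root_.sum_apply, inner_smul_left, inner_smul_right,
    sum_inner, inner_sum, S.bil_adj _ h1, Matrix.transpose_one, hc]
  have : (starRingEnd ℂ) (-Complex.I / 2) = Complex.I / 2 := by
    have h2 : (starRingEnd ℂ) 2 = 2 := by norm_num [Complex.ext_iff]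
    simp [map_div₀, h2]
  rw [this]
  have h2 : ∑ D, ∑ E, ((eps C D E : ℤ) : ℂ) * inner ℂ v (S.bil 1 E D w) =
      - ∑ D, ∑ E, ((eps C D E : ℤ) : ℂ) * inner ℂ v (S.bil 1 D E w) := by
    rw [Finset.sum_comm, ← Finset.sum_neg_distrib]
    refine Finset.sum_congr rfl fun D _ => ?_
    rw [← Finset.sum_neg_distrib]
    refine Finset.sum_congr rfl fun E _ => ?_
    rw [he D E]; push_cast; ring
  rw [h2]; ring

end Setup

lemma integral_rot_eq_zero (k l : Fin 9) (A : Fin 3) (w : X3 → ℂ) (hw : ContDiff ℝ 1 w)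
    (hc : HasCompactSupport w) :
    ∫ x, (((x (k, A) : ℝ) : ℂ) * fderiv ℝ w x (EuclideanSpace.single (l, A) (1 : ℝ)) -
      ((x (l, A) : ℝ) : ℂ) * fderiv ℝ w x (EuclideanSpace.single (k, A) (1 : ℝ))) = 0 := by
  have hcd : ∀ p : Fin 9 × Fin 3, ContDiff ℝ 1 (fun x : X3 => ((x p : ℝ) : ℂ)) := fun p =>
    (Setup.contDiff_ofReal (Setup.contDiff_coord p)).of_le (by simp)
  have hder : ∀ (p q : Fin 9 × Fin 3) (x : X3),
      fderiv ℝ (fun x : X3 => ((x p : ℝ) : ℂ) * w x) x (EuclideanSpace.single q (1 : ℝ)) =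
        ((x p : ℝ) : ℂ) * fderiv ℝ w x (EuclideanSpace.single q (1 : ℝ)) +
          (if p = q then w x else 0) := by
    intro p q x
    rw [fderiv_fun_mul ((hcd p).differentiable (by simp) x) (hw.differentiable (by simp) x)]
    have hdp : fderiv ℝ (fun y : X3 => ((y p : ℝ) : ℂ)) x (EuclideanSpace.single q (1 : ℝ)) =
        if p = q then 1 else 0 := by
      have hL : (fun y : X3 => y p) = (EuclideanSpace.proj (𝕜 := ℝ) p : X3 →L[ℝ] ℝ) := rfl
      have h := fderiv_ofReal_comp (d := 3) (φ := fun y : X3 => y p) (x := x)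
        (by rw [hL]; exact (EuclideanSpace.proj (𝕜 := ℝ) p : X3 →L[ℝ] ℝ).differentiableAt)
        (EuclideanSpace.single q (1 : ℝ))
      rw [h, hL, ContinuousLinearMap.fderiv]
      by_cases hpq : p = q
      · simp [hpq]
      · simp [hpq]
    simp only [_root_.add_apply, _root_.smul_apply, smul_eq_mul, hdp]
    by_cases hpq : p = q
    · simp [hpq]
    · simp [hpq]
  have hcs : ∀ p : Fin 9 × Fin 3, HasCompactSupport (fun x : X3 => ((x p : ℝ) : ℂ) * w x) := by
    intro p
    exact hc.mul_left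
  have hsm : ∀ p : Fin 9 × Fin 3, ContDiff ℝ 1 (fun x : X3 => ((x p : ℝ) : ℂ) * w x) :=
    fun p => (hcd p).mul hw
  have hint : ∀ p q : Fin 9 × Fin 3, Integrable (fun x : X3 =>
      fderiv ℝ (fun x : X3 => ((x p : ℝ) : ℂ) * w x) x (EuclideanSpace.single q (1 : ℝ))) := by
    intro p q
    exact (((hsm p).continuous_fderiv (by simp)).clm_apply
        continuous_const).integrable_of_hasCompactSupport ((hcs p).fderiv_apply (𝕜 := ℝ) _)
  have hz := fun p q : Fin 9 × Fin 3 => integral_fderiv_eq_zero _ (hsm p) (hcs p)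
    (EuclideanSpace.single q (1 : ℝ))
  have heq : ∀ x : X3, (((x (k, A) : ℝ) : ℂ) * fderiv ℝ w x (EuclideanSpace.single (l, A) (1 : ℝ)) -
      ((x (l, A) : ℝ) : ℂ) * fderiv ℝ w x (EuclideanSpace.single (k, A) (1 : ℝ))) =
      fderiv ℝ (fun x : X3 => ((x (k, A) : ℝ) : ℂ) * w x) x (EuclideanSpace.single (l, A) (1 : ℝ)) -
      fderiv ℝ (fun x : X3 => ((x (l, A) : ℝ) : ℂ) * w x) x
        (EuclideanSpace.single (k, A) (1 : ℝ)) := by
    intro x
    rw [hder, hder]
    by_cases hkl : k = l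
    · subst hkl; simp
    · have hlk : ¬ l = k := fun h => hkl h.symm
      simp [hkl, hlk]
  simp only [heq]
  rw [integral_sub (hint _ _) (hint _ _), hz, hz, sub_zero]

lemma integrable_rot (k l : Fin 9) (A : Fin 3) (w : X3 → ℂ) (hw : ContDiff ℝ 1 w)
    (hc : HasCompactSupport w) :
    Integrable (fun x : X3 => (((x (k, A) : ℝ) : ℂ) *
      fderiv ℝ w x (EuclideanSpace.single (l, A) (1 : ℝ)) -
      ((x (l, A) : ℝ) : ℂ) * fderiv ℝ w x (EuclideanSpace.single (k, A) (1 : ℝ)))) := by
  have hcd : ∀ p : Fin 9 × Fin 3, Continuous (fun x : X3 => ((x p : ℝ) : ℂ)) := fun p =>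
    (Setup.contDiff_ofReal (Setup.contDiff_coord p)).continuous
  have hf : ∀ q : Fin 9 × Fin 3, Continuous (fun x : X3 =>
      fderiv ℝ w x (EuclideanSpace.single q (1 : ℝ))) := fun q =>
    (hw.continuous_fderiv (by simp)).clm_apply continuous_const
  have hs : ∀ q : Fin 9 × Fin 3, HasCompactSupport (fun x : X3 =>
      fderiv ℝ w x (EuclideanSpace.single q (1 : ℝ))) := fun q => hc.fderiv_apply (𝕜 := ℝ) _
  refine Integrable.sub ?_ ?_
  · exact ((hcd _).mul (hf _)).integrable_of_hasCompactSupport (hs _).mul_left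
  · exact ((hcd _).mul (hf _)).integrable_of_hasCompactSupport (hs _).mul_left

namespace Setup

variable (S : Setup F)

lemma contDiff_J (k l : Fin 9) {u : X3 → F} (hu : ContDiff ℝ ∞ u) :
    ContDiff ℝ ∞ (S.J k l u) := by
  unfold J
  refine ContDiff.add (ContDiff.const_smul _ (ContDiff.sum fun A _ => ContDiff.sub ?_ ?_))
    (contDiff_clm_apply' contDiff_const hu)
  · exact (contDiff_ofReal (contDiff_coord _)).smul (contDiff_pd hu)
  · exact (contDiff_ofReal (contDiff_coord _)).smul (contDiff_pd hu)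

lemma hasCompactSupport_J (k l : Fin 9) {u : X3 → F} (hu : HasCompactSupport u) :
    HasCompactSupport (S.J k l u) := by
  refine HasCompactSupport.intro' (K := tsupport u) hu (isClosed_tsupport u) ?_
  intro x hx
  have h0 : u x = 0 := image_eq_zero_of_notMem_tsupport hx
  have h1 : ∀ i A, _root_.Vale.Agent.P353.pd i A u x = 0 := by
    intro i A
    have : fderiv ℝ u x = 0 := by
      have h := (tsupport_fderiv_subset ℝ (f := u))
      by_contra hne
      exact hx (h (subset_tsupport _ hne))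
    simp [_root_.Vale.Agent.P353.pd, this]
  simp [J, h0, h1]

lemma Tst.J {u : X3 → F} (hu : Tst u) (k l : Fin 9) : Tst (S.J k l u) :=
  ⟨S.contDiff_J k l hu.1, S.hasCompactSupport_J k l hu.2⟩

end Setup

theorem J_symm (S : Setup F) (k l : Fin 9) (u v : X3 → F)
    (hu : Setup.Tst u) (hv : ContDiff ℝ ∞ v) :
    ∫ x, inner ℂ (S.J k l u x) (v x) = ∫ x, inner ℂ (u x) (S.J k l v x) := by
  have hv1 : ContDiff ℝ 1 v := hv.of_le (by simp)
  have hu1 : ContDiff ℝ 1 u := hu.1.of_le (by simp)
  have hw : ContDiff ℝ 1 (fun y => inner ℂ (u y) (v y)) := hu1.inner ℂ hv1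
  have hcs : HasCompactSupport (fun y => inner ℂ (u y) (v y)) := hu.inner_cs
  have hd : ∀ i A x, fderiv ℝ (fun y => inner ℂ (u y) (v y)) x
      (EuclideanSpace.single (i, A) (1 : ℝ)) =
      inner ℂ (u x) (pd i A v x) + inner ℂ (pd i A u x) (v x) := by
    intro i A x
    rw [fderiv_inner_apply ℂ ((hu1.differentiable (by simp)) x) ((hv1.differentiable (by simp)) x)]
    rfl
  have hpt : ∀ x, inner ℂ (S.J k l u x) (v x) - inner ℂ (u x) (S.J k l v x) =
      ∑ A, Complex.I * (((x (k, A) : ℝ) : ℂ) * fderiv ℝ (fun y => inner ℂ (u y) (v y)) x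
        (EuclideanSpace.single (l, A) (1 : ℝ)) - ((x (l, A) : ℝ) : ℂ) *
        fderiv ℝ (fun y => inner ℂ (u y) (v y)) x (EuclideanSpace.single (k, A) (1 : ℝ))) := by
    intro x
    simp only [hd, Setup.J, inner_add_left, inner_add_right, inner_smul_left, inner_smul_right,
      inner_sub_left, inner_sub_right, sum_inner, inner_sum, S.Skl_symm, Complex.conj_ofReal]
    simp only [map_neg, Complex.conj_I, neg_neg]
    rw [Finset.mul_sum, neg_mul, Finset.mul_sum, add_sub_add_right_eq_sub, sub_neg_eq_add,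
      ← Finset.sum_add_distrib]
    refine Finset.sum_congr rfl fun A _ => ?_
    ring
  have hI : ∫ x, (inner ℂ (S.J k l u x) (v x) - inner ℂ (u x) (S.J k l v x)) = 0 := by
    simp only [hpt]
    rw [integral_finsetSum _ fun A _ => (integrable_rot k l A _ hw hcs).const_mul _]
    refine Finset.sum_eq_zero fun A _ => ?_
    rw [integral_const_mul, integral_rot_eq_zero k l A _ hw hcs, mul_zero]
  rw [integral_sub ((hu.J S k l).inner_int hv.continuous)
    (hu.inner_int (S.contDiff_J k l hv).continuous)] at hI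
  exact sub_eq_zero.mp hI

end Vale.Agent.P353
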