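import Mathlib

open MeasureTheory Filter Topology
open scoped ContDiff

namespace Vale.Agent.P353.BFSS

/-- The special unitary group `SU(N)`. -/
abbrev SU (N : ℕ) : Type := Matrix.specialUnitaryGroup (Fin N) ℂ

/-- The indices `(i, A)` of the bosonic variables. -/
abbrev Idx (d : ℕ) : Type := Fin 9 × Fin d

/-- The configuration space `ℝ^{9 d}`; `x (i, A)` is the coefficient `x_i^A`. -/
abbrev Conf (d : ℕ) : Type := EuclideanSpace ℝ (Idx d)

/-- Lebesgue measure on the configuration space. -/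
noncomputable def leb (d : ℕ) : Measure (Conf d) := volume

/-- The coefficients of the adjoint action: `U T_A U* = ∑ B, adCoeff T U B A • T_B`. -/
noncomputable def adCoeff {N d : ℕ} (T : Fin d → Matrix (Fin N) (Fin N) ℂ) (U : SU N)
    (B A : Fin d) : ℝ :=
  (T B * (U.val * T A * U.val.conjTranspose)).trace.re

/-- The data of the `SU(N)` BFSS matrix model with `d = N^2 - 1`: an orthonormal basis `T` of the
traceless Hermitian matrices, its structure constants `f`, nine real symmetric gamma matrices `γ`,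
an irreducible Clifford module `F` with self-adjoint generators `θ`, and the unitary action `S` of
`SU(N)` on `F` that implements the adjoint rotation of the generators. -/
structure Model (N d : ℕ) (F : Type*) [NormedAddCommGroup F] [InnerProductSpace ℂ F] where
  dim_eq : d = N ^ 2 - 1
  T : Fin d → Matrix (Fin N) (Fin N) ℂ
  T_hermitian : ∀ A, (T A).conjTranspose = T A
  T_traceless : ∀ A, (T A).trace = 0
  T_orthonormal : ∀ A B, (T A * T B).trace = if A = B then 1 else 0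
  f : Fin d → Fin d → Fin d → ℝ
  T_comm : ∀ A B, T A * T B - T B * T A = ∑ C, (Complex.I * (f A B C : ℂ)) • T C
  γ : Fin 9 → Matrix (Fin 16) (Fin 16) ℝ
  γ_symm : ∀ i, (γ i).transpose = γ i
  γ_anticomm : ∀ i j, γ i * γ j + γ j * γ i = if i = j then 2 else 0
  θ : Fin 16 → Fin d → F →L[ℂ] F
  θ_selfAdjoint : ∀ α A v w, inner ℂ (θ α A v) w = inner ℂ v (θ α A w)
  θ_anticomm : ∀ α A β B v, θ α A (θ β B v) + θ β B (θ α A v) = if α = β ∧ A = B then v else 0
  θ_irreducible : ∀ W : Submodule ℂ F, (∀ α A, ∀ v ∈ W, θ α A v ∈ W) → W = ⊥ ∨ W = ⊤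
  nontrivial : ∃ v : F, v ≠ 0
  S : SU N → F →L[ℂ] F
  S_mul : ∀ U V v, S (U * V) v = S U (S V v)
  S_isometry : ∀ U v, ‖S U v‖ = ‖v‖
  S_continuous : ∀ v, Continuous fun U => S U v
  S_rotates : ∀ U α A v, S U (θ α A v) = ∑ B, (adCoeff T U B A : ℂ) • θ α B (S U v)

variable {N d : ℕ} {F : Type*} [NormedAddCommGroup F] [InnerProductSpace ℂ F]

/-- The partial derivative of `u` with respect to `x_i^A`. -/
noncomputable def pd (i : Fin 9) (A : Fin d) (u : Conf d → F) (x : Conf d) : F :=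
  lineDeriv ℝ u x (EuclideanSpace.single (i, A) 1)

namespace Model

/-- `γ^{ij} = (γ^i γ^j - γ^j γ^i) / 2`. -/
noncomputable def γ2 (M : Model N d F) (i j : Fin 9) : Matrix (Fin 16) (Fin 16) ℝ :=
  (1 / 2 : ℝ) • (M.γ i * M.γ j - M.γ j * M.γ i)

/-- The supercharge `Q_α`. -/
noncomputable def Q (M : Model N d F) (α : Fin 16) (u : Conf d → F) (x : Conf d) : F :=
  (-Complex.I) • ∑ i, ∑ β, ∑ A, (M.γ i α β : ℂ) • M.θ β A (pd i A u x) +
    (1 / 2 : ℂ) • ∑ A, ∑ B, ∑ C, ∑ i, ∑ j, ∑ β,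
      ((M.f A B C * x (i, B) * x (j, C) * M.γ2 i j α β : ℝ) : ℂ) • M.θ β A (u x)

/-- The adjoint action of `U` on the configuration space. -/
noncomputable def act (M : Model N d F) (U : SU N) (x : Conf d) : Conf d :=
  WithLp.toLp 2 fun p => ∑ A, adCoeff M.T U p.2 A * x (p.1, A)

/-- The form core: smooth compactly supported `SU(N)`-invariant wave functions. -/
def IsCore (M : Model N d F) (u : Conf d → F) : Prop :=
  ContDiff ℝ ∞ u ∧ HasCompactSupport u ∧ ∀ U x, u (M.act U x) = M.S U (u x)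

/-- The polarized form `q_N(φ, u) = (1/16) ∑ α, ⟨Q_α φ, Q_α u⟩`. -/
noncomputable def form (M : Model N d F) (φ u : Conf d → F) : ℂ :=
  (1 / 16 : ℂ) * ∑ α, ∫ x, inner ℂ (M.Q α φ x) (M.Q α u x) ∂leb d

/-- `Ψ ∈ ker H_N`: there is a sequence in the core that converges to `Ψ` in `L²`, is Cauchy for
the form `q_N`, and along it `q_N(φ, ·)` tends to `0` for all `φ` in the core (that is, the closed
form satisfies `q_N(φ, Ψ) = 0 = ⟨φ, 0⟩`). -/
def IsZeroEnergyState (M : Model N d F) (Ψ : Conf d → F) : Prop :=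
  MemLp Ψ 2 (leb d) ∧ ∃ u : ℕ → Conf d → F, (∀ n, M.IsCore (u n)) ∧
    Tendsto (fun n => ∫ x, ‖u n x - Ψ x‖ ^ 2 ∂leb d) atTop (𝓝 0) ∧
    Tendsto (fun p : ℕ × ℕ => M.form (fun x => u p.1 x - u p.2 x) fun x => u p.1 x - u p.2 x)
      atTop (𝓝 0) ∧
    ∀ φ, M.IsCore φ → Tendsto (fun n => M.form φ (u n)) atTop (𝓝 0)

end Model

end Vale.Agent.P353.BFSS
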