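import Vale.Agent.P353.BridgeC

open MeasureTheory Filter Topology
open scoped ContDiff

namespace Vale.Agent.P353

variable {F : Type*} [NormedAddCommGroup F] [InnerProductSpace ℂ F]

/-- the final theorem from the weighted inequality -/
theorem final_of (M : Model 2 3 F) (hW : ∀ s : ℝ, 0 ≤ s → s < 9 → WIneq M.toSetup s) :
    FiniteDimensional ℂ (Submodule.span ℂ
      {Ψ : Lp F 2 (volume : Measure (Cfg 3)) | M.IsZeroEnergyState Ψ}) ∧
    ∀ Ψ : Lp F 2 (volume : Measure (Cfg 3)), M.IsZeroEnergyState Ψ →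
      ∀ s : ℝ, 0 ≤ s → s < 9 → Integrable (fun x => ‖x‖ ^ s * ‖Ψ x‖ ^ 2) := by
  have hF : FiniteDimensional ℂ F := M.finiteDimensional
  refine ⟨?_, fun Ψ hΨ s hs0 hs => Dec.decay M.toSetup hs0 (hW s hs0 hs) Ψ
    (isZM_of_zeroEnergy M hΨ)⟩
  have h1 : FiniteDimensional ℂ (M.toSetup).zm :=
    (M.toSetup).finiteDimensional_zm (hW 0 le_rfl (by norm_num))
  have h2 : Submodule.span ℂ {Ψ : Lp F 2 (volume : Measure (Cfg 3)) | M.IsZeroEnergyState Ψ} ≤
      (M.toSetup).zm := Submodule.span_le.mpr fun Ψ hΨ => isZM_of_zeroEnergy M hΨ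
  exact Submodule.finiteDimensional_of_le h2

end Vale.Agent.P353
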