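import Vale.Agent.P353.Weighted1

open MeasureTheory Filter Topology
open scoped ContDiff

namespace Vale.Agent.P353

variable {F : Type*} [NormedAddCommGroup F] [InnerProductSpace ℂ F]

namespace Setup

variable (S : Setup F)

lemma grad_bound {CB : Fin 16 → ℝ} (hCB : ∀ β x, ‖S.B β x‖ ≤ CB β * ‖x‖)
    {H : ℝ → ℝ} {Ψ : Lp F 2 (volume : Measure X3)}
    (I1 : Integrable (fun x => (deriv H (‖x‖ ^ 2) ^ 2 * ‖x‖ ^ 2) * ‖Ψ x‖ ^ 2)) :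
    (1 / 16 : ℝ) * ∑ β, nsq (fun x => (((dg H x : ℝ) : ℂ) • ((-Complex.I) • S.B β x)) (Ψ x)) ≤
      (1 / 4 : ℝ) * (∑ β, CB β ^ 2) *
        (∫ x, (deriv H (‖x‖ ^ 2) ^ 2 * ‖x‖ ^ 2) * ‖Ψ x‖ ^ 2) := by
  have hq : ∀ β, nsq (fun x => (((dg H x : ℝ) : ℂ) • ((-Complex.I) • S.B β x)) (Ψ x)) ≤
      4 * CB β ^ 2 * (∫ x, (deriv H (‖x‖ ^ 2) ^ 2 * ‖x‖ ^ 2) * ‖Ψ x‖ ^ 2) := by
    intro β
    rw [nsq, ← integral_const_mul]
    refine integral_mono_of_nonneg (Filter.Eventually.of_forall fun x => by positivity)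
      (I1.const_mul _) (Filter.Eventually.of_forall fun x => ?_)
    simp only [_root_.smul_apply, norm_smul, norm_neg, Complex.norm_I, one_mul,
      Complex.norm_real, Real.norm_eq_abs, dg]
    have h1 : ‖S.B β x (Ψ x)‖ ≤ CB β * ‖x‖ * ‖Ψ x‖ :=
      ((S.B β x).le_opNorm _).trans (mul_le_mul_of_nonneg_right (hCB β x) (norm_nonneg _))
    have h2 := pow_le_pow_left₀ (norm_nonneg _) h1 2
    rw [mul_pow, sq_abs]
    calc (2 * deriv H (‖x‖ ^ 2)) ^ 2 * ‖S.B β x (Ψ x)‖ ^ 2 ≤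
        (2 * deriv H (‖x‖ ^ 2)) ^ 2 * (CB β * ‖x‖ * ‖Ψ x‖) ^ 2 :=
          mul_le_mul_of_nonneg_left h2 (by positivity)
      _ = 4 * CB β ^ 2 * (deriv H (‖x‖ ^ 2) ^ 2 * ‖x‖ ^ 2 * ‖Ψ x‖ ^ 2) := by ring
  have := Finset.sum_le_sum fun β (_ : β ∈ Finset.univ) => hq β
  rw [← Finset.sum_mul, ← Finset.mul_sum] at this
  linarith

lemma boundary_bound {CD : ℝ} (hCD : ∀ x, ‖Bd S x‖ ≤ CD * ‖x‖ ^ 2)
    {a b : X3 → ℝ} (ha : Continuous a) (hac : HasCompactSupport a) (hb : Continuous b)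
    (hbc : HasCompactSupport b) {Ψ : Lp F 2 (volume : Measure X3)}
    (I2 : Integrable (fun x => |a x - b x| * ‖x‖ ^ 2 * ‖Ψ x‖ ^ 2)) :
    (∫ x, a x * (inner ℂ (Ψ x) (Bd S x (Ψ x))).re) -
      (∫ x, b x * (inner ℂ (Ψ x) (Bd S x (Ψ x))).re) ≤
        CD * ∫ x, |a x - b x| * ‖x‖ ^ 2 * ‖Ψ x‖ ^ 2 := by
  have m4 := int_w ha hac S.continuous_Bd Ψ
  have m2 := int_w hb hbc S.continuous_Bd Ψ
  rw [← integral_sub m4 m2, ← integral_const_mul]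
  refine integral_mono (m4.sub m2) (I2.const_mul _) fun x => ?_
  simp only
  rw [← sub_mul]
  have h1 : |(inner ℂ (Ψ x) (Bd S x (Ψ x))).re| ≤ CD * ‖x‖ ^ 2 * ‖Ψ x‖ ^ 2 := by
    refine (Complex.abs_re_le_norm _).trans ((norm_inner_le_norm _ _).trans ?_)
    have := ((Bd S x).le_opNorm (Ψ x)).trans
      (mul_le_mul_of_nonneg_right (hCD x) (norm_nonneg _))
    calc ‖Ψ x‖ * ‖Bd S x (Ψ x)‖ ≤ ‖Ψ x‖ * (CD * ‖x‖ ^ 2 * ‖Ψ x‖) :=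
          mul_le_mul_of_nonneg_left this (norm_nonneg _)
      _ = CD * ‖x‖ ^ 2 * ‖Ψ x‖ ^ 2 := by ring
  calc (a x - b x) * (inner ℂ (Ψ x) (Bd S x (Ψ x))).re ≤
      |(a x - b x) * (inner ℂ (Ψ x) (Bd S x (Ψ x))).re| := le_abs_self _
    _ = |a x - b x| * |(inner ℂ (Ψ x) (Bd S x (Ψ x))).re| := abs_mul _ _
    _ ≤ |a x - b x| * (CD * ‖x‖ ^ 2 * ‖Ψ x‖ ^ 2) :=
        mul_le_mul_of_nonneg_left h1 (abs_nonneg _)
    _ = CD * (|a x - b x| * ‖x‖ ^ 2 * ‖Ψ x‖ ^ 2) := by ring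

lemma weight_eq (H σ : ℝ → ℝ) (x : X3) :
    |2 * deriv (gH H) (‖x‖ ^ 2) * ‖x‖ ^ 2 - ‖x‖ * H (‖x‖ ^ 2) ^ 2 * σ (‖x‖ ^ 2)| =
      |dg (gH H) x - rad (tH H σ) x| * ‖x‖ ^ 2 := by
  have h1 : rad (tH H σ) x * ‖x‖ ^ 2 = ‖x‖ * H (‖x‖ ^ 2) ^ 2 * σ (‖x‖ ^ 2) := by
    rw [rad, tH, gH_norm]
    rcases eq_or_ne x 0 with hx | hx
    · simp [hx]
    · have hxn : ‖x‖ ≠ 0 := norm_ne_zero_iff.mpr hx
      field_simp
  have h2 : |dg (gH H) x - rad (tH H σ) x| * ‖x‖ ^ 2 =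
      |(dg (gH H) x - rad (tH H σ) x) * ‖x‖ ^ 2| := by
    rw [abs_mul, abs_of_nonneg (sq_nonneg ‖x‖)]
  rw [h2, sub_mul, h1, dg]

lemma final_arith {A1 A2 D1 D2 D3 K ε' δ CD P Q : ℝ} (hε' : 0 ≤ ε') (hP : 0 ≤ (1 / 4 : ℝ) * P)
    (hC : 0 ≤ ε' * CD) (hK : K = (1 / 4 : ℝ) * P + ε' * CD + 1)
    (h : 0 ≤ Q + ε' * (D1 - D2 - δ * D3)) (hQ : Q ≤ (1 / 4 : ℝ) * P * A1)
    (hb : D1 - D2 ≤ CD * A2) (hA1 : 0 ≤ A1) (hA2 : 0 ≤ A2) :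
    D3 * (ε' * δ) ≤ K * (A1 + A2) := by
  have hb' : ε' * (D1 - D2) ≤ ε' * (CD * A2) := mul_le_mul_of_nonneg_left hb hε'
  have hfin' : D3 * (ε' * δ) ≤ (1 / 4 : ℝ) * P * A1 + ε' * (CD * A2) := by
    have e1 : ε' * (D1 - D2 - δ * D3) = ε' * (D1 - D2) - D3 * (ε' * δ) := by ring
    rw [e1] at h
    linarith
  have hbound : (1 / 4 : ℝ) * P * A1 + ε' * (CD * A2) ≤ K * (A1 + A2) := by
    have e2 : K * (A1 + A2) = (1 / 4 : ℝ) * P * A1 + ε' * (CD * A2) +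
        ((1 / 4 : ℝ) * P * A2 + ε' * CD * A1 + (A1 + A2)) := by
      rw [hK]; ring
    have h3 := mul_nonneg hP hA2
    have h4 := mul_nonneg hC hA1
    linarith
  exact hfin'.trans hbound

theorem wineq [FiniteDimensional ℂ F] {s : ℝ} (hs : s < 9) : WIneq S s := by
  have : CompleteSpace F := FiniteDimensional.complete ℂ F
  obtain ⟨R, ε, ε', δ, hR, hε, hε1, hε', hδ, hpt⟩ := pointwise_bound_of S S.vacuumStmt s hs
  choose CB hCB0 hCB using S.B_bound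
  obtain ⟨CD, hCD0, hCD⟩ := S.Bd_bound
  have hK1 : 0 ≤ (1 / 4 : ℝ) * ∑ β, CB β ^ 2 := by positivity
  have hK2 : 0 ≤ ε' * CD := by positivity
  obtain ⟨K, hK⟩ : ∃ K, K = (1 / 4 : ℝ) * ∑ β, CB β ^ 2 + ε' * CD + 1 := ⟨_, rfl⟩
  have hK0 : 0 < K := by linarith
  refine ⟨R, K / (ε' * δ), hR, by positivity, ?_⟩
  intro Ψ hΨ H hH hHc h0 σ hσ hσs
  have hg := contDiff_gH hH hR h0
  have hgc : HasCompactSupport (gH H) := hcs_gH hHc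
  have ht := continuous_tH hH hσ hR h0
  have htc : HasCompactSupport (tH H σ) := hcs_tH hHc
  have cd : Continuous (dg (gH H)) := continuous_dg hg
  have ct : Continuous (rad (tH H σ)) := continuous_rad ht
  have hfin := lim_ineq (S := S) hR hε hε1 hε' hpt hH hHc h0 hσ hσs hΨ
  have r3 : (∫ x, rad (gH H) x * (inner ℂ (Ψ x) ((1 : F →L[ℂ] F) (Ψ x))).re) =
      ∫ x, ‖x‖ * H (‖x‖ ^ 2) ^ 2 * ‖Ψ x‖ ^ 2 := by
    refine integral_congr_ae (Filter.Eventually.of_forall fun x => ?_)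
    simp only [one_apply_eq_self, re_inner_self, rad, gH_norm]
  rw [r3] at hfin
  -- the weights on the right side
  have w1c : Continuous (fun x : X3 => deriv H (‖x‖ ^ 2) ^ 2 * ‖x‖ ^ 2) :=
    (((hH.continuous_deriv (by simp)).comp (continuous_norm.pow 2)).pow 2).mul
      (continuous_norm.pow 2)
  have w1s : HasCompactSupport (fun x : X3 => deriv H (‖x‖ ^ 2) ^ 2 * ‖x‖ ^ 2) := by
    refine (hcs_rad (f := deriv H) hHc.deriv).mono ?_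
    intro x hx
    simp only [Function.mem_support] at hx ⊢
    intro h0
    exact hx (by simp [h0])
  have w2c : Continuous (fun x : X3 => |dg (gH H) x - rad (tH H σ) x| * ‖x‖ ^ 2) :=
    (cd.sub ct).abs.mul (continuous_norm.pow 2)
  have w2s : HasCompactSupport (fun x : X3 => |dg (gH H) x - rad (tH H σ) x| * ‖x‖ ^ 2) := by
    have h1 : HasCompactSupport (fun x : X3 => dg (gH H) x - rad (tH H σ) x) :=
      (hcs_dg hgc).sub (hcs_rad' htc)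
    refine h1.mono ?_
    intro x hx
    simp only [Function.mem_support] at hx ⊢
    intro h0
    exact hx (by rw [h0]; simp)
  have I1 := int_weight w1c w1s Ψ
  have I2 := int_weight w2c w2s Ψ
  have hq' := S.grad_bound hCB I1
  have hb := S.boundary_bound hCD cd (hcs_dg hgc) ct (hcs_rad' htc) I2
  have hsplit : (∫ x : X3, (deriv H (‖x‖ ^ 2) ^ 2 * ‖x‖ ^ 2 +
          |2 * deriv (fun t => Real.sqrt t * H t ^ 2) (‖x‖ ^ 2) * ‖x‖ ^ 2 -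
            ‖x‖ * H (‖x‖ ^ 2) ^ 2 * σ (‖x‖ ^ 2)|) * ‖Ψ x‖ ^ 2) =
      (∫ x, (deriv H (‖x‖ ^ 2) ^ 2 * ‖x‖ ^ 2) * ‖Ψ x‖ ^ 2) +
      ∫ x, |dg (gH H) x - rad (tH H σ) x| * ‖x‖ ^ 2 * ‖Ψ x‖ ^ 2 := by
    rw [← integral_add I1 I2]
    refine integral_congr_ae (Filter.Eventually.of_forall fun x => ?_)
    simp only
    rw [← weight_eq, add_mul]
    rfl
  have hA1n : 0 ≤ ∫ x, (deriv H (‖x‖ ^ 2) ^ 2 * ‖x‖ ^ 2) * ‖Ψ x‖ ^ 2 :=
    integral_nonneg fun x => by positivity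
  have hA2n : 0 ≤ ∫ x, |dg (gH H) x - rad (tH H σ) x| * ‖x‖ ^ 2 * ‖Ψ x‖ ^ 2 :=
    integral_nonneg fun x => by positivity
  rw [hsplit, div_mul_eq_mul_div, le_div_iff₀ (by positivity)]
  exact final_arith hε'.le hK1 hK2 hK hfin hq' hb hA1n hA2n

end Setup
end Vale.Agent.P353
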