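import Vale.Agent.P353.BFSSLight
import Vale.Agent.P353.FinalOf
import Vale.Agent.P353.Weighted2

open MeasureTheory Filter Topology
open scoped ContDiff

namespace Vale.Agent.P353.BFSS

variable {N d : ℕ} {F : Type*} [NormedAddCommGroup F] [InnerProductSpace ℂ F]

lemma ae_sum {ι : Type*} (t : Finset ι) (c : ι → ℂ)
    (f : ι → Lp F 2 (volume : Measure (Cfg 3))) :
    ∀ᵐ x ∂(volume : Measure (Cfg 3)), (∑ i ∈ t, c i • f i : Lp F 2 (volume : Measure (Cfg 3))) x =
      ∑ i ∈ t, c i • f i x := by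
  classical
  induction t using Finset.induction_on with
  | empty =>
    simp only [Finset.sum_empty]
    exact Lp.coeFn_zero F 2 (volume : Measure (Cfg 3))
  | insert a t ha ih =>
    rw [Finset.sum_insert ha]
    filter_upwards [ih, Lp.coeFn_add (c a • f a) (∑ i ∈ t, c i • f i),
      Lp.coeFn_smul (c a) (f a)] with x h1 h2 h3
    rw [h2, Pi.add_apply, h1, h3, Pi.smul_apply, Finset.sum_insert ha]

/-- main theorem -/
theorem main (M : Model 2 3 F) :
    (∃ (n : ℕ) (Φ : Fin n → Conf 3 → F),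
      (∀ i, M.IsZeroEnergyState (Φ i)) ∧ ∀ Ψ, M.IsZeroEnergyState Ψ →
        ∃ c : Fin n → ℂ, ∀ᵐ x ∂leb 3, Ψ x = ∑ i, c i • Φ i x) ∧
    (∀ Ψ, M.IsZeroEnergyState Ψ → ∀ s : ℝ, 0 ≤ s → s < 9 →
      Integrable (fun x => ‖x‖ ^ s * ‖Ψ x‖ ^ 2) (leb 3)) := by
  have hF : FiniteDimensional ℂ F := M.toOld.finiteDimensional
  obtain ⟨h1, h2⟩ := final_of M.toOld fun s _ hs => M.toOld.toSetup.wineq hs
  constructor
  · have h3 : (Submodule.span ℂ {Ψ : Lp F 2 (volume : Measure (Cfg 3)) |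
        M.toOld.IsZeroEnergyState Ψ}).FG := Module.Finite.iff_fg.mp h1
    rw [Submodule.fg_span_iff_fg_span_finset_subset] at h3
    obtain ⟨s, hs, hspan⟩ := h3
    let e := s.equivFin
    refine ⟨s.card, fun i => ((e.symm i : Lp F 2 (volume : Measure (Cfg 3))) : Conf 3 → F),
      fun i => ?_, fun Ψ hΨ => ?_⟩
    · have h4 : M.toOld.IsZeroEnergyState (e.symm i : Lp F 2 (volume : Measure (Cfg 3))) :=
        hs (e.symm i).2
      refine (M.zes_iff _ (Lp.memLp _)).mpr ?_
      rw [Lp.toLp_coeFn]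
      exact h4
    · have hL : MemLp Ψ 2 (volume : Measure (Conf 3)) := hΨ.1
      have h5 := (M.zes_iff Ψ hL).mp hΨ
      have h6 : hL.toLp Ψ ∈ Submodule.span ℂ (s : Set (Lp F 2 (volume : Measure (Cfg 3)))) := by
        rw [← hspan]
        exact Submodule.subset_span h5
      rw [Submodule.mem_span_finset] at h6
      obtain ⟨c, -, hc⟩ := h6
      refine ⟨fun i => c (e.symm i), ?_⟩
      have h7 : hL.toLp Ψ = ∑ i, c (e.symm i) • (e.symm i : Lp F 2 (volume : Measure (Cfg 3))) := by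
        rw [← hc, ← Finset.sum_coe_sort s]
        exact (Equiv.sum_comp e.symm fun a : s =>
          c (a : Lp F 2 (volume : Measure (Cfg 3))) • (a : Lp F 2 (volume : Measure (Cfg 3)))).symm
      have h8 : ∀ᵐ x ∂(volume : Measure (Cfg 3)), (hL.toLp Ψ) x =
          ∑ i, c (e.symm i) • (e.symm i : Lp F 2 (volume : Measure (Cfg 3))) x := by
        rw [h7]
        exact ae_sum Finset.univ (fun i => c (e.symm i))
          fun i => (e.symm i : Lp F 2 (volume : Measure (Cfg 3)))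
      rw [leb]
      filter_upwards [hL.coeFn_toLp, h8] with x hx hx'
      rw [← hx, hx']
  · intro Ψ hΨ s hs0 hs
    have hL : MemLp Ψ 2 (volume : Measure (Conf 3)) := hΨ.1
    have h5 := (M.zes_iff Ψ hL).mp hΨ
    have h6 := h2 _ h5 s hs0 hs
    rw [leb]
    refine h6.congr ?_
    filter_upwards [hL.coeFn_toLp] with x hx
    rw [hx]

end Vale.Agent.P353.BFSS
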