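import Mathlib

open MeasureTheory Filter Topology
open scoped ContDiff

namespace Vale.Agent.P353

/-- The bosonic configuration space `ℝ^{9 d}`; `x (i, A)` is the coefficient `x_i^A`. -/
abbrev Cfg (d : ℕ) : Type := EuclideanSpace ℝ (Fin 9 × Fin d)

/-- The coefficients of the adjoint action: `U T_A U* = ∑ B, adCoeff T U B A • T_B`. -/
noncomputable def adCoeff {N d : ℕ} (T : Fin d → Matrix (Fin N) (Fin N) ℂ)
    (U : Matrix.specialUnitaryGroup (Fin N) ℂ) (B A : Fin d) : ℝ :=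
  (T B * ((U : Matrix (Fin N) (Fin N) ℂ) * T A *
    (U : Matrix (Fin N) (Fin N) ℂ).conjTranspose)).trace.re

/-- The data of the `SU(N)` BFSS matrix model with `d = N^2 - 1`: an orthonormal basis `T` of the
traceless Hermitian matrices, its structure constants `f`, nine real symmetric gamma matrices `γ`,
an irreducible Clifford module `F` with self-adjoint generators `θ`, and the unitary action `S` of
`SU(N)` on `F` that implements the adjoint rotation of the generators. -/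
structure Model (N d : ℕ) (F : Type*) [NormedAddCommGroup F] [InnerProductSpace ℂ F] where
  dim_eq : d = N ^ 2 - 1
  T : Fin d → Matrix (Fin N) (Fin N) ℂ
  T_hermitian : ∀ A, (T A).conjTranspose = T A
  T_traceless : ∀ A, (T A).trace = 0
  T_orthonormal : ∀ A B, (T A * T B).trace = if A = B then 1 else 0
  f : Fin d → Fin d → Fin d → ℝ
  T_comm : ∀ A B, T A * T B - T B * T A = ∑ C, (Complex.I * (f A B C : ℂ)) • T C
  γ : Fin 9 → Matrix (Fin 16) (Fin 16) ℝ
  γ_symm : ∀ i, (γ i).transpose = γ i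
  γ_anticomm : ∀ i j, γ i * γ j + γ j * γ i = if i = j then 2 else 0
  θ : Fin 16 → Fin d → F →L[ℂ] F
  θ_selfAdjoint : ∀ α A (v w : F), inner ℂ (θ α A v) w = inner ℂ v (θ α A w)
  θ_anticomm : ∀ α A β B, θ α A * θ β B + θ β B * θ α A = if α = β ∧ A = B then 1 else 0
  θ_irreducible : ∀ W : Submodule ℂ F, (∀ α A, ∀ v ∈ W, θ α A v ∈ W) → W = ⊥ ∨ W = ⊤
  nontrivial : ∃ v : F, v ≠ 0
  S : Matrix.specialUnitaryGroup (Fin N) ℂ →* (F →L[ℂ] F)
  S_isometry : ∀ U v, ‖S U v‖ = ‖v‖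
  S_continuous : ∀ v, Continuous fun U => S U v
  S_rotates : ∀ U α A, S U * θ α A = ∑ B, ((adCoeff T U B A : ℝ) : ℂ) • (θ α B * S U)

variable {N d : ℕ} {F : Type*} [NormedAddCommGroup F] [InnerProductSpace ℂ F]

/-- The partial derivative of `u` in the direction `x_i^A`. -/
noncomputable def pd (i : Fin 9) (A : Fin d) (u : Cfg d → F) (x : Cfg d) : F :=
  fderiv ℝ u x (EuclideanSpace.single (i, A) 1)

namespace Model

/-- `γ^{ij} = (γ^i γ^j - γ^j γ^i) / 2`. -/
noncomputable def γ2 (M : Model N d F) (i j : Fin 9) : Matrix (Fin 16) (Fin 16) ℝ :=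
  (1 / 2 : ℝ) • (M.γ i * M.γ j - M.γ j * M.γ i)

/-- The supercharge `Q_α`. -/
noncomputable def Q (M : Model N d F) (α : Fin 16) (u : Cfg d → F) (x : Cfg d) : F :=
  (-Complex.I) • ∑ i, ∑ β, ∑ A, ((M.γ i α β : ℝ) : ℂ) • M.θ β A (pd i A u x) +
    ((1 / 2 : ℝ) : ℂ) • ∑ A, ∑ B, ∑ C, ∑ i, ∑ j, ∑ β,
      ((M.f A B C * x (i, B) * x (j, C) * M.γ2 i j α β : ℝ) : ℂ) • M.θ β A (u x)

/-- The adjoint action of `U` on the configuration space. -/
noncomputable def act (M : Model N d F) (U : Matrix.specialUnitaryGroup (Fin N) ℂ) (x : Cfg d) :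
    Cfg d :=
  WithLp.toLp 2 fun p => ∑ A, adCoeff M.T U p.2 A * x (p.1, A)

/-- The form core: smooth compactly supported `SU(N)`-invariant wave functions. -/
def IsCore (M : Model N d F) (u : Cfg d → F) : Prop :=
  ContDiff ℝ ∞ u ∧ HasCompactSupport u ∧ ∀ U x, u (M.act U x) = M.S U (u x)

/-- The polarized form `q_N(φ, u) = (1/16) ∑ α, ⟨Q_α φ, Q_α u⟩`. -/
noncomputable def form (M : Model N d F) (φ u : Cfg d → F) : ℂ :=
  (1 / 16 : ℂ) * ∑ α, ∫ x, inner ℂ (M.Q α φ x) (M.Q α u x)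

/-- `Ψ` is in the domain of `H_N` and `H_N Ψ = 0`: there is a sequence in the core that converges
to `Ψ` in `L²`, is Cauchy for the form `q_N`, and along it `q_N(φ, ·)` tends to `0` for all `φ` in
the core (that is, the closed form satisfies `q_N(φ, Ψ) = 0 = ⟨φ, 0⟩`). -/
def IsZeroEnergyState (M : Model N d F) (Ψ : Lp F 2 (volume : Measure (Cfg d))) : Prop :=
  ∃ u : ℕ → Cfg d → F, (∀ n, M.IsCore (u n)) ∧
    Tendsto (fun n => ∫ x, ‖u n x - Ψ x‖ ^ 2) atTop (𝓝 0) ∧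
    Tendsto (fun p : ℕ × ℕ => M.form (u p.1 - u p.2) (u p.1 - u p.2)) atTop (𝓝 0) ∧
    ∀ φ, M.IsCore φ → Tendsto (fun n => M.form φ (u n)) atTop (𝓝 0)

end Model

end Vale.Agent.P353
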