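import Vale.Agent.P353.BFSS
import Vale.Agent.P353.Defs

open MeasureTheory Filter Topology
open scoped ContDiff

namespace Vale.Agent.P353.BFSS

variable {N d : ℕ} {F : Type*} [NormedAddCommGroup F] [InnerProductSpace ℂ F]

namespace Model

variable (M : Model N d F)

lemma S_one : M.S 1 = 1 := by
  ext v
  rw [one_apply_eq_self]
  have h1 : M.S 1 (M.S 1 v) = M.S 1 v := by
    rw [← M.S_mul, mul_one]
  have h2 : ‖M.S 1 v - v‖ = 0 := by
    rw [← M.S_isometry 1 (M.S 1 v - v), map_sub, h1, sub_self, norm_zero]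
  exact sub_eq_zero.mp (norm_eq_zero.mp h2)

/-- the model in the form used in the proofs -/
noncomputable def toOld : P353.Model N d F where
  dim_eq := M.dim_eq
  T := M.T
  T_hermitian := M.T_hermitian
  T_traceless := M.T_traceless
  T_orthonormal := M.T_orthonormal
  f := M.f
  T_comm := M.T_comm
  γ := M.γ
  γ_symm := M.γ_symm
  γ_anticomm := M.γ_anticomm
  θ := M.θ
  θ_selfAdjoint := M.θ_selfAdjoint
  θ_anticomm := by
    intro α A β B
    ext v
    have h := M.θ_anticomm α A β B v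
    rw [_root_.add_apply, mul_apply_eq_comp, mul_apply_eq_comp, h]
    split_ifs
    · rw [one_apply_eq_self]
    · rfl
  θ_irreducible := M.θ_irreducible
  nontrivial := M.nontrivial
  S :=
    { toFun := M.S
      map_one' := M.S_one
      map_mul' := by
        intro U V
        ext v
        rw [M.S_mul, mul_apply_eq_comp] }
  S_isometry := M.S_isometry
  S_continuous := M.S_continuous
  S_rotates := by
    intro U α A
    ext v
    have h := M.S_rotates U α A v
    simp only [mul_apply_eq_comp, _root_.sum_apply, _root_.smul_apply]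
    exact h

lemma pd_eq {u : Conf d → F} {x : Conf d} (hu : DifferentiableAt ℝ u x) (i : Fin 9) (A : Fin d) :
    pd i A u x = P353.pd i A u x := hu.lineDeriv_eq_fderiv

lemma Q_eq {u : Conf d → F} {x : Conf d} (hu : DifferentiableAt ℝ u x) (α : Fin 16) :
    M.Q α u x = M.toOld.Q α u x := by
  have e : (1 / 2 : ℂ) = ((1 / 2 : ℝ) : ℂ) := by norm_num
  rw [Q, P353.Model.Q, e]
  simp only [pd_eq hu]
  rfl

lemma isCore_iff (u : Conf d → F) : M.IsCore u ↔ M.toOld.IsCore u := Iff.rfl

lemma form_eq {φ u : Conf d → F} (hφ : Differentiable ℝ φ) (hu : Differentiable ℝ u) :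
    M.form φ u = M.toOld.form φ u := by
  rw [form, P353.Model.form, leb]
  congr 1
  refine Finset.sum_congr rfl fun α _ => ?_
  refine integral_congr_ae (Filter.Eventually.of_forall fun x => ?_)
  simp only [M.Q_eq (hφ x), M.Q_eq (hu x)]

variable {M} in
lemma IsCore.diff {u : Conf d → F} (hu : M.IsCore u) : Differentiable ℝ u :=
  hu.1.differentiable (by simp)

lemma zes_iff (Ψ : Conf d → F) (hΨ : MemLp Ψ 2 (volume : Measure (Conf d))) :
    M.IsZeroEnergyState Ψ ↔ M.toOld.IsZeroEnergyState (hΨ.toLp Ψ) := by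
  have h1 : ∀ u : ℕ → Conf d → F, (fun n => ∫ x, ‖u n x - (hΨ.toLp Ψ) x‖ ^ 2) =
      fun n => ∫ x, ‖u n x - Ψ x‖ ^ 2 := by
    intro u
    funext n
    refine integral_congr_ae ?_
    filter_upwards [hΨ.coeFn_toLp] with x hx
    rw [hx]
  have h2 : ∀ u : ℕ → Conf d → F, (∀ n, M.IsCore (u n)) →
      (fun p : ℕ × ℕ => M.toOld.form (u p.1 - u p.2) (u p.1 - u p.2)) =
      fun p : ℕ × ℕ => M.form (fun x => u p.1 x - u p.2 x) fun x => u p.1 x - u p.2 x := by
    intro u hu
    funext p
    have hd : Differentiable ℝ (fun x => u p.1 x - u p.2 x) := (hu p.1).diff.sub (hu p.2).diff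
    rw [M.form_eq hd hd]
    rfl
  have h3 : ∀ u : ℕ → Conf d → F, (∀ n, M.IsCore (u n)) → ∀ φ, M.IsCore φ →
      (fun n => M.toOld.form φ (u n)) = fun n => M.form φ (u n) := by
    intro u hu φ hφ
    funext n
    rw [M.form_eq hφ.diff (hu n).diff]
  constructor
  · rintro ⟨-, u, hu, ha, hb, hc⟩
    refine ⟨u, hu, ?_, ?_, ?_⟩
    · rw [h1]; exact ha
    · rw [h2 u hu]; exact hb
    · intro φ hφ
      rw [h3 u hu φ hφ]; exact hc φ hφ
  · rintro ⟨u, hu, ha, hb, hc⟩
    refine ⟨hΨ, u, hu, ?_, ?_, ?_⟩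
    · rw [h1] at ha; exact ha
    · rw [h2 u hu] at hb; exact hb
    · intro φ hφ
      have := hc φ hφ
      rw [h3 u hu φ hφ] at this; exact this

end Model

end Vale.Agent.P353.BFSS
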