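import Vale.Agent.P353.Core

namespace Vale.Agent.P353

variable {F : Type*} [NormedAddCommGroup F] [InnerProductSpace ℂ F]

/-- the quadratic boundary operator `i ∑_β B_β(x) M_β(x)` -/
noncomputable def Bd (S : Setup F) (x : X3) : F →L[ℂ] F :=
  Complex.I • ∑ β, S.B β x * S.Mult β x

/-- the two facts about the fermionic vacuum on flat directions -/
def VacuumStmt (S : Setup F) : Prop :=
  ∀ x : X3, ‖x‖ = 1 → S.V x = 0 → ∀ v : F,
    0 ≤ (inner ℂ v (S.Fx x v)).re + 8 * S.κ * ‖v‖ ^ 2 ∧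
    ((inner ℂ v (S.Fx x v)).re + 8 * S.κ * ‖v‖ ^ 2 = 0 →
      56 * ‖v‖ ^ 2 ≤ (inner ℂ v (S.O1 v)).re ∧
      (inner ℂ v (Bd S x v)).re ≤ 56 / 9 * ‖v‖ ^ 2)

end Vale.Agent.P353
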