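import Vale.Agent.P353.Defs
import Vale.Agent.P353.Alg

open MeasureTheory Filter Topology
open scoped ContDiff

namespace Vale.Agent.P353

/-- configuration space for `SU(2)` -/
abbrev X3 : Type := Cfg 3

variable (F : Type*) [NormedAddCommGroup F] [InnerProductSpace ℂ F]

/-- Abstract `SU(2)` setup used in the proofs: Clifford system acting on `F` and coupling `κ`. -/
structure Setup extends CS (F →L[ℂ] F) where
  κ : ℝ
  κ_pos : 0 < κ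
  g_real : ∀ i α β, (g i α β).im = 0
  th_sa : ∀ α A (v w : F), inner ℂ (th α A v) w = inner ℂ v (th α A w)

variable {F}

namespace Setup

variable (S : Setup F)

/-- `F^A_{ij}(x) = κ ε_{ABC} x_i^B x_j^C` -/
noncomputable def FF (A : Fin 3) (i j : Fin 9) (x : X3) : ℝ :=
  S.κ * ∑ B, ∑ C, (eps A B C : ℝ) * x (i, B) * x (j, C)

/-- `W_β(x) = (1/2) F^A_{ij} (γ^{ij} θ^A)_β` -/
noncomputable def W (β : Fin 16) (x : X3) : F →L[ℂ] F :=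
  (1 / 2 : ℂ) • ∑ A, ∑ i, ∑ j, ((S.FF A i j x : ℝ) : ℂ) • S.vec (S.g2 i j) A β

/-- supercharge `Q_β u = -i (γ^i θ^A)_β ∂_i^A u + W_β u` -/
noncomputable def Q (β : Fin 16) (u : X3 → F) (x : X3) : F :=
  (-Complex.I) • ∑ i, ∑ A, S.vec (S.g i) A β (pd i A u x) + S.W β x (u x)

/-- `S_{kl} = -(i/4) θ γ^{kl} θ` -/
noncomputable def Skl (k l : Fin 9) : F →L[ℂ] F := (-Complex.I / 4) • S.tot (S.g2 k l)

/-- spin part of the gauge generator `𝒮_C = -(i/2) ε_{CDE} θ^D·θ^E` -/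
noncomputable def cS (C : Fin 3) : F →L[ℂ] F :=
  (-Complex.I / 2) • ∑ D, ∑ E, (eps C D E : ℂ) • S.bil 1 D E

/-- rotation generator `J_{kl}` -/
noncomputable def J (k l : Fin 9) (u : X3 → F) (x : X3) : F :=
  (-Complex.I) • ∑ A, ((x (k, A) : ℂ) • pd l A u x - (x (l, A) : ℂ) • pd k A u x) +
    S.Skl k l (u x)

/-- gauge generator `G_C` -/
noncomputable def G (C : Fin 3) (u : X3 → F) (x : X3) : F :=
  (-Complex.I) • ∑ i, ∑ A, ∑ B, ((eps C A B : ℂ) * (x (i, A) : ℂ)) • pd i B u x + S.cS C (u x)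

/-- `B_β(x) = x_i^A (γ^i θ^A)_β` -/
noncomputable def B (β : Fin 16) (x : X3) : F →L[ℂ] F :=
  ∑ i, ∑ A, (x (i, A) : ℂ) • S.vec (S.g i) A β

/-- the Casimir `C₂ = ∑_{k<l} S_{kl}²` -/
noncomputable def C2 : F →L[ℂ] F := (1 / 2 : ℂ) • ∑ k, ∑ l, S.Skl k l * S.Skl k l

/-- the gauge Casimir -/
noncomputable def CG : F →L[ℂ] F := ∑ C, S.cS C * S.cS C

/-- the bounded operator `4 C₂ + C_G - 88` -/
noncomputable def O1 : F →L[ℂ] F := (4 : ℂ) • S.C2 + S.CG - (88 : ℂ) • 1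

/-- the multiplier `M_β(x)` (linear in `x`), `27 M = M^{S1} + 5 M^G - (4/3) M^{IC} - 11 i B`. -/
noncomputable def Mult (β : Fin 16) (x : X3) : F →L[ℂ] F :=
  (1 / 27 : ℂ) • (
    (∑ j, ∑ l, (∑ A, (x (j, A) : ℂ) • S.vec (S.g l) A β) * S.Skl j l)
    + (5 : ℂ) • (∑ C, (∑ j, ∑ A, ∑ A', ((eps A A' C : ℂ) * (x (j, A) : ℂ)) • S.vec (S.g j) A' β)
        * S.cS C)
    + (4 / 3 : ℂ) • (∑ k, ∑ l, (∑ j, ∑ A, (x (j, A) : ℂ) • S.vec (S.g2 k l * S.g j) A β)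
        * S.Skl k l)
    - (11 * Complex.I) • S.B β x)

/-- bosonic potential `V = (1/4) ∑ (F^A_{ij})²` -/
noncomputable def V (x : X3) : ℝ := (1 / 4) * ∑ A, ∑ i, ∑ j, (S.FF A i j x) ^ 2

/-- fermionic potential `F(x) = (i/2) κ ε_{ABC} x_q^C θ^A γ^q θ^B` -/
noncomputable def Fx (x : X3) : F →L[ℂ] F :=
  (Complex.I / 2 * (S.κ : ℂ)) • ∑ q, ∑ A, ∑ B, ∑ C, ((eps A B C : ℂ) * (x (q, C) : ℂ)) •
    S.bil (S.g q) A B

/-- test functions -/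
def Tst (u : X3 → F) : Prop := ContDiff ℝ ∞ u ∧ HasCompactSupport u

/-- approximating sequences of zero modes -/
def Apx (Ψ : Lp F 2 (volume : Measure X3)) (u : ℕ → X3 → F) : Prop :=
  (∀ n, Tst (u n)) ∧ (∀ n C x, S.G C (u n) x = 0) ∧
    Tendsto (fun n => ∫ x, ‖u n x - Ψ x‖ ^ 2) atTop (𝓝 0) ∧
    ∀ β, Tendsto (fun n => ∫ x, ‖S.Q β (u n) x‖ ^ 2) atTop (𝓝 0)

/-- zero modes -/
def IsZM (Ψ : Lp F 2 (volume : Measure X3)) : Prop := ∃ u, S.Apx Ψ u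

end Setup
end Vale.Agent.P353
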