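import Vale.Agent.P353.Gauge
import Vale.Agent.P353.Core

open MeasureTheory Filter Topology
open scoped ContDiff

namespace Vale.Agent.P353

/-! ### the Clifford module is finite dimensional -/

section FD

variable {N d : ℕ} {F : Type*} [NormedAddCommGroup F] [InnerProductSpace ℂ F] (M : Model N d F)

/-- the span of the products of a list of generators applied to `v` -/
noncomputable def genSub (v : F) : List (Fin 16 × Fin d) → Submodule ℂ F
  | [] => Submodule.span ℂ {v}
  | a :: l => genSub v l ⊔ (genSub v l).map (M.θ a.1 a.2 : F →ₗ[ℂ] F)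

lemma genSub_fd (v : F) (l : List (Fin 16 × Fin d)) : FiniteDimensional ℂ (genSub M v l) := by
  induction l with
  | nil => exact FiniteDimensional.span_singleton ℂ v
  | cons a l ih => 
    rw [genSub]
    infer_instance

lemma mem_genSub (v : F) (l : List (Fin 16 × Fin d)) : v ∈ genSub M v l := by
  induction l with
  | nil => exact Submodule.mem_span_singleton_self v
  | cons a l ih => exact Submodule.mem_sup_left ih

lemma theta_sq (α : Fin 16) (A : Fin d) (w : F) : M.θ α A (M.θ α A w) = (1 / 2 : ℂ) • w := by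
  have h := congrArg (fun T : F →L[ℂ] F => T w) (M.θ_anticomm α A α A)
  simp only [_root_.add_apply, mul_apply_eq_comp, and_self, if_true, one_apply_eq_self] at h
  conv_rhs => rw [← h]
  rw [smul_add, ← add_smul]
  norm_num

lemma genSub_inv (v : F) (l : List (Fin 16 × Fin d)) :
    ∀ b ∈ l, ∀ w ∈ genSub M v l, M.θ b.1 b.2 w ∈ genSub M v l := by
  induction l with
  | nil => intro b hb; simp at hb
  | cons a l ih =>
    intro b hb w hw
    rw [genSub, Submodule.mem_sup] at hw
    obtain ⟨w1, hw1, w2', hw2', rfl⟩ := hw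
    obtain ⟨w2, hw2, rfl⟩ := Submodule.mem_map.mp hw2'
    rw [map_add]
    rw [genSub]
    change M.θ b.1 b.2 w1 + M.θ b.1 b.2 (M.θ a.1 a.2 w2) ∈ _
    by_cases hba : b = a
    · subst hba
      rw [theta_sq]
      refine Submodule.add_mem _ ?_ ?_
      · exact Submodule.mem_sup_right (Submodule.mem_map.mpr ⟨w1, hw1, rfl⟩)
      · exact Submodule.mem_sup_left (Submodule.smul_mem _ _ hw2)
    · have hbl : b ∈ l := by
        rcases List.mem_cons.mp hb with h | h
        · exact absurd h hba
        · exact h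
      have h := congrArg (fun T : F →L[ℂ] F => T w2) (M.θ_anticomm b.1 b.2 a.1 a.2)
      have hne : ¬ (b.1 = a.1 ∧ b.2 = a.2) := fun hh => hba (Prod.ext hh.1 hh.2)
      simp only [_root_.add_apply, mul_apply_eq_comp, if_neg hne, _root_.zero_apply] at h
      have h2 : M.θ b.1 b.2 (M.θ a.1 a.2 w2) = -(M.θ a.1 a.2 (M.θ b.1 b.2 w2)) :=
        eq_neg_of_add_eq_zero_left h
      rw [h2]
      refine Submodule.add_mem _ ?_ (Submodule.neg_mem _ ?_)
      · exact Submodule.mem_sup_left (ih b hbl w1 hw1)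
      · exact Submodule.mem_sup_right (Submodule.mem_map.mpr ⟨_, ih b hbl w2 hw2, rfl⟩)

include M in
theorem Model.finiteDimensional : FiniteDimensional ℂ F := by
  obtain ⟨v, hv⟩ := M.nontrivial
  set l := (Finset.univ : Finset (Fin 16 × Fin d)).toList with hl
  have hinv : ∀ α A, ∀ w ∈ genSub M v l, M.θ α A w ∈ genSub M v l := by
    intro α A w hw
    exact genSub_inv M v l (α, A) (by rw [hl, Finset.mem_toList]; exact Finset.mem_univ _) w hw
  rcases M.θ_irreducible _ hinv with h | h
  · exfalso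
    have := mem_genSub M v l
    rw [h, Submodule.mem_bot] at this
    exact hv this
  · have h1 := genSub_fd M v l
    rw [h] at h1
    exact Module.finite_def.mpr ((Submodule.fg_iff_finiteDimensional _).mpr h1)

end FD

/-! ### the abstract setup attached to a model -/

variable {F : Type*} [NormedAddCommGroup F] [InnerProductSpace ℂ F] (M : Model 2 3 F)

/-- the sign of the structure constant -/
noncomputable def sgnM : ℝ := if 0 < M.f 0 1 2 then 1 else -1

lemma sgnM_sq : sgnM M * sgnM M = 1 := by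
  unfold sgnM; split_ifs <;> norm_num

lemma sgnM_abs : |sgnM M| = 1 := by
  unfold sgnM; split_ifs <;> norm_num

lemma sgnM_mul_pos : 0 < sgnM M * M.f 0 1 2 := by
  have h := f_sq M
  unfold sgnM
  split_ifs with hh
  · linarith
  · push Not at hh
    have : M.f 0 1 2 ≠ 0 := by
      intro h0; rw [h0] at h; norm_num at h
    have : M.f 0 1 2 < 0 := lt_of_le_of_ne hh this
    linarith

/-- the real matrix as a complex one with a sign -/
noncomputable def gC (i : Fin 9) : Matrix (Fin 16) (Fin 16) ℂ :=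
  Matrix.of fun α β => ((sgnM M * M.γ i α β : ℝ) : ℂ)

lemma gC_mul (i j : Fin 9) (α β : Fin 16) : (gC M i * gC M j) α β =
    (((M.γ i * M.γ j) α β : ℝ) : ℂ) := by
  simp only [Matrix.mul_apply, gC, Matrix.of_apply]
  push_cast
  refine Finset.sum_congr rfl fun k _ => ?_
  have h : ((sgnM M : ℝ) : ℂ) * ((sgnM M : ℝ) : ℂ) = 1 := by
    rw [← Complex.ofReal_mul, sgnM_sq]; simp
  linear_combination (M.γ i α k : ℂ) * (M.γ j k β : ℂ) * h

/-- the abstract setup of a model -/
noncomputable def Model.toSetup : Setup F where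
  g := gC M
  g_symm := by
    intro i
    ext α β
    have h := congrArg (fun m : Matrix (Fin 16) (Fin 16) ℝ => m α β) (M.γ_symm i)
    simp only [Matrix.transpose_apply] at h
    simp [gC, h]
  g_anti := by
    intro i j
    ext α β
    rw [Matrix.add_apply, gC_mul, gC_mul]
    have h := congrArg (fun m : Matrix (Fin 16) (Fin 16) ℝ => m α β) (M.γ_anticomm i j)
    simp only [Matrix.add_apply] at h
    rw [← Complex.ofReal_add, h]
    by_cases hij : i = j
    · rw [if_pos hij, if_pos hij]
      by_cases hab : α = β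
      · subst hab
        have e1 : (2 : Matrix (Fin 16) (Fin 16) ℝ) α α = 2 := by
          have : (2 : Matrix (Fin 16) (Fin 16) ℝ) = 1 + 1 := by norm_num
          rw [this, Matrix.add_apply, Matrix.one_apply_eq]; norm_num
        have e2 : (2 : Matrix (Fin 16) (Fin 16) ℂ) α α = 2 := by
          have : (2 : Matrix (Fin 16) (Fin 16) ℂ) = 1 + 1 := by norm_num
          rw [this, Matrix.add_apply, Matrix.one_apply_eq]; norm_num
        rw [e1, e2]; simp
      · have e1 : (2 : Matrix (Fin 16) (Fin 16) ℝ) α β = 0 := by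
          have : (2 : Matrix (Fin 16) (Fin 16) ℝ) = 1 + 1 := by norm_num
          rw [this, Matrix.add_apply, Matrix.one_apply_ne hab]; norm_num
        have e2 : (2 : Matrix (Fin 16) (Fin 16) ℂ) α β = 0 := by
          have : (2 : Matrix (Fin 16) (Fin 16) ℂ) = 1 + 1 := by norm_num
          rw [this, Matrix.add_apply, Matrix.one_apply_ne hab]; norm_num
        rw [e1, e2]; simp
    · rw [if_neg hij, if_neg hij]; simp
  th := M.θ
  th_anti := M.θ_anticomm
  κ := sgnM M * M.f 0 1 2
  κ_pos := sgnM_mul_pos M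
  g_real := by
    intro i α β
    simp [gC]
  th_sa := M.θ_selfAdjoint

lemma toSetup_g2 (i j : Fin 9) (α β : Fin 16) : (M.toSetup).g2 i j α β =
    ((M.γ2 i j α β : ℝ) : ℂ) := by
  change ((1 / 2 : ℂ) • (gC M i * gC M j - gC M j * gC M i)) α β = _
  rw [Matrix.smul_apply, Matrix.sub_apply, gC_mul, gC_mul, Model.γ2, Matrix.smul_apply,
    Matrix.sub_apply]
  simp

/-- the supercharges agree up to a sign -/
lemma toSetup_Q (β : Fin 16) (u : X3 → F) (x : X3) :
    (M.toSetup).Q β u x = ((sgnM M : ℝ) : ℂ) • M.Q β u x := by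
  rw [Setup.Q, Model.Q, smul_add]
  congr 1
  · rw [smul_comm]
    congr 1
    rw [Finset.smul_sum]
    refine Finset.sum_congr rfl fun i _ => ?_
    rw [Finset.sum_comm, Finset.smul_sum]
    refine Finset.sum_congr rfl fun A _ => ?_
    rw [CS.vec, _root_.sum_apply, Finset.smul_sum]
    refine Finset.sum_congr rfl fun γ _ => ?_
    rw [_root_.smul_apply, smul_smul]
    congr 1
    change ((sgnM M * M.γ i β γ : ℝ) : ℂ) = _
    push_cast; ring
  · rw [Setup.W, _root_.smul_apply, smul_comm]
    have e : ((1 / 2 : ℝ) : ℂ) = (1 / 2 : ℂ) := by norm_num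
    rw [e]
    congr 1
    simp only [_root_.sum_apply, Finset.smul_sum]
    -- both sides as sums over A, i, j, γ
    have h1 : ∀ A i j, (((M.toSetup).FF A i j x : ℝ) : ℂ) • (M.toSetup).vec ((M.toSetup).g2 i j) A β (u x) =
        ∑ B, ∑ C, ∑ γ, ((sgnM M : ℝ) : ℂ) •
          (((M.f A B C * x (i, B) * x (j, C) * M.γ2 i j β γ : ℝ) : ℂ) • M.θ γ A (u x)) := by
      intro A i j
      have hF : (((M.toSetup).FF A i j x : ℝ) : ℂ) =
          ∑ B, ∑ C, ((sgnM M : ℝ) : ℂ) * ((M.f A B C * x (i, B) * x (j, C) : ℝ) : ℂ) := by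
        change ((((sgnM M * M.f 0 1 2) * ∑ B, ∑ C, (eps A B C : ℝ) * x (i, B) * x (j, C)) : ℝ) : ℂ) = _
        push_cast
        rw [Finset.mul_sum]
        refine Finset.sum_congr rfl fun B _ => ?_
        rw [Finset.mul_sum]
        refine Finset.sum_congr rfl fun C _ => ?_
        rw [f_eq_eps M A B C]
        push_cast
        ring
      rw [hF, CS.vec, _root_.sum_apply, Finset.sum_smul]
      refine Finset.sum_congr rfl fun B _ => ?_
      rw [Finset.sum_smul]
      refine Finset.sum_congr rfl fun C _ => ?_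
      rw [Finset.smul_sum]
      refine Finset.sum_congr rfl fun γ _ => ?_
      rw [_root_.smul_apply, smul_smul, smul_smul, toSetup_g2]
      congr 1
      push_cast
      ring
    simp only [_root_.smul_apply]
    simp only [h1]
    refine Finset.sum_congr rfl fun A _ => ?_
    calc _ = ∑ i, ∑ B, ∑ j, ∑ C, ∑ γ, ((sgnM M : ℝ) : ℂ) •
          (((M.f A B C * x (i, B) * x (j, C) * M.γ2 i j β γ : ℝ) : ℂ) • M.θ γ A (u x)) :=
          Finset.sum_congr rfl fun i _ => Finset.sum_comm
      _ = ∑ B, ∑ i, ∑ j, ∑ C, ∑ γ, ((sgnM M : ℝ) : ℂ) •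
          (((M.f A B C * x (i, B) * x (j, C) * M.γ2 i j β γ : ℝ) : ℂ) • M.θ γ A (u x)) :=
          Finset.sum_comm
      _ = ∑ B, ∑ i, ∑ C, ∑ j, ∑ γ, ((sgnM M : ℝ) : ℂ) •
          (((M.f A B C * x (i, B) * x (j, C) * M.γ2 i j β γ : ℝ) : ℂ) • M.θ γ A (u x)) :=
          Finset.sum_congr rfl fun B _ => Finset.sum_congr rfl fun i _ => Finset.sum_comm
      _ = _ := Finset.sum_congr rfl fun B _ => Finset.sum_comm

/-- the gauge generators annihilate the core -/
lemma toSetup_G [FiniteDimensional ℂ F] {u : X3 → F} (hu : M.IsCore u) (C : Fin 3) (x : X3) :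
    (M.toSetup).G C u x = 0 := by
  have h := gauss_law M u hu C x
  have h0 : M.f 0 1 2 ≠ 0 := by
    intro h0
    have := f_sq M
    rw [h0] at this; norm_num at this
  have e1 : ∑ A, ∑ B, ∑ i, ((M.f C A B * x (i, A) : ℝ) : ℂ) • pd i B u x =
      ((M.f 0 1 2 : ℝ) : ℂ) • ∑ i, ∑ A, ∑ B, ((eps C A B : ℂ) * (x (i, A) : ℂ)) • pd i B u x := by
    calc _ = ∑ A, ∑ i, ∑ B, ((M.f C A B * x (i, A) : ℝ) : ℂ) • pd i B u x :=
          Finset.sum_congr rfl fun A _ => Finset.sum_comm
      _ = ∑ i, ∑ A, ∑ B, ((M.f C A B * x (i, A) : ℝ) : ℂ) • pd i B u x := Finset.sum_comm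
      _ = _ := by
        simp only [Finset.smul_sum, smul_smul]
        refine Finset.sum_congr rfl fun i _ => Finset.sum_congr rfl fun A _ =>
          Finset.sum_congr rfl fun B _ => ?_
        congr 1
        rw [f_eq_eps M C A B]
        push_cast
        ring
  have e2 : ∑ A, ∑ B, ∑ α, ((M.f C A B / 2 : ℝ) : ℂ) • M.θ α A (M.θ α B (u x)) =
      ((M.f 0 1 2 : ℝ) : ℂ) • ((1 / 2 : ℂ) • ∑ D, ∑ E, (eps C D E : ℂ) •
        (M.toSetup).bil 1 D E (u x)) := by
    simp only [Finset.smul_sum, smul_smul]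
    refine Finset.sum_congr rfl fun D _ => Finset.sum_congr rfl fun E _ => ?_
    rw [CS.bil, _root_.sum_apply, Finset.smul_sum]
    refine Finset.sum_congr rfl fun α _ => ?_
    rw [CS.vec_one, mul_apply_eq_comp, f_eq_eps M C D E]
    change _ = _ • M.θ α D (M.θ α E (u x))
    congr 1
    push_cast
    ring
  rw [e1, e2, ← smul_add, smul_eq_zero] at h
  have h2 := h.resolve_left (by exact_mod_cast h0)
  rw [Setup.G, Setup.cS, _root_.smul_apply]
  simp only [_root_.sum_apply, _root_.smul_apply]
  have h3 : ∀ a b : F, a + (1 / 2 : ℂ) • b = 0 → (-Complex.I) • a + (-Complex.I / 2) • b = 0 := by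
    intro a b hab
    have : (-Complex.I) • a + (-Complex.I / 2) • b = (-Complex.I) • (a + (1 / 2 : ℂ) • b) := by
      rw [smul_add, smul_smul]; congr 2; ring
    rw [this, hab, smul_zero]
  exact h3 _ _ h2

end Vale.Agent.P353
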