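import Vale.Agent.P353.BridgeA
import Vale.Agent.P353.Tools

open MeasureTheory Filter Topology
open scoped ContDiff

namespace Vale.Agent.P353

variable {F : Type*} [NormedAddCommGroup F] [InnerProductSpace ℂ F]

/-! ### linearity of `Q` and `G`, the submodule of zero modes -/

namespace Setup

variable (S : Setup F)

lemma Q_add {β : Fin 16} {u v : X3 → F} {x : X3} (hu : DifferentiableAt ℝ u x)
    (hv : DifferentiableAt ℝ v x) :
    S.Q β (fun y => u y + v y) x = S.Q β u x + S.Q β v x := by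
  simp only [Q, pd_add hu hv, map_add, Finset.sum_add_distrib, smul_add]
  abel

lemma Q_sub {β : Fin 16} {u v : X3 → F} {x : X3} (hu : DifferentiableAt ℝ u x)
    (hv : DifferentiableAt ℝ v x) :
    S.Q β (fun y => u y - v y) x = S.Q β u x - S.Q β v x := by
  simp only [Q, pd_sub hu hv, map_sub, Finset.sum_sub_distrib, smul_sub]
  abel

lemma pd_cs {i : Fin 9} {A : Fin 3} (c : ℂ) {u : X3 → F} {x : X3}
    (hu : DifferentiableAt ℝ u x) : Vale.Agent.P353.pd i A (fun y => c • u y) x =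
      c • Vale.Agent.P353.pd i A u x := by
  have h := pd_clm (i := i) (A := A) (c • (1 : F →L[ℂ] F)) hu
  simpa using h

lemma Q_cs {β : Fin 16} (c : ℂ) {u : X3 → F} {x : X3} (hu : DifferentiableAt ℝ u x) :
    S.Q β (fun y => c • u y) x = c • S.Q β u x := by
  simp only [Q, pd_cs c hu, map_smul, smul_add, Finset.smul_sum]
  congr 1
  refine Finset.sum_congr rfl fun i _ => Finset.sum_congr rfl fun A _ => ?_
  rw [smul_comm]

lemma G_add {C : Fin 3} {u v : X3 → F} {x : X3} (hu : DifferentiableAt ℝ u x)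
    (hv : DifferentiableAt ℝ v x) :
    S.G C (fun y => u y + v y) x = S.G C u x + S.G C v x := by
  simp only [G, pd_add hu hv, map_add, Finset.sum_add_distrib, smul_add]
  abel

lemma G_cs {C : Fin 3} (c : ℂ) {u : X3 → F} {x : X3} (hu : DifferentiableAt ℝ u x) :
    S.G C (fun y => c • u y) x = c • S.G C u x := by
  simp only [G, pd_cs c hu, map_smul, smul_add, Finset.smul_sum]
  congr 1
  refine Finset.sum_congr rfl fun i _ => Finset.sum_congr rfl fun A _ =>
    Finset.sum_congr rfl fun B _ => ?_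
  rw [smul_comm c, smul_comm c]

omit [InnerProductSpace ℂ F] in
lemma tendsto_sq_add {f g : ℕ → X3 → F} (hf : ∀ n, MemLp (f n) 2 (volume : Measure X3))
    (hg : ∀ n, MemLp (g n) 2 (volume : Measure X3))
    (h1 : Tendsto (fun n => ∫ x, ‖f n x‖ ^ 2) atTop (𝓝 0))
    (h2 : Tendsto (fun n => ∫ x, ‖g n x‖ ^ 2) atTop (𝓝 0)) :
    Tendsto (fun n => ∫ x, ‖f n x + g n x‖ ^ 2) atTop (𝓝 0) := by
  have h3 : Tendsto (fun n => 2 * (∫ x, ‖f n x‖ ^ 2) + 2 * ∫ x, ‖g n x‖ ^ 2) atTop
      (𝓝 (2 * 0 + 2 * 0)) := (h1.const_mul 2).add (h2.const_mul 2)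
  rw [mul_zero, add_zero] at h3
  refine squeeze_zero (fun n => integral_nonneg fun x => by positivity) (fun n => ?_) h3
  have i1 := memLp_norm_sq_int (hf n)
  have i2 := memLp_norm_sq_int (hg n)
  rw [← integral_const_mul, ← integral_const_mul, ← integral_add (i1.const_mul 2) (i2.const_mul 2)]
  refine integral_mono_of_nonneg (Filter.Eventually.of_forall fun x => by
    simp only [Pi.zero_apply]; positivity) ((i1.const_mul 2).add (i2.const_mul 2))
    (Filter.Eventually.of_forall fun x => ?_)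
  simp only
  have h := norm_add_le (f n x) (g n x)
  have h0 := norm_nonneg (f n x + g n x)
  nlinarith [sq_nonneg (‖f n x‖ - ‖g n x‖)]

lemma IsZM.add {Ψ Φ : Lp F 2 (volume : Measure X3)} (h1 : S.IsZM Ψ) (h2 : S.IsZM Φ) :
    S.IsZM (Ψ + Φ) := by
  obtain ⟨u, hu1, hu2, hu3, hu4⟩ := h1
  obtain ⟨v, hv1, hv2, hv3, hv4⟩ := h2
  refine ⟨fun n x => u n x + v n x, fun n => (hu1 n).add (hv1 n), fun n C x => ?_, ?_, fun β => ?_⟩
  · rw [S.G_add ((hu1 n).diff x) ((hv1 n).diff x), hu2, hv2, add_zero]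
  · refine (tendsto_sq_add (f := fun n x => u n x - Ψ x) (g := fun n x => v n x - Φ x)
      (fun n => (hu1 n).memLp.sub (Lp.memLp Ψ)) (fun n => (hv1 n).memLp.sub (Lp.memLp Φ))
      hu3 hv3).congr fun n => ?_
    refine integral_congr_ae ?_
    filter_upwards [Lp.coeFn_add Ψ Φ] with x hx
    rw [hx, Pi.add_apply]
    congr 2
    abel
  · refine (tendsto_sq_add (fun n => ((hu1 n).Q S β).memLp) (fun n => ((hv1 n).Q S β).memLp)
      (hu4 β) (hv4 β)).congr fun n => ?_
    refine integral_congr_ae (Filter.Eventually.of_forall fun x => ?_)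
    simp only
    rw [S.Q_add ((hu1 n).diff x) ((hv1 n).diff x)]

lemma Tst.cs {u : X3 → F} (hu : Tst u) (c : ℂ) : Tst (fun x => c • u x) := by
  refine ⟨contDiff_const.smul hu.1, hu.2.mono ?_⟩
  intro x hx
  simp only [Function.mem_support] at hx ⊢
  intro h0
  exact hx (by rw [h0, smul_zero])

lemma IsZM.smul {Ψ : Lp F 2 (volume : Measure X3)} (h1 : S.IsZM Ψ) (c : ℂ) :
    S.IsZM (c • Ψ) := by
  obtain ⟨u, hu1, hu2, hu3, hu4⟩ := h1
  refine ⟨fun n x => c • u n x, fun n => (hu1 n).cs c, fun n C x => ?_, ?_, fun β => ?_⟩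
  · rw [S.G_cs c ((hu1 n).diff x), hu2, smul_zero]
  · have h := hu3.const_mul (‖c‖ ^ 2)
    rw [mul_zero] at h
    refine h.congr fun n => ?_
    rw [← integral_const_mul]
    refine integral_congr_ae ?_
    filter_upwards [Lp.coeFn_smul c Ψ] with x hx
    rw [hx, Pi.smul_apply, ← smul_sub, norm_smul, mul_pow]
  · have h := (hu4 β).const_mul (‖c‖ ^ 2)
    rw [mul_zero] at h
    refine h.congr fun n => ?_
    rw [← integral_const_mul]
    refine integral_congr_ae (Filter.Eventually.of_forall fun x => ?_)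
    simp only
    rw [S.Q_cs c ((hu1 n).diff x), norm_smul, mul_pow]

lemma IsZM.zero : S.IsZM (0 : Lp F 2 (volume : Measure X3)) := by
  refine ⟨fun _ _ => 0, fun n => ⟨contDiff_const, HasCompactSupport.zero⟩, fun n C x => ?_, ?_,
    fun β => ?_⟩
  · simp [G, Vale.Agent.P353.pd]
  · refine tendsto_const_nhds.congr fun n => ?_
    symm
    rw [integral_eq_zero_of_ae]
    filter_upwards [Lp.coeFn_zero F 2 (volume : Measure X3)] with x hx
    rw [hx]; simp
  · refine tendsto_const_nhds.congr fun n => ?_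
    symm
    rw [integral_eq_zero_of_ae]
    refine Filter.Eventually.of_forall fun x => ?_
    simp [Q, Vale.Agent.P353.pd]

/-- the space of zero modes -/
noncomputable def zm : Submodule ℂ (Lp F 2 (volume : Measure X3)) where
  carrier := {Ψ | S.IsZM Ψ}
  zero_mem' := IsZM.zero S
  add_mem' := fun h1 h2 => IsZM.add S h1 h2
  smul_mem' := fun c _ h => IsZM.smul S h c

end Setup

/-! ### zero-energy states of the model are zero modes of the setup -/

variable (M : Model 2 3 F)

lemma form_eq (φ u : X3 → F) : M.form φ u =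
    (1 / 16 : ℂ) * ∑ α, ∫ x, inner ℂ ((M.toSetup).Q α φ x) ((M.toSetup).Q α u x) := by
  rw [Model.form]
  congr 1
  refine Finset.sum_congr rfl fun α _ => integral_congr_ae (Filter.Eventually.of_forall fun x => ?_)
  simp only
  rw [toSetup_Q, toSetup_Q, inner_smul_left, inner_smul_right, Complex.conj_ofReal, ← mul_assoc,
    ← Complex.ofReal_mul, sgnM_sq]
  simp

lemma inner_self_C (a : F) : inner ℂ a a = ((‖a‖ ^ 2 : ℝ) : ℂ) := by
  rw [inner_self_eq_norm_sq_to_K]
  norm_cast

lemma form_self_re (u : X3 → F) : (M.form u u).re =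
    1 / 16 * ∑ α, ∫ x, ‖(M.toSetup).Q α u x‖ ^ 2 := by
  rw [form_eq]
  have h : ∀ α, ∫ x, inner ℂ ((M.toSetup).Q α u x) ((M.toSetup).Q α u x) =
      ((∫ x, ‖(M.toSetup).Q α u x‖ ^ 2 : ℝ) : ℂ) := by
    intro α
    rw [← integral_complex_ofReal]
    exact integral_congr_ae (Filter.Eventually.of_forall fun x => inner_self_C _)
  simp only [h]
  rw [← Complex.ofReal_sum]
  have e : (1 / 16 : ℂ) = ((1 / 16 : ℝ) : ℂ) := by norm_num
  rw [e, ← Complex.ofReal_mul, Complex.ofReal_re]

lemma form_sub_re {u v : X3 → F} (hu : Setup.Tst u) (hv : Setup.Tst v) :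
    (M.form (u - v) (u - v)).re = (M.form u u).re - 2 * (M.form v u).re + (M.form v v).re := by
  rw [form_self_re, form_self_re, form_self_re, form_eq]
  set S := M.toSetup with hS
  have h : ∀ α, ∫ x, ‖S.Q α (u - v) x‖ ^ 2 = (∫ x, ‖S.Q α u x‖ ^ 2) -
      2 * (∫ x, inner ℂ (S.Q α v x) (S.Q α u x)).re + (∫ x, ‖S.Q α v x‖ ^ 2) := by
    intro α
    have i1 := (hu.Q S α).norm_sq_int
    have i2 := (hv.Q S α).norm_sq_int
    have i3 : Integrable (fun x => inner ℂ (S.Q α v x) (S.Q α u x)) :=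
      (hv.Q S α).inner_int (hu.Q S α).1.continuous
    have i4 : Integrable (fun x => (inner ℂ (S.Q α v x) (S.Q α u x) : ℂ).re) := i3.re
    have e1 : (∫ x, inner ℂ (S.Q α v x) (S.Q α u x)).re =
        ∫ x, (inner ℂ (S.Q α v x) (S.Q α u x) : ℂ).re := by
      exact (integral_re i3).symm
    have i5 : Integrable (fun x => 2 * (inner ℂ (S.Q α v x) (S.Q α u x) : ℂ).re) := i4.const_mul 2
    have i6 : Integrable (fun x => ‖S.Q α u x‖ ^ 2 -
      2 * (inner ℂ (S.Q α v x) (S.Q α u x) : ℂ).re) := i1.sub i5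
    rw [e1, ← integral_const_mul, ← integral_sub i1 i5, ← integral_add i6 i2]
    refine integral_congr_ae (Filter.Eventually.of_forall fun x => ?_)
    simp only
    have e2 : S.Q α (u - v) x = S.Q α u x - S.Q α v x := S.Q_sub (hu.diff x) (hv.diff x)
    rw [e2, @norm_sub_sq ℂ F]
    have e3 : RCLike.re (inner ℂ (S.Q α u x) (S.Q α v x)) =
        (inner ℂ (S.Q α v x) (S.Q α u x) : ℂ).re := inner_re_symm _ _
    rw [e3]
  simp only [h]
  have e : (1 / 16 : ℂ) = ((1 / 16 : ℝ) : ℂ) := by norm_num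
  rw [e, Complex.re_ofReal_mul, Complex.re_sum, Finset.sum_add_distrib, Finset.sum_sub_distrib,
    ← Finset.mul_sum]
  ring

lemma form_self_nonneg (u : X3 → F) : 0 ≤ (M.form u u).re := by
  rw [form_self_re]
  refine mul_nonneg (by norm_num) (Finset.sum_nonneg fun α _ => integral_nonneg fun x => ?_)
  positivity

/-- zero-energy states are zero modes of the abstract setup -/
theorem isZM_of_zeroEnergy [FiniteDimensional ℂ F] {Ψ : Lp F 2 (volume : Measure X3)}
    (h : M.IsZeroEnergyState Ψ) : (M.toSetup).IsZM Ψ := by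
  obtain ⟨u, hu1, hu2, hu3, hu4⟩ := h
  have hT : ∀ n, Setup.Tst (u n) := fun n => ⟨(hu1 n).1, (hu1 n).2.1⟩
  refine ⟨u, hT, fun n C x => toSetup_G M (hu1 n) C x, hu2, ?_⟩
  -- the energies tend to zero
  have hE : Tendsto (fun n => (M.form (u n) (u n)).re) atTop (𝓝 0) := by
    rw [Metric.tendsto_atTop]
    intro ε hε
    rw [Metric.tendsto_atTop] at hu3
    obtain ⟨⟨N1, N2⟩, hN⟩ := hu3 (ε / 2) (by positivity)
    set m := max N1 N2 with hm
    have h4 := hu4 (u m) (hu1 m)
    rw [Metric.tendsto_atTop] at h4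
    obtain ⟨N3, hN3⟩ := h4 (ε / 4) (by positivity)
    refine ⟨max m N3, fun n hn => ?_⟩
    have hn1 : m ≤ n := (le_max_left _ _).trans hn
    have hn3 : N3 ≤ n := (le_max_right _ _).trans hn
    have a1 := hN (n, m) ⟨((le_max_left _ _).trans hn1 : N1 ≤ n), (le_max_right _ _ : N2 ≤ m)⟩
    have a2 := hN3 n hn3
    rw [dist_zero_right] at a1 a2
    have b1 : (M.form (u n - u m) (u n - u m)).re ≤ ‖M.form (u n - u m) (u n - u m)‖ :=
      Complex.re_le_norm _
    have b2 : (M.form (u m) (u n)).re ≤ ‖M.form (u m) (u n)‖ := Complex.re_le_norm _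
    have b3 := form_sub_re M (hT n) (hT m)
    have b4 := form_self_nonneg M (u m)
    have b5 := form_self_nonneg M (u n)
    rw [Real.dist_eq, sub_zero, abs_of_nonneg b5]
    simp only at a1
    linarith
  intro β
  have h16 : Tendsto (fun n => 16 * (M.form (u n) (u n)).re) atTop (𝓝 0) := by
    simpa using hE.const_mul 16
  refine squeeze_zero (fun n => integral_nonneg fun x => by positivity) (fun n => ?_) h16
  rw [form_self_re]
  have h1 : ∫ x, ‖(M.toSetup).Q β (u n) x‖ ^ 2 ≤ ∑ α, ∫ x, ‖(M.toSetup).Q α (u n) x‖ ^ 2 :=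
    Finset.single_le_sum (f := fun α => ∫ x, ‖(M.toSetup).Q α (u n) x‖ ^ 2)
      (fun α _ => integral_nonneg fun x => by positivity) (Finset.mem_univ β)
  linarith

end Vale.Agent.P353
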