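import Vale.Agent.P353.Decay2

open MeasureTheory Filter Topology
open scoped ContDiff

namespace Vale.Agent.P353
namespace Dec

variable {F : Type*} [NormedAddCommGroup F] [InnerProductSpace ℂ F]

omit [InnerProductSpace ℂ F] in
lemma tendsto_hi {Ψ : X3 → F} (hΨ : Integrable (fun x => ‖Ψ x‖ ^ 2)) :
    Tendsto (fun K : ℝ => ∫ x : X3, hi K (‖x‖ ^ 2) * ‖Ψ x‖ ^ 2) atTop (𝓝 0) := by
  have h := tendsto_integral_filter_of_dominated_convergence (l := atTop)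
    (F := fun (K : ℝ) (x : X3) => hi K (‖x‖ ^ 2) * ‖Ψ x‖ ^ 2) (f := fun _ => (0 : ℝ))
    (μ := (volume : Measure X3)) (fun x => ‖Ψ x‖ ^ 2)
    (Filter.Eventually.of_forall fun K =>
      (integrable_bdd ((measurable_hi K).comp measurable_nsq)
        (fun x => hi_abs _ _) hΨ).aestronglyMeasurable)
    (Filter.Eventually.of_forall fun K => Filter.Eventually.of_forall fun x => ?_)
    hΨ
    (Filter.Eventually.of_forall fun x => ?_)
  · simpa using h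
  · rw [norm_mul, Real.norm_eq_abs, Real.norm_of_nonneg (by positivity : 0 ≤ ‖Ψ x‖ ^ 2)]
    have h1 := hi_abs K (‖x‖ ^ 2)
    nlinarith [sq_nonneg ‖Ψ x‖]
  · refine tendsto_const_nhds.congr' ?_
    filter_upwards [eventually_gt_atTop (‖x‖ ^ 2)] with K hK
    rw [hi, if_neg (by linarith), zero_mul]

/-- **B2**: a zero mode is controlled by its restriction to a fixed ball -/
theorem tail_bound (S : Setup F) (hW : WIneq S 0) :
    ∃ C R : ℝ, 0 < R ∧ ∀ Ψ : Lp F 2 (volume : Measure X3), S.IsZM Ψ →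
      ∫ x : X3, ‖Ψ x‖ ^ 2 ≤ C * ∫ x in Metric.ball (0 : X3) R, ‖Ψ x‖ ^ 2 := by
  obtain ⟨T, E, hT, hE, hM⟩ := main_bound S le_rfl hW
  refine ⟨1 + E, Real.sqrt (2 * T) + 1, by positivity, fun Ψ hΨ => ?_⟩
  have hΨ2 : Integrable (fun x => ‖Ψ x‖ ^ 2) := memLp_norm_sq_int (Lp.memLp Ψ)
  have i2 : Integrable (fun x : X3 => lo (2 * T) (‖x‖ ^ 2) * ‖Ψ x‖ ^ 2) :=
    integrable_bdd ((measurable_lo _).comp measurable_nsq) (fun x => lo_abs _ _) hΨ2
  have hww : ∀ t : ℝ, ww 0 1 t = 1 := by intro t; simp [ww]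
  have key : ∀ K : ℝ, 2 * T ≤ K → ∫ x : X3, ‖Ψ x‖ ^ 2 ≤
      (1 + E) * (∫ x : X3, lo (2 * T) (‖x‖ ^ 2) * ‖Ψ x‖ ^ 2) +
        (1 + E) * ∫ x : X3, hi K (‖x‖ ^ 2) * ‖Ψ x‖ ^ 2 := by
    intro K hK
    have h1 := hM Ψ hΨ 1 one_pos K hK
    simp only [zero_div, Real.rpow_zero, one_mul] at h1
    have i3 : Integrable (fun x : X3 => hi K (‖x‖ ^ 2) * ‖Ψ x‖ ^ 2) :=
      integrable_bdd ((measurable_hi _).comp measurable_nsq) (fun x => hi_abs _ _) hΨ2
    have i1 : Integrable (fun x : X3 => tw 0 1 T K (‖x‖ ^ 2) * ‖Ψ x‖ ^ 2) :=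
      integrable_bdd (C := 1) ((measurable_tw _ _ _ _).comp measurable_nsq)
        (fun x => by
          simp only [Function.comp_apply, tw, hww]
          split_ifs <;> norm_num) hΨ2
    have i4 : Integrable (fun x : X3 => tw 0 1 T K (‖x‖ ^ 2) * ‖Ψ x‖ ^ 2 +
      hi K (‖x‖ ^ 2) * ‖Ψ x‖ ^ 2) := i1.add i3
    have h2 : ∫ x : X3, ‖Ψ x‖ ^ 2 ≤ ∫ x : X3, (lo (2 * T) (‖x‖ ^ 2) * ‖Ψ x‖ ^ 2 +
        (tw 0 1 T K (‖x‖ ^ 2) * ‖Ψ x‖ ^ 2 + hi K (‖x‖ ^ 2) * ‖Ψ x‖ ^ 2)) := by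
      refine integral_mono hΨ2 (i2.add i4) fun x => ?_
      have a1 := lo_nonneg (2 * T) (‖x‖ ^ 2)
      have a2 := hi_nonneg K (‖x‖ ^ 2)
      have a3 : 0 ≤ tw 0 1 T K (‖x‖ ^ 2) := by
        rw [tw, hww]; split_ifs <;> norm_num
      have a4 : 1 ≤ lo (2 * T) (‖x‖ ^ 2) + (tw 0 1 T K (‖x‖ ^ 2) + hi K (‖x‖ ^ 2)) := by
        by_cases c1 : ‖x‖ ^ 2 ≤ 2 * T
        · rw [lo, if_pos c1]; linarith
        · by_cases c2 : K ≤ ‖x‖ ^ 2
          · rw [hi, if_pos c2]; linarith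
          · push Not at c1 c2
            rw [tw, if_pos ⟨c1.le, c2.le⟩, hww]; linarith
      simp only
      nlinarith [sq_nonneg ‖Ψ x‖]
    rw [integral_add i2 i4, integral_add i1 i3] at h2
    linarith
  have hlim : ∫ x : X3, ‖Ψ x‖ ^ 2 ≤
      (1 + E) * (∫ x : X3, lo (2 * T) (‖x‖ ^ 2) * ‖Ψ x‖ ^ 2) + (1 + E) * 0 := by
    refine ge_of_tendsto (tendsto_const_nhds.add ((tendsto_hi hΨ2).const_mul (1 + E))) ?_
    filter_upwards [eventually_ge_atTop (2 * T)] with K hK using key K hK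
  rw [mul_zero, add_zero] at hlim
  refine hlim.trans (mul_le_mul_of_nonneg_left ?_ (by positivity))
  rw [← integral_indicator Metric.isOpen_ball.measurableSet]
  refine integral_mono i2 (hΨ2.indicator Metric.isOpen_ball.measurableSet) fun x => ?_
  simp only [lo]
  split_ifs with h
  · have hx : x ∈ Metric.ball (0 : X3) (Real.sqrt (2 * T) + 1) := by
      rw [Metric.mem_ball, dist_zero_right]
      have : ‖x‖ ≤ Real.sqrt (2 * T) := Real.le_sqrt_of_sq_le h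
      linarith
    rw [Set.indicator_of_mem hx, one_mul]
  · rw [zero_mul]
    exact Set.indicator_nonneg (fun _ _ => by positivity) _

omit [InnerProductSpace ℂ F] in
/-- Fatou's lemma for integrability -/
lemma integrable_of_fatou {f : ℕ → X3 → ℝ} {g : X3 → ℝ} {M : ℝ}
    (hf : ∀ n, Integrable (f n)) (h0 : ∀ n x, 0 ≤ f n x) (hM : ∀ n, ∫ x, f n x ≤ M)
    (hg : ∀ x, Tendsto (fun n => f n x) atTop (𝓝 (g x))) : Integrable g := by
  refine ⟨aestronglyMeasurable_of_tendsto_ae _ (fun n => (hf n).aestronglyMeasurable)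
    (Filter.Eventually.of_forall hg), ?_⟩
  rw [hasFiniteIntegral_iff_enorm]
  have h1 : ∫⁻ x, ‖g x‖ₑ = ∫⁻ x, liminf (fun n => ‖f n x‖ₑ) atTop :=
    lintegral_congr fun x => ((hg x).enorm.liminf_eq).symm
  rw [h1]
  refine (lintegral_liminf_le' fun n => (hf n).aestronglyMeasurable.aemeasurable.enorm).trans_lt ?_
  refine lt_of_le_of_lt ?_ (ENNReal.ofReal_lt_top (r := M))
  refine liminf_le_of_le (by isBoundedDefault) fun b hb => ?_
  obtain ⟨n, hn⟩ := hb.exists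
  refine hn.trans ?_
  have h2 : ∫⁻ x, ‖f n x‖ₑ = ENNReal.ofReal (∫ x, f n x) := by
    rw [ofReal_integral_eq_lintegral_ofReal (hf n) (Filter.Eventually.of_forall (h0 n))]
    refine lintegral_congr fun x => ?_
    rw [Real.enorm_eq_ofReal (h0 n x)]
  rw [h2]
  exact ENNReal.ofReal_le_ofReal (hM n)

lemma tendsto_ww {s t : ℝ} :
    Tendsto (fun n : ℕ => ww s ((n : ℝ) + 1) t) atTop (𝓝 (t ^ (s / 2))) := by
  have h1 : Tendsto (fun n : ℕ => 1 + t / ((n : ℝ) + 1) ^ 2) atTop (𝓝 (1 + 0)) := by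
    refine tendsto_const_nhds.add ?_
    refine tendsto_const_nhds.div_atTop ?_
    exact (tendsto_pow_atTop (by norm_num)).comp
      (tendsto_atTop_add_const_right _ _ tendsto_natCast_atTop_atTop)
  have h2 : Tendsto (fun n : ℕ => (1 + t / ((n : ℝ) + 1) ^ 2) ^ (-s / 2)) atTop (𝓝 (1 ^ (-s / 2))) := by
    refine Tendsto.rpow_const ?_ (Or.inl one_ne_zero)
    simpa using h1
  have h3 := h2.const_mul (t ^ (s / 2))
  rw [Real.one_rpow, mul_one] at h3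
  exact h3

/-- **B1**: decay of zero modes -/
theorem decay (S : Setup F) {s : ℝ} (hs : 0 ≤ s) (hW : WIneq S s)
    (Ψ : Lp F 2 (volume : Measure X3)) (hΨ : S.IsZM Ψ) :
    Integrable (fun x : X3 => ‖x‖ ^ s * ‖Ψ x‖ ^ 2) := by
  obtain ⟨T, E, hT, hE, hM⟩ := main_bound S hs hW
  have hΨ2 : Integrable (fun x => ‖Ψ x‖ ^ 2) := memLp_norm_sq_int (Lp.memLp Ψ)
  have hK : ∀ n : ℕ, ∃ K : ℝ, 2 * T ≤ K ∧ (n : ℝ) ≤ K ∧
      ((n : ℝ) + 1) ^ s * (∫ x : X3, hi K (‖x‖ ^ 2) * ‖Ψ x‖ ^ 2) ≤ 1 := by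
    intro n
    have h1 : Tendsto (fun K : ℝ => ((n : ℝ) + 1) ^ s * ∫ x : X3, hi K (‖x‖ ^ 2) * ‖Ψ x‖ ^ 2)
        atTop (𝓝 (((n : ℝ) + 1) ^ s * 0)) := (tendsto_hi hΨ2).const_mul _
    rw [mul_zero] at h1
    have h2 := h1.eventually (gt_mem_nhds one_pos)
    obtain ⟨K, h3, h4, h5⟩ := (h2.and ((eventually_ge_atTop (2 * T)).and
      (eventually_ge_atTop (n : ℝ)))).exists
    exact ⟨K, h4, h5, h3.le⟩
  choose K hK1 hK2 hK3 using hK
  have hpos : ∀ (n : ℕ) (x : X3), 0 ≤ tw s ((n : ℝ) + 1) T (K n) (‖x‖ ^ 2) * ‖Ψ x‖ ^ 2 := by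
    intro n x
    refine mul_nonneg ?_ (by positivity)
    rw [tw]
    split_ifs with h
    · exact (ww_pos (by linarith [h.1])).le
    · exact le_rfl
  have hint : Integrable (fun x : X3 => (if 2 * T ≤ ‖x‖ ^ 2 then (‖x‖ ^ 2) ^ (s / 2) else 0) *
      ‖Ψ x‖ ^ 2) := by
    refine integrable_of_fatou (f := fun (n : ℕ) x => tw s ((n : ℝ) + 1) T (K n) (‖x‖ ^ 2) * ‖Ψ x‖ ^ 2)
      (M := E * ((2 * T) ^ (s / 2) * (∫ x : X3, lo (2 * T) (‖x‖ ^ 2) * ‖Ψ x‖ ^ 2) + 1))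
      (fun n => ?_) hpos (fun n => ?_) (fun x => ?_)
    · have hn : (0 : ℝ) < (n : ℝ) + 1 := by positivity
      refine integrable_bdd (C := ((n : ℝ) + 1) ^ s) ((measurable_tw _ _ _ _).comp measurable_nsq)
        (fun x => ?_) hΨ2
      simp only [Function.comp_apply, tw]
      split_ifs with h
      · have ht : 0 < ‖x‖ ^ 2 := by linarith [h.1]
        rw [abs_of_pos (ww_pos ht)]
        exact ww_le_L hs hn ht
      · simp; positivity
    · have h1 := hM Ψ hΨ ((n : ℝ) + 1) (by positivity) (K n) (hK1 n)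
      refine h1.trans (mul_le_mul_of_nonneg_left ?_ hE)
      linarith [hK3 n]
    · refine Tendsto.mul_const _ ?_
      split_ifs with h
      · have ht : 0 < ‖x‖ ^ 2 := by linarith
        refine tendsto_ww.congr' ?_
        obtain ⟨N, hN⟩ := exists_nat_ge (‖x‖ ^ 2)
        filter_upwards [eventually_ge_atTop N] with n hn
        have h5 : (N : ℝ) ≤ (n : ℝ) := by exact_mod_cast hn
        have h6 : ‖x‖ ^ 2 ≤ K n := by linarith [hK2 n]
        rw [tw, if_pos ⟨h, h6⟩]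
      · refine tendsto_const_nhds.congr fun n => ?_
        rw [tw, if_neg (fun hh => h hh.1)]
  have hfin : Integrable (fun x : X3 => (if 2 * T ≤ ‖x‖ ^ 2 then (‖x‖ ^ 2) ^ (s / 2) else 0) *
      ‖Ψ x‖ ^ 2 + (2 * T) ^ (s / 2) * ‖Ψ x‖ ^ 2) := hint.add (hΨ2.const_mul _)
  refine hfin.mono' ?_ (Filter.Eventually.of_forall fun x => ?_)
  · exact ((measurable_norm.pow_const s).aestronglyMeasurable).mul hΨ2.aestronglyMeasurable
  · have hsq : (‖x‖ ^ 2) ^ (s / 2) = ‖x‖ ^ s := by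
      rw [← Real.rpow_natCast, ← Real.rpow_mul (norm_nonneg x)]
      congr 1
      push_cast
      ring
    rw [Real.norm_of_nonneg (by positivity)]
    split_ifs with h
    · rw [hsq]
      have : 0 ≤ (2 * T) ^ (s / 2) * ‖Ψ x‖ ^ 2 := by positivity
      linarith
    · push Not at h
      have h1 : ‖x‖ ^ s ≤ (2 * T) ^ (s / 2) := by
        rw [← hsq]
        exact Real.rpow_le_rpow (by positivity) h.le (by positivity)
      have := mul_le_mul_of_nonneg_right h1 (by positivity : 0 ≤ ‖Ψ x‖ ^ 2)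
      linarith

end Dec
end Vale.Agent.P353
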