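import Vale.Agent.P353.Alg

open Matrix

namespace Vale.Agent.P353
namespace CS

variable {R : Type*} [Ring R] [Algebra ℂ R] (S : CS R)

lemma g_sqE (i : Fin 9) : S.g i * S.g i = 1 := by
  have h := S.g_anti i i
  simp only [if_true] at h
  have h2 : (2 : ℂ) • (S.g i * S.g i) = (2 : ℂ) • (1 : Matrix (Fin 16) (Fin 16) ℂ) := by
    rw [two_smul, two_smul, h]; norm_num
  have h3 := congrArg (fun m => (1 / 2 : ℂ) • m) h2
  simpa [smul_smul] using h3

lemma g_swapE {i j : Fin 9} (h : i ≠ j) : S.g i * S.g j = -(S.g j * S.g i) := by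
  have h1 := S.g_anti i j
  rw [if_neg h] at h1
  exact eq_neg_of_add_eq_zero_left h1

lemma g_swapE' (i j : Fin 9) : S.g i * S.g j =
    (if i = j then (2 : ℂ) • (1 : Matrix (Fin 16) (Fin 16) ℂ) else 0) - S.g j * S.g i := by
  have h1 := S.g_anti i j
  by_cases h : i = j
  · rw [if_pos h] at h1 ⊢
    rw [eq_sub_iff_add_eq, h1]
    rw [two_smul]; norm_num
  · rw [if_neg h] at h1 ⊢
    rw [eq_sub_iff_add_eq, h1]

lemma trace_one16 : (1 : Matrix (Fin 16) (Fin 16) ℂ).trace = 16 := by
  simp [Matrix.trace_one]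

lemma trace_g_g (i j : Fin 9) : (S.g i * S.g j).trace = if i = j then 16 else 0 := by
  by_cases h : i = j
  · subst h; rw [S.g_sqE, if_pos rfl, trace_one16]
  · rw [if_neg h]
    have h1 := congrArg Matrix.trace (S.g_swapE h)
    rw [Matrix.trace_neg, Matrix.trace_mul_comm (S.g j)] at h1
    have : (2 : ℂ) * (S.g i * S.g j).trace = 0 := by linear_combination h1
    simpa using this

/-- `tr(γ^i γ^j γ^k γ^l)` -/
lemma trace_g4 (i j k l : Fin 9) : (S.g i * S.g j * (S.g k * S.g l)).trace =
    (if i = j then 1 else 0) * (if k = l then 16 else 0)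
      - (if i = k then 1 else 0) * (if j = l then 16 else 0)
      + (if i = l then 1 else 0) * (if j = k then 16 else 0) := by
  have e1 : S.g i * S.g j * (S.g k * S.g l) =
      (if i = j then (2 : ℂ) • (1 : Matrix (Fin 16) (Fin 16) ℂ) else 0) * (S.g k * S.g l)
      - S.g j * (S.g i * S.g k) * S.g l := by
    rw [S.g_swapE' i j]; noncomm_ring
  have e2 : S.g j * (S.g i * S.g k) * S.g l =
      S.g j * (if i = k then (2 : ℂ) • (1 : Matrix (Fin 16) (Fin 16) ℂ) else 0) * S.g l
      - S.g j * S.g k * (S.g i * S.g l) := by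
    rw [S.g_swapE' i k]; noncomm_ring
  have e3 : S.g j * S.g k * (S.g i * S.g l) =
      S.g j * S.g k * (if i = l then (2 : ℂ) • (1 : Matrix (Fin 16) (Fin 16) ℂ) else 0)
      - S.g j * S.g k * (S.g l * S.g i) := by
    rw [S.g_swapE' i l]; noncomm_ring
  have e4 : (S.g j * S.g k * (S.g l * S.g i)).trace = (S.g i * S.g j * (S.g k * S.g l)).trace := by
    rw [← Matrix.mul_assoc, Matrix.trace_mul_comm _ (S.g i)]
    congr 1; noncomm_ring
  have t1 := congrArg Matrix.trace e1
  have t2 := congrArg Matrix.trace e2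
  have t3 := congrArg Matrix.trace e3
  rw [Matrix.trace_sub] at t1 t2 t3
  rw [e4] at t3
  have s1 : ((if i = j then (2 : ℂ) • (1 : Matrix (Fin 16) (Fin 16) ℂ) else 0) *
      (S.g k * S.g l)).trace = 2 * ((if i = j then 1 else 0) * (if k = l then 16 else 0)) := by
    split_ifs with h1 h2 <;> simp [S.trace_g_g, *]
  have s2 : (S.g j * (if i = k then (2 : ℂ) • (1 : Matrix (Fin 16) (Fin 16) ℂ) else 0) *
      S.g l).trace = 2 * ((if i = k then 1 else 0) * (if j = l then 16 else 0)) := by
    split_ifs with h1 h2 <;> simp [S.trace_g_g, *]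
  have s3 : (S.g j * S.g k * (if i = l then (2 : ℂ) • (1 : Matrix (Fin 16) (Fin 16) ℂ) else
      0)).trace = 2 * ((if i = l then 1 else 0) * (if j = k then 16 else 0)) := by
    split_ifs with h1 h2 <;> simp [S.trace_g_g, *]
  rw [s1] at t1
  rw [s2] at t2
  rw [s3] at t3
  linear_combination (1 / 2) * t1 - (1 / 2) * t2 + (1 / 2) * t3

lemma trace_g2_g2 (i j k l : Fin 9) : (S.g2 i j * S.g2 k l).trace =
    16 * ((if i = l then 1 else 0) * (if j = k then 1 else 0)
      - (if i = k then 1 else 0) * (if j = l then 1 else 0)) := by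
  have e : S.g2 i j * S.g2 k l = (1 / 4 : ℂ) • (S.g i * S.g j * (S.g k * S.g l)
      - S.g i * S.g j * (S.g l * S.g k) - S.g j * S.g i * (S.g k * S.g l)
      + S.g j * S.g i * (S.g l * S.g k)) := by
    simp only [g2, smul_mul_smul_comm]
    congr 1
    · norm_num
    · noncomm_ring
  rw [e]
  simp only [Matrix.trace_smul, Matrix.trace_add, Matrix.trace_sub, S.trace_g4, smul_eq_mul,
    eq_comm (a := l) (b := k), eq_comm (a := j) (b := i)]
  have h16 : ∀ p : Prop, [Decidable p] → (if p then (16 : ℂ) else 0) = 16 * (if p then 1 else 0) := by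
    intro p _; split_ifs <;> simp
  simp only [h16]
  ring

lemma trace_g_g2E (j k l : Fin 9) : (S.g j * S.g2 k l).trace = 0 := by
  have h : (S.g j * (S.g k * S.g l)).trace = (S.g j * (S.g l * S.g k)).trace := by
    rw [← Matrix.trace_transpose]
    simp only [Matrix.transpose_mul, S.g_symm]
    rw [Matrix.trace_mul_comm]
  simp only [g2, Matrix.mul_smul, Matrix.mul_sub, Matrix.trace_smul, Matrix.trace_sub, h,
    sub_self, smul_zero]

lemma g2_transpose' (k l : Fin 9) : (S.g2 k l).transpose = - S.g2 k l := by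
  simp only [CS.g2, Matrix.transpose_smul, Matrix.transpose_sub, Matrix.transpose_mul, S.g_symm]
  rw [← smul_neg, neg_sub]

lemma g2_swap (k l : Fin 9) : S.g2 k l = - S.g2 l k := by
  simp only [CS.g2]
  rw [← smul_neg, neg_sub]

lemma g_g2 (j l : Fin 9) : S.g j * S.g2 j l = if j = l then 0 else S.g l := by
  by_cases h : j = l
  · subst h; simp [g2]
  · rw [if_neg h]
    have e : S.g j * S.g2 j l = (1 / 2 : ℂ) • (S.g j * S.g j * S.g l - (S.g j * S.g l) * S.g j) := by
      simp only [g2, Matrix.mul_smul]; congr 1; noncomm_ring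
    rw [e, S.g_sqE, S.g_swapE h]
    have e2 : -(S.g l * S.g j) * S.g j = -(S.g l * (S.g j * S.g j)) := by noncomm_ring
    rw [e2, S.g_sqE]
    simp only [Matrix.one_mul, Matrix.mul_one, sub_neg_eq_add]
    rw [← two_smul ℂ, smul_smul]
    norm_num

lemma sum_g_g2 (l : Fin 9) : ∑ j, S.g j * S.g2 j l = (8 : ℂ) • S.g l := by
  simp only [S.g_g2]
  rw [← Finset.sum_erase_add _ _ (Finset.mem_univ l)]
  simp only [if_true, add_zero]
  rw [Finset.sum_congr rfl (g := fun _ => S.g l)]
  · rw [Finset.sum_const]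
    simp only [Finset.card_erase_of_mem, Finset.mem_univ, Finset.card_univ, Fintype.card_fin]
    rw [← Nat.cast_smul_eq_nsmul ℂ]
    norm_num
  · intro j hj
    rw [if_neg (Finset.ne_of_mem_erase hj)]

end CS
end Vale.Agent.P353
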