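import Mathlib

open MeasureTheory Filter Topology
open scoped ContDiff ENNReal

namespace Vale.Agent.P353
namespace FD

variable {F : Type*} [NormedAddCommGroup F] [InnerProductSpace ℂ F]

lemma sq_lintegral_le {α : Type*} [MeasurableSpace α] {μ : Measure α} {f : α → ℝ≥0∞}
    (hf : AEMeasurable f μ) : (∫⁻ x, f x ∂μ) ^ 2 ≤ μ Set.univ * ∫⁻ x, f x ^ 2 ∂μ := by
  have h := ENNReal.lintegral_mul_le_Lp_mul_Lq μ (Real.HolderConjugate.two_two) hf
    (aemeasurable_const (b := (1 : ℝ≥0∞)))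
  simp only [Pi.mul_apply, mul_one, ENNReal.one_rpow, lintegral_const, one_mul] at h
  have h2 : (∫⁻ x, f x ∂μ) ^ 2 ≤ ((∫⁻ x, f x ^ (2 : ℝ) ∂μ) ^ (1 / (2 : ℝ)) *
      (μ Set.univ) ^ (1 / (2 : ℝ))) ^ 2 := by gcongr
  refine h2.trans (le_of_eq ?_)
  rw [mul_pow, ← ENNReal.rpow_natCast, ← ENNReal.rpow_natCast, ← ENNReal.rpow_mul,
    ← ENNReal.rpow_mul]
  norm_num
  rw [mul_comm]

variable {ι : Type*} [Fintype ι]


/-- translation estimate -/
lemma translation [CompleteSpace F] (v : (EuclideanSpace ℝ ι) → F) (hv : ContDiff ℝ 1 v) (h : (EuclideanSpace ℝ ι)) :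
    ∫⁻ x, ‖v (x + h) - v x‖ₑ ^ 2 ≤ ‖h‖ₑ ^ 2 * ∫⁻ x, ‖fderiv ℝ v x‖ₑ ^ 2 := by
  have hcd : Continuous (fderiv ℝ v) := hv.continuous_fderiv (by simp)
  have hpt : ∀ x, ‖v (x + h) - v x‖ₑ ^ 2 ≤
      ∫⁻ t in Set.Ioc (0 : ℝ) 1, ‖h‖ₑ ^ 2 * ‖fderiv ℝ v (x + t • h)‖ₑ ^ 2 := by
    intro x
    have hline : ∀ t : ℝ, HasDerivAt (fun t : ℝ => x + t • h) h t := by
      intro t
      simpa using ((hasDerivAt_id t).smul_const h).const_add x
    have hder : ∀ t : ℝ, HasDerivAt (fun t : ℝ => v (x + t • h)) (fderiv ℝ v (x + t • h) h) t := by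
      intro t
      exact ((hv.differentiable (by simp)) (x + t • h)).hasFDerivAt.comp_hasDerivAt t (hline t)
    have hcont : Continuous (fun t : ℝ => fderiv ℝ v (x + t • h) h) :=
      (hcd.comp (continuous_const.add (continuous_id.smul continuous_const))).clm_apply
        continuous_const
    have hftc : ∫ t in (0 : ℝ)..1, fderiv ℝ v (x + t • h) h = v (x + h) - v x := by
      rw [intervalIntegral.integral_eq_sub_of_hasDerivAt (fun t _ => hder t)
        (hcont.intervalIntegrable _ _)]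
      simp
    rw [← hftc, intervalIntegral.integral_of_le zero_le_one]
    calc ‖∫ t in Set.Ioc (0 : ℝ) 1, fderiv ℝ v (x + t • h) h‖ₑ ^ 2
        ≤ (∫⁻ t in Set.Ioc (0 : ℝ) 1, ‖fderiv ℝ v (x + t • h) h‖ₑ) ^ 2 := by
          gcongr
          exact enorm_integral_le_lintegral_enorm _
      _ ≤ (volume.restrict (Set.Ioc (0 : ℝ) 1)) Set.univ *
            ∫⁻ t in Set.Ioc (0 : ℝ) 1, ‖fderiv ℝ v (x + t • h) h‖ₑ ^ 2 :=
          sq_lintegral_le hcont.enorm.aemeasurable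
      _ = ∫⁻ t in Set.Ioc (0 : ℝ) 1, ‖fderiv ℝ v (x + t • h) h‖ₑ ^ 2 := by
          simp
      _ ≤ _ := by
          refine lintegral_mono fun t => ?_
          have h1 : ‖fderiv ℝ v (x + t • h) h‖ₑ ≤ ‖h‖ₑ * ‖fderiv ℝ v (x + t • h)‖ₑ := by
            rw [mul_comm]
            exact ContinuousLinearMap.le_opENorm _ _
          calc ‖fderiv ℝ v (x + t • h) h‖ₑ ^ 2 ≤ (‖h‖ₑ * ‖fderiv ℝ v (x + t • h)‖ₑ) ^ 2 := by gcongr
            _ = _ := by rw [mul_pow]
  have hcont2 : Continuous (fun p : (EuclideanSpace ℝ ι) × ℝ => ‖fderiv ℝ v (p.1 + p.2 • h)‖ₑ) :=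
    (hcd.comp (continuous_fst.add (continuous_snd.smul continuous_const))).enorm
  calc ∫⁻ x, ‖v (x + h) - v x‖ₑ ^ 2
      ≤ ∫⁻ x, ∫⁻ t in Set.Ioc (0 : ℝ) 1, ‖h‖ₑ ^ 2 * ‖fderiv ℝ v (x + t • h)‖ₑ ^ 2 :=
        lintegral_mono hpt
    _ = ∫⁻ t in Set.Ioc (0 : ℝ) 1, ∫⁻ x, ‖h‖ₑ ^ 2 * ‖fderiv ℝ v (x + t • h)‖ₑ ^ 2 := by
        refine lintegral_lintegral_swap ?_
        exact ((hcont2.measurable.pow_const 2).const_mul _).aemeasurable
    _ = ∫⁻ _t in Set.Ioc (0 : ℝ) 1, ‖h‖ₑ ^ 2 * ∫⁻ x, ‖fderiv ℝ v x‖ₑ ^ 2 := by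
        refine lintegral_congr fun t => ?_
        rw [lintegral_const_mul' _ _ (by simp)]
        congr 1
        exact lintegral_add_right_eq_self (fun x => ‖fderiv ℝ v x‖ₑ ^ 2) (t • h)
    _ = _ := by simp

/-! ### cells -/

/-- half-open cells of side `δ` -/
def cell (δ : ℝ) (k : ι → ℤ) : Set (EuclideanSpace ℝ ι) :=
  WithLp.ofLp ⁻¹' (Set.univ.pi fun i => Set.Ico (δ * k i) (δ * k i + δ))

/-- the set of differences -/
def HH (δ : ℝ) : Set (EuclideanSpace ℝ ι) := WithLp.ofLp ⁻¹' (Set.univ.pi fun _ => Set.Ico (-δ) δ)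

lemma measurable_ofLp : Measurable (WithLp.ofLp : (EuclideanSpace ℝ ι) → ι → ℝ) :=
  (PiLp.volume_preserving_ofLp ι).measurable

lemma measurableSet_cell (δ : ℝ) (k : ι → ℤ) : MeasurableSet (cell δ k) :=
  measurable_ofLp (MeasurableSet.univ_pi fun _ => measurableSet_Ico)

lemma measurableSet_HH (δ : ℝ) : MeasurableSet (HH δ : Set (EuclideanSpace ℝ ι)) :=
  measurable_ofLp (MeasurableSet.univ_pi fun _ => measurableSet_Ico)

lemma volume_cell (δ : ℝ) (k : ι → ℤ) :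
    volume (cell δ k) = ENNReal.ofReal δ ^ Fintype.card ι := by
  rw [cell, (PiLp.volume_preserving_ofLp ι).measure_preimage
    (MeasurableSet.univ_pi fun _ => measurableSet_Ico).nullMeasurableSet, Real.volume_pi_Ico]
  simp

lemma volume_HH (δ : ℝ) :
    volume (HH δ : Set (EuclideanSpace ℝ ι)) = ENNReal.ofReal (2 * δ) ^ Fintype.card ι := by
  rw [HH, (PiLp.volume_preserving_ofLp ι).measure_preimage
    (MeasurableSet.univ_pi fun _ => measurableSet_Ico).nullMeasurableSet, Real.volume_pi_Ico]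
  simp only [sub_neg_eq_add, Finset.prod_const, Finset.card_univ]
  rw [two_mul]

omit [Fintype ι] in
lemma mem_cell {δ : ℝ} {k : ι → ℤ} {x : (EuclideanSpace ℝ ι)} :
    x ∈ cell δ k ↔ ∀ i, δ * k i ≤ x i ∧ x i < δ * k i + δ := by
  simp [cell, Set.mem_pi]

omit [Fintype ι] in
lemma sub_mem_HH {δ : ℝ} {k : ι → ℤ} {x y : (EuclideanSpace ℝ ι)} (hx : x ∈ cell δ k) (hy : y ∈ cell δ k) :
    y - x ∈ (HH δ : Set (EuclideanSpace ℝ ι)) := by
  rw [mem_cell] at hx hy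
  simp only [HH, Set.mem_preimage, Set.mem_pi, Set.mem_univ, true_implies, Set.mem_Ico,
    WithLp.ofLp_sub, Pi.sub_apply]
  intro i
  have h1 := hx i
  have h2 := hy i
  constructor <;> linarith

omit [Fintype ι] in
lemma cell_disjoint {δ : ℝ} (hδ : 0 < δ) : Pairwise (Function.onFun Disjoint
    (fun k : ι → ℤ => (cell δ k : Set (EuclideanSpace ℝ ι)))) := by
  intro k l hkl
  rw [Function.onFun, Set.disjoint_left]
  intro x hx hy
  rw [mem_cell] at hx hy
  apply hkl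
  funext i
  have h1 := hx i
  have h2 := hy i
  have h3 : (k i : ℝ) < l i + 1 := by
    by_contra hcon
    push Not at hcon
    nlinarith
  have h4 : (l i : ℝ) < k i + 1 := by
    by_contra hcon
    push Not at hcon
    nlinarith
  have h5 : k i < l i + 1 := by exact_mod_cast h3
  have h6 : l i < k i + 1 := by exact_mod_cast h4
  omega

lemma norm_HH {δ : ℝ} {h : (EuclideanSpace ℝ ι)} (hh : h ∈ (HH δ : Set (EuclideanSpace ℝ ι))) :
    ‖h‖ ^ 2 ≤ Fintype.card ι * δ ^ 2 := by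
  rw [EuclideanSpace.norm_sq_eq]
  simp only [HH, Set.mem_preimage, Set.mem_pi, Set.mem_univ, true_implies, Set.mem_Ico] at hh
  calc ∑ i, ‖h i‖ ^ 2 ≤ ∑ _i : ι, δ ^ 2 := by
        refine Finset.sum_le_sum fun i _ => ?_
        rw [Real.norm_eq_abs, sq_abs]
        have := hh i
        nlinarith
    _ = _ := by simp

lemma avg_bound [CompleteSpace F] {v : (EuclideanSpace ℝ ι) → F} (hv : Integrable v) {A : Set (EuclideanSpace ℝ ι)}
    (hA0 : volume A ≠ 0) (hA1 : volume A ≠ ⊤) (hvc : Continuous v) :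
    ∫⁻ x in A, ‖v x - (volume A).toReal⁻¹ • ∫ y in A, v y‖ₑ ^ 2 ≤
      (volume A)⁻¹ * ∫⁻ x in A, ∫⁻ y in A, ‖v y - v x‖ₑ ^ 2 := by
  set m := (volume A).toReal with hm
  have hm0 : 0 < m := ENNReal.toReal_pos hA0 hA1
  have hpt : ∀ x, ‖v x - m⁻¹ • ∫ y in A, v y‖ₑ ^ 2 ≤
      (volume A)⁻¹ * ∫⁻ y in A, ‖v y - v x‖ₑ ^ 2 := by
    intro x
    have e1 : v x - m⁻¹ • ∫ y in A, v y = -(m⁻¹ • ∫ y in A, (v y - v x)) := by
      rw [integral_sub hv.integrableOn (by
        have : IsFiniteMeasure (volume.restrict A) := ⟨by simpa using hA1.lt_top⟩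
        exact integrable_const _), smul_sub, setIntegral_const, smul_smul]
      have : m⁻¹ * volume.real A = 1 := by
        rw [Measure.real, ← hm, inv_mul_cancel₀ hm0.ne']
      rw [this, one_smul]
      abel
    have e2 : ‖m⁻¹‖ₑ = (volume A)⁻¹ := by
      rw [Real.enorm_eq_ofReal (inv_nonneg.mpr hm0.le), ENNReal.ofReal_inv_of_pos hm0, hm,
        ENNReal.ofReal_toReal hA1]
    rw [e1, enorm_neg, enorm_smul, e2, mul_pow]
    calc (volume A)⁻¹ ^ 2 * ‖∫ y in A, (v y - v x)‖ₑ ^ 2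
        ≤ (volume A)⁻¹ ^ 2 * ((∫⁻ y in A, ‖v y - v x‖ₑ) ^ 2) := by
          gcongr
          exact enorm_integral_le_lintegral_enorm _
      _ ≤ (volume A)⁻¹ ^ 2 * ((volume.restrict A) Set.univ * ∫⁻ y in A, ‖v y - v x‖ₑ ^ 2) := by
          gcongr
          exact sq_lintegral_le (hvc.sub continuous_const).enorm.aemeasurable
      _ = (volume A)⁻¹ * ∫⁻ y in A, ‖v y - v x‖ₑ ^ 2 := by
          rw [Measure.restrict_apply_univ, ← mul_assoc, sq, mul_assoc (volume A)⁻¹,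
            ENNReal.inv_mul_cancel hA0 hA1, mul_one]
  calc ∫⁻ x in A, ‖v x - m⁻¹ • ∫ y in A, v y‖ₑ ^ 2
      ≤ ∫⁻ x in A, (volume A)⁻¹ * ∫⁻ y in A, ‖v y - v x‖ₑ ^ 2 := lintegral_mono hpt
    _ = _ := by rw [lintegral_const_mul' _ _ (by simpa using hA0)]

lemma cells_bound [CompleteSpace F] {v : (EuclideanSpace ℝ ι) → F} (hv : ContDiff ℝ 1 v) (hvi : Integrable v)
    {δ : ℝ} (hδ : 0 < δ) (K : Finset (ι → ℤ)) :
    ∑ k ∈ K, ∫⁻ x in cell δ k, ‖v x - (volume (cell δ k)).toReal⁻¹ • ∫ y in cell δ k, v y‖ₑ ^ 2 ≤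
      ENNReal.ofReal (2 ^ Fintype.card ι * (Fintype.card ι * δ ^ 2)) *
        ∫⁻ x, ‖fderiv ℝ v x‖ₑ ^ 2 := by
  have hδ' : ENNReal.ofReal δ ≠ 0 := by simpa using hδ
  have hδ'' : ENNReal.ofReal δ ≠ ⊤ := ENNReal.ofReal_ne_top
  have hV0 : ∀ k : ι → ℤ, volume (cell δ k) ≠ 0 := fun k => by
    rw [volume_cell]; exact pow_ne_zero _ hδ'
  have hV1 : ∀ k : ι → ℤ, volume (cell δ k) ≠ ⊤ := fun k => by
    rw [volume_cell]; exact ENNReal.pow_ne_top hδ''
  have hvc := hv.continuous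
  have hinner : ∀ k : ι → ℤ, ∀ x ∈ (cell δ k : Set (EuclideanSpace ℝ ι)), ∫⁻ y in cell δ k, ‖v y - v x‖ₑ ^ 2 ≤
      ∫⁻ h in (HH δ : Set (EuclideanSpace ℝ ι)), ‖v (x + h) - v x‖ₑ ^ 2 := by
    intro k x hx
    rw [← lintegral_indicator (measurableSet_cell δ k), ← lintegral_indicator (measurableSet_HH δ),
      ← lintegral_add_left_eq_self _ x]
    refine lintegral_mono fun h => ?_
    by_cases hh : x + h ∈ (cell δ k : Set (EuclideanSpace ℝ ι))
    · have h2 : h ∈ (HH δ : Set (EuclideanSpace ℝ ι)) := by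
        have := sub_mem_HH hx hh
        simpa using this
      simp only [Set.indicator_of_mem hh, Set.indicator_of_mem h2, le_refl]
    · simp only [Set.indicator_of_notMem hh, zero_le]
  have hmeas : Measurable (fun p : (EuclideanSpace ℝ ι) × (EuclideanSpace ℝ ι) => ‖v (p.1 + p.2) - v p.1‖ₑ ^ 2) :=
    (((hvc.comp (continuous_fst.add continuous_snd)).sub (hvc.comp continuous_fst)).enorm
      ).measurable.pow_const 2
  calc ∑ k ∈ K, ∫⁻ x in cell δ k, ‖v x - (volume (cell δ k)).toReal⁻¹ • ∫ y in cell δ k, v y‖ₑ ^ 2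
      ≤ ∑ k ∈ K, (ENNReal.ofReal δ ^ Fintype.card ι)⁻¹ *
          ∫⁻ x in cell δ k, ∫⁻ h in (HH δ : Set (EuclideanSpace ℝ ι)), ‖v (x + h) - v x‖ₑ ^ 2 := by
        refine Finset.sum_le_sum fun k _ => ?_
        refine (avg_bound hvi (hV0 k) (hV1 k) hvc).trans ?_
        rw [volume_cell]
        refine mul_le_mul' le_rfl ?_
        exact setLIntegral_mono' (measurableSet_cell δ k) (hinner k)
    _ = (ENNReal.ofReal δ ^ Fintype.card ι)⁻¹ *
          ∫⁻ x in ⋃ k ∈ K, cell δ k, ∫⁻ h in (HH δ : Set (EuclideanSpace ℝ ι)), ‖v (x + h) - v x‖ₑ ^ 2 := by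
        rw [← Finset.mul_sum, lintegral_biUnion_finset]
        · intro k _ l _ hkl
          exact cell_disjoint hδ hkl
        · intro k _; exact measurableSet_cell δ k
    _ ≤ (ENNReal.ofReal δ ^ Fintype.card ι)⁻¹ *
          ∫⁻ x, ∫⁻ h in (HH δ : Set (EuclideanSpace ℝ ι)), ‖v (x + h) - v x‖ₑ ^ 2 := by
        refine mul_le_mul' le_rfl ?_
        exact setLIntegral_le_lintegral _ _
    _ = (ENNReal.ofReal δ ^ Fintype.card ι)⁻¹ *
          ∫⁻ h in (HH δ : Set (EuclideanSpace ℝ ι)), ∫⁻ x, ‖v (x + h) - v x‖ₑ ^ 2 := by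
        congr 1
        exact lintegral_lintegral_swap hmeas.aemeasurable
    _ ≤ (ENNReal.ofReal δ ^ Fintype.card ι)⁻¹ *
          ∫⁻ _h in (HH δ : Set (EuclideanSpace ℝ ι)), ENNReal.ofReal (Fintype.card ι * δ ^ 2) *
            ∫⁻ x, ‖fderiv ℝ v x‖ₑ ^ 2 := by
        refine mul_le_mul' le_rfl ?_
        refine setLIntegral_mono' (measurableSet_HH δ) fun h hh => ?_
        refine (translation v hv h).trans ?_
        refine mul_le_mul' ?_ le_rfl
        rw [← ofReal_norm, ← ENNReal.ofReal_pow (norm_nonneg _)]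
        exact ENNReal.ofReal_le_ofReal (norm_HH hh)
    _ = _ := by
        rw [setLIntegral_const, volume_HH, ENNReal.ofReal_mul (by norm_num : (0 : ℝ) ≤ 2), mul_pow]
        rw [ENNReal.ofReal_mul (by positivity : (0 : ℝ) ≤ 2 ^ Fintype.card ι),
          ENNReal.ofReal_pow (by norm_num : (0 : ℝ) ≤ 2)]
        have h1 : (ENNReal.ofReal δ ^ Fintype.card ι)⁻¹ * ENNReal.ofReal δ ^ Fintype.card ι = 1 :=
          ENNReal.inv_mul_cancel (pow_ne_zero _ hδ') (ENNReal.pow_ne_top hδ'')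
        calc (ENNReal.ofReal δ ^ Fintype.card ι)⁻¹ *
              (ENNReal.ofReal (Fintype.card ι * δ ^ 2) * (∫⁻ x, ‖fderiv ℝ v x‖ₑ ^ 2) *
                (ENNReal.ofReal 2 ^ Fintype.card ι * ENNReal.ofReal δ ^ Fintype.card ι))
            = ((ENNReal.ofReal δ ^ Fintype.card ι)⁻¹ * ENNReal.ofReal δ ^ Fintype.card ι) *
              (ENNReal.ofReal 2 ^ Fintype.card ι * ENNReal.ofReal (Fintype.card ι * δ ^ 2) *
                ∫⁻ x, ‖fderiv ℝ v x‖ₑ ^ 2) := by ring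
          _ = _ := by rw [h1, one_mul]

omit [InnerProductSpace ℂ F] in
lemma lint_eq {α : Type*} [MeasurableSpace α] {μ : Measure α} {f : α → F}
    (hf : Integrable (fun x => ‖f x‖ ^ 2) μ) :
    ∫⁻ x, ‖f x‖ₑ ^ 2 ∂μ = ENNReal.ofReal (∫ x, ‖f x‖ ^ 2 ∂μ) := by
  rw [ofReal_integral_eq_lintegral_ofReal hf (Filter.Eventually.of_forall fun x => by positivity)]
  refine lintegral_congr fun x => ?_
  rw [ENNReal.ofReal_pow (norm_nonneg _), ofReal_norm]

/-- on a set where `φ` has mean zero, subtracting a constant increases the norm -/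
lemma mean_zero_le [CompleteSpace F] {α : Type*} [MeasurableSpace α] {μ : Measure α} [IsFiniteMeasure μ]
    {φ : α → F} (hφ : MemLp φ 2 μ) (h0 : ∫ x, φ x ∂μ = 0) (c : F) :
    ∫ x, ‖φ x‖ ^ 2 ∂μ ≤ ∫ x, ‖φ x - c‖ ^ 2 ∂μ := by
  have hi : Integrable φ μ := hφ.integrable one_le_two
  have hi2 : Integrable (fun x => ‖φ x‖ ^ 2) μ := (memLp_two_iff_integrable_sq_norm hφ.1).mp hφ
  have hic : Integrable (fun x => inner ℂ c (φ x)) μ := hi.const_inner c
  have e : ∀ x, ‖φ x - c‖ ^ 2 = ‖φ x‖ ^ 2 - 2 * (inner ℂ c (φ x)).re + ‖c‖ ^ 2 := by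
    intro x
    rw [norm_sub_rev, @norm_sub_sq ℂ]
    simp only [RCLike.re_to_complex]
    ring
  simp only [e]
  have i1 : Integrable (fun x => 2 * (inner ℂ c (φ x)).re) μ := hic.re.const_mul 2
  have i2 : Integrable (fun x => ‖φ x‖ ^ 2 - 2 * (inner ℂ c (φ x)).re) μ := hi2.sub i1
  rw [integral_add i2 (integrable_const _), integral_sub hi2 i1, integral_const_mul]
  have h1 : ∫ x, (inner ℂ c (φ x)).re ∂μ = 0 := by
    have h2 : ∫ x, (inner ℂ c (φ x)).re ∂μ = (∫ x, inner ℂ c (φ x) ∂μ).re := integral_re hic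
    rw [h2, integral_inner hi, h0, inner_zero_right, Complex.zero_re]
  rw [h1, integral_const]
  have : 0 ≤ μ.real Set.univ • ‖c‖ ^ 2 := by positivity
  linarith

/-- the basic estimate: functions with zero cell averages -/
lemma zero_average_bound [CompleteSpace F] {φ : (EuclideanSpace ℝ ι) → F} (hφ : MemLp φ 2 (volume : Measure (EuclideanSpace ℝ ι)))
    {δ : ℝ} (hδ : 0 < δ) (K : Finset (ι → ℤ))
    (hK : ∀ x, x ∉ (⋃ k ∈ K, (cell δ k : Set (EuclideanSpace ℝ ι))) → φ x = 0)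
    (h0 : ∀ k ∈ K, ∫ x in cell δ k, φ x = 0) {v : (EuclideanSpace ℝ ι) → F} (hv : ContDiff ℝ 1 v)
    (hvs : HasCompactSupport v) :
    ∫ x, ‖φ x‖ ^ 2 ≤ 2 * (∫ x, ‖v x - φ x‖ ^ 2) +
      2 * (2 ^ Fintype.card ι * (Fintype.card ι * δ ^ 2)) * ∫ x, ‖fderiv ℝ v x‖ ^ 2 := by
  have hvL : MemLp v 2 (volume : Measure (EuclideanSpace ℝ ι)) := hv.continuous.memLp_of_hasCompactSupport hvs
  have hvi : Integrable v := hv.continuous.integrable_of_hasCompactSupport hvs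
  have hφ2 : Integrable (fun x => ‖φ x‖ ^ 2) := (memLp_two_iff_integrable_sq_norm hφ.1).mp hφ
  have hdL : MemLp (fun x => v x - φ x) 2 (volume : Measure (EuclideanSpace ℝ ι)) := hvL.sub hφ
  have hd2 : Integrable (fun x => ‖v x - φ x‖ ^ 2) := (memLp_two_iff_integrable_sq_norm hdL.1).mp hdL
  have hDv : Integrable (fun x => ‖fderiv ℝ v x‖ ^ 2) := by
    refine ((hv.continuous_fderiv (by simp)).norm.pow 2).integrable_of_hasCompactSupport ?_
    have h1 : HasCompactSupport (fderiv ℝ v) := hvs.fderiv (𝕜 := ℝ)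
    refine h1.mono ?_
    intro x hx
    simp only [Function.mem_support] at hx ⊢
    intro h2
    exact hx (by simp [h2])
  have hfin : ∀ k : ι → ℤ, IsFiniteMeasure (volume.restrict (cell δ k : Set (EuclideanSpace ℝ ι))) := by
    intro k
    refine ⟨?_⟩
    rw [Measure.restrict_apply_univ, volume_cell]
    exact ENNReal.pow_lt_top ENNReal.ofReal_lt_top
  let c : (ι → ℤ) → F := fun k => (volume (cell δ k : Set (EuclideanSpace ℝ ι))).toReal⁻¹ • ∫ y in cell δ k, v y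
  have hcL : ∀ k : ι → ℤ, MemLp (fun x => v x - c k) 2 (volume.restrict (cell δ k : Set (EuclideanSpace ℝ ι))) := by
    intro k
    have := hfin k
    exact (hvL.restrict _).sub (memLp_const _)
  have hc2 : ∀ k : ι → ℤ, Integrable (fun x => ‖v x - c k‖ ^ 2)
      (volume.restrict (cell δ k : Set (EuclideanSpace ℝ ι))) := fun k =>
    (memLp_two_iff_integrable_sq_norm (hcL k).1).mp (hcL k)
  -- the ENNReal bound converted to reals
  have hbound : ∑ k ∈ K, ∫ x in cell δ k, ‖v x - c k‖ ^ 2 ≤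
      2 ^ Fintype.card ι * (Fintype.card ι * δ ^ 2) * ∫ x, ‖fderiv ℝ v x‖ ^ 2 := by
    have h1 := cells_bound hv hvi hδ K
    have h2 : ∀ k ∈ K, ∫⁻ x in cell δ k, ‖v x - (volume (cell δ k)).toReal⁻¹ •
        ∫ y in cell δ k, v y‖ₑ ^ 2 = ENNReal.ofReal (∫ x in cell δ k, ‖v x - c k‖ ^ 2) := by
      intro k _
      exact lint_eq (hc2 k)
    rw [Finset.sum_congr rfl h2, ← ENNReal.ofReal_sum_of_nonneg
      (fun k _ => integral_nonneg fun x => by positivity)] at h1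
    have h3 : ∫⁻ x, ‖fderiv ℝ v x‖ₑ ^ 2 = ENNReal.ofReal (∫ x, ‖fderiv ℝ v x‖ ^ 2) := lint_eq hDv
    rw [h3, ← ENNReal.ofReal_mul (by positivity)] at h1
    exact (ENNReal.ofReal_le_ofReal_iff (by positivity)).mp h1
  -- split the integral into cells
  have hsplit : ∀ f : (EuclideanSpace ℝ ι) → ℝ, Integrable f → ∫ x in ⋃ k ∈ K, (cell δ k : Set (EuclideanSpace ℝ ι)), f x =
      ∑ k ∈ K, ∫ x in cell δ k, f x := by
    intro f hf
    refine integral_biUnion_finset K (fun k _ => measurableSet_cell δ k) ?_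
      (fun k _ => hf.integrableOn)
    intro k _ l _ hkl
    exact cell_disjoint hδ hkl
  have h1 : ∫ x, ‖φ x‖ ^ 2 = ∑ k ∈ K, ∫ x in cell δ k, ‖φ x‖ ^ 2 := by
    rw [← hsplit _ hφ2]
    symm
    refine setIntegral_eq_integral_of_forall_compl_eq_zero fun x hx => ?_
    rw [hK x hx]; simp
  have h2 : ∀ k ∈ K, ∫ x in cell δ k, ‖φ x‖ ^ 2 ≤ 2 * (∫ x in cell δ k, ‖v x - φ x‖ ^ 2) +
      2 * ∫ x in cell δ k, ‖v x - c k‖ ^ 2 := by
    intro k hk
    have := hfin k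
    have a1 := mean_zero_le (hφ.restrict (cell δ k)) (h0 k hk) (c k)
    refine a1.trans ?_
    rw [← integral_const_mul, ← integral_const_mul, ← integral_add
      ((hd2.integrableOn (s := cell δ k)).const_mul 2) ((hc2 k).const_mul 2)]
    have hcφ : MemLp (fun x => φ x - c k) 2 (volume.restrict (cell δ k : Set (EuclideanSpace ℝ ι))) :=
      (hφ.restrict _).sub (memLp_const _)
    refine integral_mono ((memLp_two_iff_integrable_sq_norm hcφ.1).mp hcφ)
      (((hd2.integrableOn (s := cell δ k)).const_mul 2).add ((hc2 k).const_mul 2)) fun x => ?_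
    have e : φ x - c k = (v x - c k) - (v x - φ x) := by abel
    have h3 : ‖φ x - c k‖ ≤ ‖v x - c k‖ + ‖v x - φ x‖ := by
      rw [e]; exact norm_sub_le _ _
    have h4 : ‖φ x - c k‖ ^ 2 ≤ (‖v x - c k‖ + ‖v x - φ x‖) ^ 2 := by gcongr
    simp only
    nlinarith [sq_nonneg (‖v x - c k‖ - ‖v x - φ x‖)]
  have h3 : ∑ k ∈ K, ∫ x in cell δ k, ‖v x - φ x‖ ^ 2 ≤ ∫ x, ‖v x - φ x‖ ^ 2 := by
    rw [← hsplit _ hd2]
    exact setIntegral_le_integral hd2 (Filter.Eventually.of_forall fun x => by positivity)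
  rw [h1]
  refine (Finset.sum_le_sum h2).trans ?_
  rw [Finset.sum_add_distrib, ← Finset.mul_sum, ← Finset.mul_sum]
  nlinarith [hbound, h3]

lemma exists_cells {δ : ℝ} (hδ : 0 < δ) (R : ℝ) : ∃ K : Finset (ι → ℤ),
    ∀ x : (EuclideanSpace ℝ ι), ‖x‖ < R → x ∈ ⋃ k ∈ K, (cell δ k : Set (EuclideanSpace ℝ ι)) := by
  classical
  obtain ⟨N, hN⟩ := exists_nat_gt (R / δ + 1)
  refine ⟨Fintype.piFinset fun _ => Finset.Icc (-(N : ℤ)) N, fun x hx => ?_⟩
  simp only [Set.mem_iUnion, Fintype.mem_piFinset, Finset.mem_Icc]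
  refine ⟨fun i => ⌊x i / δ⌋, fun i => ?_, ?_⟩
  · have h1 : |x i| ≤ ‖x‖ := PiLp.norm_apply_le x i
    have h2 : |x i / δ| < R / δ := by
      rw [abs_div, abs_of_pos hδ]
      exact div_lt_div_of_pos_right (lt_of_le_of_lt h1 hx) hδ
    rw [abs_lt] at h2
    constructor
    · rw [Int.le_floor]
      push_cast
      linarith
    · have : ⌊x i / δ⌋ ≤ (N : ℤ) := by
        have h3 : (⌊x i / δ⌋ : ℝ) ≤ x i / δ := Int.floor_le _
        have h4 : (⌊x i / δ⌋ : ℝ) ≤ N := by linarith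
        exact_mod_cast h4
      exact this
  · rw [mem_cell]
    intro i
    have h3 : (⌊x i / δ⌋ : ℝ) ≤ x i / δ := Int.floor_le _
    have h4 : x i / δ < ⌊x i / δ⌋ + 1 := Int.lt_floor_add_one _
    rw [le_div_iff₀ hδ] at h3
    rw [div_lt_iff₀ hδ] at h4
    constructor
    · linarith
    · linarith

end FD

open FD

/-- A subspace of `L²` whose elements have uniformly small tails and are locally regular is
finite-dimensional. -/
theorem finiteDimensional_of_tail {ι : Type*} [Fintype ι] {F : Type*} [NormedAddCommGroup F]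
    [InnerProductSpace ℂ F] [FiniteDimensional ℂ F]
    (W : Submodule ℂ (Lp F 2 (volume : Measure (EuclideanSpace ℝ ι)))) (C R : ℝ)
    (χ : EuclideanSpace ℝ ι → ℝ) (hχc : Continuous χ) (hχ0 : ∀ x, 0 ≤ χ x) (hχ1 : ∀ x, χ x ≤ 1)
    (hχR : ∀ x, R ≤ ‖x‖ → χ x = 0)
    (htail : ∀ Ψ ∈ W, ∫ x, ‖Ψ x‖ ^ 2 ≤ C * ∫ x, ‖((χ x : ℝ) : ℂ) • Ψ x‖ ^ 2)
    (hreg : ∀ Ψ ∈ W, ∃ v : ℕ → EuclideanSpace ℝ ι → F,
      (∀ n, ContDiff ℝ 1 (v n)) ∧ (∀ n, HasCompactSupport (v n)) ∧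
      Tendsto (fun n => ∫ x, ‖v n x - ((χ x : ℝ) : ℂ) • Ψ x‖ ^ 2) atTop (𝓝 0) ∧
      ∀ ε > 0, ∀ᶠ n in atTop, ∫ x, ‖fderiv ℝ (v n) x‖ ^ 2 ≤ C * (∫ x, ‖Ψ x‖ ^ 2) + ε) :
    FiniteDimensional ℂ W := by
  have : CompleteSpace F := FiniteDimensional.complete ℂ F
  -- choose the mesh size
  set X : ℝ := 2 * (2 ^ Fintype.card ι * Fintype.card ι) * C ^ 2 with hX
  have hX0 : 0 ≤ X := by positivity
  set δ : ℝ := 1 / (X + 1) with hδdef
  have hδ : 0 < δ := by positivity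
  have hδ1 : δ ≤ 1 := by
    rw [hδdef, div_le_one (by positivity)]; linarith
  have hXδ : X * δ ^ 2 < 1 := by
    have h1 : X * δ < 1 := by
      rw [hδdef, mul_one_div, div_lt_one (by positivity)]; linarith
    have h2 : X * δ ^ 2 = (X * δ) * δ := by ring
    rw [h2]
    have h3 : 0 ≤ X * δ := by positivity
    nlinarith
  obtain ⟨K, hK⟩ := exists_cells (ι := ι) hδ R
  have hmem : ∀ Ψ : Lp F 2 (volume : Measure (EuclideanSpace ℝ ι)),
      MemLp (fun x => ((χ x : ℝ) : ℂ) • Ψ x) 2 (volume : Measure (EuclideanSpace ℝ ι)) := by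
    intro Ψ
    refine MemLp.mono (Lp.memLp Ψ) ?_ (Filter.Eventually.of_forall fun x => ?_)
    · exact (Complex.continuous_ofReal.comp hχc).aestronglyMeasurable.smul
        (Lp.aestronglyMeasurable Ψ)
    · rw [norm_smul, Complex.norm_real, Real.norm_of_nonneg (hχ0 x)]
      exact mul_le_of_le_one_left (norm_nonneg _) (hχ1 x)
  have hfin : ∀ k : ι → ℤ, IsFiniteMeasure (volume.restrict (cell δ k)) := by
    intro k
    refine ⟨?_⟩
    rw [Measure.restrict_apply_univ, volume_cell]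
    exact ENNReal.pow_lt_top ENNReal.ofReal_lt_top
  have hint : ∀ (Ψ : Lp F 2 (volume : Measure (EuclideanSpace ℝ ι))) (k : ι → ℤ),
      Integrable (fun x => ((χ x : ℝ) : ℂ) • Ψ x) (volume.restrict (cell δ k)) := by
    intro Ψ k
    have := hfin k
    exact ((hmem Ψ).restrict _).integrable one_le_two
  -- the averaging map
  let T : W →ₗ[ℂ] (K → F) :=
    { toFun := fun Ψ k => ∫ x in cell δ (k : ι → ℤ), ((χ x : ℝ) : ℂ) • (Ψ : Lp F 2 volume) x
      map_add' := by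
        intro Ψ Φ
        funext k
        rw [Pi.add_apply, ← integral_add (hint _ _) (hint _ _)]
        refine integral_congr_ae ?_
        filter_upwards [ae_restrict_of_ae (Lp.coeFn_add (Ψ : Lp F 2 volume) (Φ : Lp F 2 volume))]
          with x hx
        have : ((Ψ + Φ : W) : Lp F 2 (volume : Measure (EuclideanSpace ℝ ι))) x =
            (Ψ : Lp F 2 volume) x + (Φ : Lp F 2 volume) x := hx
        rw [this, smul_add]
      map_smul' := by
        intro c Ψ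
        funext k
        rw [Pi.smul_apply, RingHom.id_apply, ← integral_smul]
        refine integral_congr_ae ?_
        filter_upwards [ae_restrict_of_ae (Lp.coeFn_smul c (Ψ : Lp F 2 volume))] with x hx
        have : ((c • Ψ : W) : Lp F 2 (volume : Measure (EuclideanSpace ℝ ι))) x =
            c • (Ψ : Lp F 2 volume) x := hx
        rw [this, smul_comm] }
  refine FiniteDimensional.of_injective T ?_
  rw [← LinearMap.ker_eq_bot, LinearMap.ker_eq_bot']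
  intro Ψ hΨ
  obtain ⟨v, hv, hvs, hconv, hgrad⟩ := hreg Ψ Ψ.2
  have h0 : ∀ k ∈ K, ∫ x in cell δ k, ((χ x : ℝ) : ℂ) • (Ψ : Lp F 2 volume) x = 0 := by
    intro k hk
    exact congrFun hΨ ⟨k, hk⟩
  have hout : ∀ x, x ∉ (⋃ k ∈ K, cell δ k) → ((χ x : ℝ) : ℂ) • (Ψ : Lp F 2 volume) x = 0 := by
    intro x hx
    have : R ≤ ‖x‖ := by
      by_contra hcon
      push Not at hcon
      exact hx (hK x hcon)
    rw [hχR x this]; simp
  have hb := fun n => zero_average_bound (hmem Ψ) hδ K hout h0 (hv n) (hvs n)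
  set IΨ : ℝ := ∫ x : EuclideanSpace ℝ ι,
    ‖(Ψ : Lp F 2 (volume : Measure (EuclideanSpace ℝ ι))) x‖ ^ 2 with hIΨ
  set Iφ : ℝ := ∫ x : EuclideanSpace ℝ ι,
    ‖((χ x : ℝ) : ℂ) • (Ψ : Lp F 2 (volume : Measure (EuclideanSpace ℝ ι))) x‖ ^ 2 with hIφ
  have hIΨ0 : 0 ≤ IΨ := integral_nonneg fun x => by positivity
  have hIφ0 : 0 ≤ Iφ := integral_nonneg fun x => by positivity
  have hlim : Iφ ≤ 2 * (2 ^ Fintype.card ι * (Fintype.card ι * δ ^ 2)) * (C * IΨ) := by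
    refine le_of_forall_pos_le_add fun ε hε => ?_
    set Y : ℝ := 2 * (2 ^ Fintype.card ι * (Fintype.card ι * δ ^ 2)) with hY
    have hY0 : 0 ≤ Y := by positivity
    have hε1 : 0 < ε / (2 * (Y + 1)) := by positivity
    have hε2 : 0 < ε / 4 := by positivity
    obtain ⟨n, hn1, hn2⟩ := ((hgrad _ hε1).and (hconv.eventually_lt_const hε2)).exists
    have h1 := hb n
    have h2 : Y * ∫ x, ‖fderiv ℝ (v n) x‖ ^ 2 ≤ Y * (C * IΨ + ε / (2 * (Y + 1))) :=
      mul_le_mul_of_nonneg_left hn1 hY0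
    have h3 : Y * (ε / (2 * (Y + 1))) ≤ ε / 2 := by
      rw [mul_div_assoc', div_le_div_iff₀ (by positivity) (by norm_num)]
      nlinarith
    have h4 : Y * (C * IΨ + ε / (2 * (Y + 1))) = Y * (C * IΨ) + Y * (ε / (2 * (Y + 1))) := by ring
    linarith
  have ht : IΨ ≤ C * Iφ := htail Ψ Ψ.2
  have hz : Iφ = 0 := by
    by_contra hne
    have hpos : 0 < Iφ := lt_of_le_of_ne hIφ0 (Ne.symm hne)
    by_cases hC : 0 ≤ C
    · have h1 : 2 * (2 ^ Fintype.card ι * (Fintype.card ι * δ ^ 2)) * (C * IΨ) ≤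
          2 * (2 ^ Fintype.card ι * (Fintype.card ι * δ ^ 2)) * (C * (C * Iφ)) := by gcongr
      have h2 : 2 * (2 ^ Fintype.card ι * (Fintype.card ι * δ ^ 2)) * (C * (C * Iφ)) =
          X * δ ^ 2 * Iφ := by rw [hX]; ring
      nlinarith
    · push Not at hC
      nlinarith
  have hΨ0 : IΨ = 0 := le_antisymm (by rw [hz, mul_zero] at ht; exact ht) hIΨ0
  have hae : ∀ᵐ x, (Ψ : Lp F 2 (volume : Measure (EuclideanSpace ℝ ι))) x = 0 := by
    have h0 := Lp.memLp (Ψ : Lp F 2 (volume : Measure (EuclideanSpace ℝ ι)))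
    have h1 : Integrable (fun x => ‖(Ψ : Lp F 2 (volume : Measure (EuclideanSpace ℝ ι))) x‖ ^ 2) :=
      (memLp_two_iff_integrable_sq_norm h0.1).mp h0
    have h2 := (integral_eq_zero_iff_of_nonneg (fun x => by positivity) h1).mp hΨ0
    filter_upwards [h2] with x hx
    simpa using hx
  have h5 : (Ψ : Lp F 2 (volume : Measure (EuclideanSpace ℝ ι))) = 0 := by
    rw [Lp.eq_zero_iff_ae_eq_zero]
    exact hae
  exact (Submodule.coe_eq_zero (p := W)).mp h5

end Vale.Agent.P353
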