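import Vale.Agent.P353.RotE

open MeasureTheory Filter Topology
open scoped ContDiff

namespace Vale.Agent.P353

variable {F : Type*} [NormedAddCommGroup F] [InnerProductSpace ℂ F]

lemma tendsto_of_bounds {D q a p : ℕ → ℝ} {E : ℝ → ℝ} {c A : ℝ} (hc : 0 ≤ c) (hA : 0 ≤ A)
    (hD : ∀ n, 0 ≤ D n) (hq : Tendsto q atTop (𝓝 0)) (hp : Tendsto p atTop (𝓝 0))
    (ha : ∀ n, a n ≤ 2 * p n + A) (hE : Tendsto (fun n : ℕ => E (n + 1)) atTop (𝓝 0))
    (hb : ∀ n, ∀ R > 0, ∀ δ > 0, D n ≤ c * (R * (q n / δ + δ * a n) + (2 * E R + 2 * p n)) +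
      4 * (2 * E R + 2 * p n)) : Tendsto D atTop (𝓝 0) := by
  rw [Metric.tendsto_atTop]
  intro ε hε
  have h1 : Tendsto (fun n : ℕ => (2 * c + 8) * E (n + 1)) atTop (𝓝 0) := by
    simpa using hE.const_mul (2 * c + 8)
  obtain ⟨m, hm⟩ := (h1.eventually_lt_const (show (0 : ℝ) < ε / 3 by positivity)).exists
  set R : ℝ := (m : ℝ) + 1 with hRdef
  have hR : 0 < R := by positivity
  set δ : ℝ := ε / (3 * (c * R * A + 1)) with hδdef
  have hcRA : 0 ≤ c * R * A := by positivity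
  have hδ : 0 < δ := by positivity
  have h2 : c * R * δ * A < ε / 3 := by
    rw [hδdef]
    rw [show c * R * (ε / (3 * (c * R * A + 1))) * A = (ε / 3) * (c * R * A / (c * R * A + 1)) by
      field_simp]
    have : c * R * A / (c * R * A + 1) < 1 := by
      rw [div_lt_one (by positivity)]
      linarith
    nlinarith
  have hlim : Tendsto (fun n => c * (R * (q n / δ + δ * (2 * p n + A)) + (2 * E R + 2 * p n)) +
      4 * (2 * E R + 2 * p n)) atTop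
      (𝓝 (c * (R * (0 / δ + δ * (2 * 0 + A)) + (2 * E R + 2 * 0)) + 4 * (2 * E R + 2 * 0))) := by
    have a1 := hq.div_const δ
    have a2 := ((hp.const_mul 2).add_const A).const_mul δ
    have a3 := (tendsto_const_nhds (x := 2 * E R) (f := (atTop : Filter ℕ))).add (hp.const_mul 2)
    exact ((((a1.add a2).const_mul R).add a3).const_mul c).add (a3.const_mul 4)
  have hlt : c * (R * (0 / δ + δ * (2 * 0 + A)) + (2 * E R + 2 * 0)) + 4 * (2 * E R + 2 * 0) < ε := by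
    have e : c * (R * (0 / δ + δ * (2 * 0 + A)) + (2 * E R + 2 * 0)) + 4 * (2 * E R + 2 * 0) =
        c * R * δ * A + (2 * c + 8) * E R := by
      rw [zero_div]; ring
    rw [e]
    linarith
  obtain ⟨N, hN⟩ := Filter.eventually_atTop.mp (hlim.eventually_lt_const hlt)
  refine ⟨N, fun n hn => ?_⟩
  rw [Real.dist_eq, sub_zero, abs_of_nonneg (hD n)]
  refine lt_of_le_of_lt (hb n R hR δ hδ) (lt_of_le_of_lt ?_ (hN n hn))
  have := ha n
  gcongr

omit [InnerProductSpace ℂ F] in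
/-- the tails of an `L²` function tend to zero -/
lemma tendsto_tail (Ψ : X3 → F) (hΨ : Integrable (fun x => ‖Ψ x‖ ^ 2)) :
    Tendsto (fun n : ℕ => ∫ x, wR ((n : ℝ) + 1) ‖x‖ * ‖Ψ x‖ ^ 2) atTop (𝓝 0) := by
  have h := tendsto_integral_of_dominated_convergence
    (F := fun (n : ℕ) x => wR ((n : ℝ) + 1) ‖x‖ * ‖Ψ x‖ ^ 2) (f := fun _ => (0 : ℝ))
    (μ := (volume : Measure X3)) (fun x => ‖Ψ x‖ ^ 2)
    (fun n => (integrable_wR _ hΨ).aestronglyMeasurable) hΨ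
    (fun n => Filter.Eventually.of_forall fun x => ?_)
    (Filter.Eventually.of_forall fun x => ?_)
  · simpa using h
  · rw [norm_mul, Real.norm_of_nonneg (wR_nonneg _ _), Real.norm_of_nonneg (by positivity)]
    have h1 := wR_le_one ((n : ℝ) + 1) ‖x‖
    nlinarith [sq_nonneg ‖Ψ x‖]
  · obtain ⟨N, hN⟩ := exists_nat_gt ‖x‖
    refine tendsto_const_nhds.congr' ?_
    filter_upwards [Filter.eventually_ge_atTop N] with n hn
    have : ¬ ((n : ℝ) + 1 ≤ ‖x‖) := by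
      push Not
      have : (N : ℝ) ≤ n := by exact_mod_cast hn
      linarith
    rw [wR, if_neg this, zero_mul]

omit [InnerProductSpace ℂ F] in
lemma norm_sq_le_two (u v : F) : ‖u‖ ^ 2 ≤ 2 * ‖v‖ ^ 2 + 2 * ‖u - v‖ ^ 2 := by
  have h1 : ‖u‖ ≤ ‖v‖ + ‖u - v‖ := by
    calc ‖u‖ = ‖v + (u - v)‖ := by congr 1; abel
      _ ≤ _ := norm_add_le _ _
  have h2 : ‖u‖ ^ 2 ≤ (‖v‖ + ‖u - v‖) ^ 2 := by gcongr
  nlinarith [sq_nonneg (‖v‖ - ‖u - v‖)]

namespace Setup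

variable (S : Setup F) [CompleteSpace F]

/-- the rotated function is close to the function -/
lemma rot_diff_bound {k l : Fin 9} (h : k ≠ l) {K K0 : ℝ} {u : X3 → F} (hu : Tst u) {R : ℝ}
    {χ : X3 → ℝ} (hχ : IsCut K0 R χ) {X : ℝ} (t : ℝ)
    (hb : ∀ s : ℝ, ‖∫ x, inner ℂ (((χ x : ℝ) : ℂ) • u x) (S.J k l (S.Ut k l s u) x)‖ ≤ K * X) :
    ∫ x, ‖S.Ut k l t u x - u x‖ ^ 2 ≤ 2 * |t| * (K * X) + 4 * ∫ x, wR R ‖x‖ * ‖u x‖ ^ 2 := by
  set v := S.Ut k l t u with hv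
  have hvT : Tst v := hu.Ut S h t
  have hχs : ContDiff ℝ ∞ χ := hχ.1
  have hχ0 := hχ.2.2.1
  have hχ1 := hχ.2.2.2.1
  have hχin := hχ.2.2.2.2.1
  have hcu : Tst (fun x => ((χ x : ℝ) : ℂ) • u x) := hu.rsmul hχs
  -- the mean value estimate
  have hder : ∀ s, HasDerivAt (fun s => ∫ x, inner ℂ (((χ x : ℝ) : ℂ) • u x) (S.Ut k l s u x))
      (∫ x, inner ℂ (((χ x : ℝ) : ℂ) • u x) (Complex.I • S.J k l (S.Ut k l s u) x)) s := fun s =>
    S.hasDerivAt_integral_Ut h hcu.1.continuous.locallyIntegrable hu s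
  have hmv : ‖(∫ x, inner ℂ (((χ x : ℝ) : ℂ) • u x) (v x)) -
      ∫ x, inner ℂ (((χ x : ℝ) : ℂ) • u x) (S.Ut k l 0 u x)‖ ≤ (K * X) * ‖t - 0‖ := by
    refine Convex.norm_image_sub_le_of_norm_hasDerivWithin_le (s := Set.univ)
      (fun s _ => (hder s).hasDerivWithinAt) (fun s _ => ?_) convex_univ (Set.mem_univ _)
      (Set.mem_univ _)
    simp only [inner_smul_right]
    rw [integral_const_mul, norm_mul, Complex.norm_I, one_mul]
    have := hb s
    simpa only [inner_smul_right] using this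
  have hU0 : ∀ x, S.Ut k l 0 u x = u x := by
    intro x
    rw [Ut, neg_zero, RR_zero, S.st_zero]
    rfl
  simp only [hU0, sub_zero, Real.norm_eq_abs] at hmv
  -- pointwise estimate
  have hpt : ∀ x, ‖v x - u x‖ ^ 2 ≤ (‖v x‖ ^ 2 - ‖u x‖ ^ 2) +
      (2 * (inner ℂ (((χ x : ℝ) : ℂ) • u x) (u x)).re -
        2 * (inner ℂ (((χ x : ℝ) : ℂ) • u x) (v x)).re) +
      (3 * (wR R ‖x‖ * ‖u x‖ ^ 2) + wR R ‖x‖ * ‖v x‖ ^ 2) := by
    intro x
    have e1 : ‖v x - u x‖ ^ 2 = ‖v x‖ ^ 2 + ‖u x‖ ^ 2 - 2 * (inner ℂ (u x) (v x)).re := by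
      rw [@norm_sub_sq ℂ]
      have : RCLike.re (inner ℂ (v x) (u x)) = (inner ℂ (u x) (v x)).re := by
        exact inner_re_symm (𝕜 := ℂ) (v x) (u x)
      rw [this]; ring
    have e2 : ∀ w : F, (inner ℂ (((χ x : ℝ) : ℂ) • u x) w).re = χ x * (inner ℂ (u x) w).re := by
      intro w
      rw [inner_smul_left, Complex.conj_ofReal, Complex.re_ofReal_mul]
    have e3 : (inner ℂ (u x) (u x)).re = ‖u x‖ ^ 2 := by
      rw [inner_self_eq_norm_sq_to_K]; norm_cast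
    rw [e1, e2, e2, e3]
    have h4 : |(inner ℂ (u x) (v x)).re| ≤ ‖u x‖ * ‖v x‖ :=
      (Complex.abs_re_le_norm _).trans (norm_inner_le_norm _ _)
    have h5 : ‖u x‖ * ‖v x‖ ≤ 1 / 2 * (‖u x‖ ^ 2 + ‖v x‖ ^ 2) := by
      nlinarith [sq_nonneg (‖u x‖ - ‖v x‖)]
    have h6 : -(inner ℂ (u x) (v x)).re ≤ 1 / 2 * (‖u x‖ ^ 2 + ‖v x‖ ^ 2) :=
      (neg_le_abs _).trans (h4.trans h5)
    by_cases hx : R ≤ ‖x‖
    · rw [wR, if_pos hx]
      have h7 := hχ0 x
      have h8 := hχ1 x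
      nlinarith [sq_nonneg ‖u x‖, sq_nonneg ‖v x‖,
        mul_le_mul_of_nonneg_left h6 (sub_nonneg.mpr h8)]
    · push Not at hx
      rw [wR, if_neg (not_le.mpr hx), hχin x hx.le]
      linarith
  have hva : ∫ x, ‖v x‖ ^ 2 = ∫ x, ‖u x‖ ^ 2 := S.integral_Ut' h t u
  have hve : ∫ x, wR R ‖x‖ * ‖v x‖ ^ 2 = ∫ x, wR R ‖x‖ * ‖u x‖ ^ 2 := S.integral_Ut h t u (wR R)
  have i1 : Integrable (fun x => ‖v x‖ ^ 2 - ‖u x‖ ^ 2) := hvT.norm_sq_int.sub hu.norm_sq_int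
  have c1 : Integrable (fun x => inner ℂ (((χ x : ℝ) : ℂ) • u x) (u x)) :=
    hcu.inner_int hu.1.continuous
  have c2 : Integrable (fun x => inner ℂ (((χ x : ℝ) : ℂ) • u x) (v x)) :=
    hcu.inner_int hvT.1.continuous
  have c1' : Integrable (fun x => 2 * (inner ℂ (((χ x : ℝ) : ℂ) • u x) (u x)).re) :=
    c1.re.const_mul 2
  have c2' : Integrable (fun x => 2 * (inner ℂ (((χ x : ℝ) : ℂ) • u x) (v x)).re) :=
    c2.re.const_mul 2
  have i2 : Integrable (fun x => 2 * (inner ℂ (((χ x : ℝ) : ℂ) • u x) (u x)).re -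
        2 * (inner ℂ (((χ x : ℝ) : ℂ) • u x) (v x)).re) := c1'.sub c2'
  have i3 : Integrable (fun x => wR R ‖x‖ * ‖u x‖ ^ 2) := integrable_wR R hu.norm_sq_int
  have i4 : Integrable (fun x => wR R ‖x‖ * ‖v x‖ ^ 2) := integrable_wR R hvT.norm_sq_int
  have i5 : Integrable (fun x => 3 * (wR R ‖x‖ * ‖u x‖ ^ 2) + wR R ‖x‖ * ‖v x‖ ^ 2) :=
    (i3.const_mul 3).add i4
  have i12 : Integrable (fun x => (‖v x‖ ^ 2 - ‖u x‖ ^ 2) +
      (2 * (inner ℂ (((χ x : ℝ) : ℂ) • u x) (u x)).re -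
        2 * (inner ℂ (((χ x : ℝ) : ℂ) • u x) (v x)).re)) := i1.add i2
  have hre : ∀ f : X3 → ℂ, Integrable f → ∫ x, (f x).re = (∫ x, f x).re := by
    intro f hf
    exact integral_re hf
  calc ∫ x, ‖v x - u x‖ ^ 2 ≤ ∫ x, ((‖v x‖ ^ 2 - ‖u x‖ ^ 2) +
      (2 * (inner ℂ (((χ x : ℝ) : ℂ) • u x) (u x)).re -
        2 * (inner ℂ (((χ x : ℝ) : ℂ) • u x) (v x)).re) +
      (3 * (wR R ‖x‖ * ‖u x‖ ^ 2) + wR R ‖x‖ * ‖v x‖ ^ 2)) :=
        integral_mono (hvT.sub hu).norm_sq_int (i12.add i5) hpt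
    _ = 2 * ((∫ x, inner ℂ (((χ x : ℝ) : ℂ) • u x) (u x)) -
          ∫ x, inner ℂ (((χ x : ℝ) : ℂ) • u x) (v x)).re + 4 * ∫ x, wR R ‖x‖ * ‖u x‖ ^ 2 := by
        rw [integral_add i12 i5, integral_add i1 i2, integral_sub hvT.norm_sq_int hu.norm_sq_int,
          hva, sub_self, integral_sub c1' c2', integral_const_mul, integral_const_mul,
          hre _ c1, hre _ c2, integral_add (i3.const_mul 3) i4, integral_const_mul, hve,
          Complex.sub_re]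
        ring
    _ ≤ 2 * (K * X * |t|) + 4 * ∫ x, wR R ‖x‖ * ‖u x‖ ^ 2 := by
        have h1 : ((∫ x, inner ℂ (((χ x : ℝ) : ℂ) • u x) (u x)) -
          ∫ x, inner ℂ (((χ x : ℝ) : ℂ) • u x) (v x)).re ≤ K * X * |t| := by
          refine (Complex.re_le_norm _).trans ?_
          rw [norm_sub_rev]
          exact hmv
        linarith
    _ = _ := by ring

/-- the approximating sequence is asymptotically rotation invariant -/
lemma tendsto_Ut_sub {k l : Fin 9} (h : k ≠ l) (hJ : JExact S k l)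
    (Ψ : Lp F 2 (volume : Measure X3)) (u : ℕ → X3 → F) (hA : S.Apx Ψ u) (t : ℝ) :
    Tendsto (fun n => ∫ x, ‖S.Ut k l t (u n) x - u n x‖ ^ 2) atTop (𝓝 0) := by
  obtain ⟨K0, hK0, hcut⟩ := exists_cut
  obtain ⟨K, hK, hb⟩ := S.deriv_bound h hJ hK0
  obtain ⟨hT, -, hconv, hQ⟩ := hA
  have hΨ : Integrable (fun x => ‖Ψ x‖ ^ 2) := memLp_norm_sq_int (Lp.memLp Ψ)
  have hdiffm : ∀ n, MemLp (fun x => u n x - Ψ x) 2 (volume : Measure X3) := fun n =>
    (hT n).memLp.sub (Lp.memLp Ψ)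
  have hdi : ∀ n, Integrable (fun x => ‖u n x - Ψ x‖ ^ 2) := fun n => memLp_norm_sq_int (hdiffm n)
  refine tendsto_of_bounds (c := 2 * |t| * K) (A := 2 * ∫ x, ‖Ψ x‖ ^ 2)
    (q := fun n => ∑ b, ∫ x, ‖S.Q b (u n) x‖ ^ 2) (a := fun n => ∫ x, ‖u n x‖ ^ 2)
    (p := fun n => ∫ x, ‖u n x - Ψ x‖ ^ 2) (E := fun R => ∫ x, wR R ‖x‖ * ‖Ψ x‖ ^ 2)
    (by positivity) (mul_nonneg (by norm_num) (integral_nonneg fun x => by positivity))
    (fun n => integral_nonneg fun x => by positivity) ?_ hconv ?_ (tendsto_tail _ hΨ) ?_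
  · have : Tendsto (fun n => ∑ b, ∫ x, ‖S.Q b (u n) x‖ ^ 2) atTop (𝓝 (∑ b : Fin 16, (0 : ℝ))) :=
      tendsto_finsetSum _ fun b _ => hQ b
    simpa using this
  · intro n
    rw [← integral_const_mul, ← integral_const_mul, ← integral_add ((hdi n).const_mul 2)
      (hΨ.const_mul 2)]
    refine integral_mono (hT n).norm_sq_int (((hdi n).const_mul 2).add (hΨ.const_mul 2)) fun x => ?_
    have := norm_sq_le_two (u n x) (Ψ x)
    simp only
    linarith
  · intro n R hR δ hδ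
    obtain ⟨χ, hχ⟩ := hcut R hR
    have h1 := S.rot_diff_bound h (hT n) hχ t (hb (u n) (hT n) R hR δ hδ χ hχ)
    have h2 : ∫ x, wR R ‖x‖ * ‖u n x‖ ^ 2 ≤ 2 * (∫ x, wR R ‖x‖ * ‖Ψ x‖ ^ 2) +
        2 * ∫ x, ‖u n x - Ψ x‖ ^ 2 := by
      rw [← integral_const_mul, ← integral_const_mul,
        ← integral_add ((integrable_wR R hΨ).const_mul 2) ((hdi n).const_mul 2)]
      refine integral_mono (integrable_wR R (hT n).norm_sq_int)
        (((integrable_wR R hΨ).const_mul 2).add ((hdi n).const_mul 2)) fun x => ?_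
      have h3 := norm_sq_le_two (u n x) (Ψ x)
      have h4 := wR_nonneg R ‖x‖
      have h5 := wR_le_one R ‖x‖
      simp only
      nlinarith [sq_nonneg ‖u n x - Ψ x‖, mul_le_mul_of_nonneg_left h3 h4]
    have hK' : 0 ≤ 2 * |t| * K := by positivity
    have h6 := mul_le_mul_of_nonneg_left h2 hK'
    nlinarith [h1, h2, h6]

end Setup

/-- Spin(9) invariance of zero modes, in weak form -/
theorem weak_J_of [CompleteSpace F] (S : Setup F) (Ψ : Lp F 2 (volume : Measure X3))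
    (u : ℕ → X3 → F) (hA : S.Apx Ψ u) (k l : Fin 9) (hkl : k ≠ l) (hJ : JExact S k l)
    (ζ : X3 → F) (hζ : Setup.Tst ζ) :
    ∫ x, inner ℂ (S.J k l ζ x) (Ψ x) = 0 := by
  have hT := hA.1
  have hconv := hA.2.2.1
  have hdiffm : ∀ n, MemLp (fun x => Ψ x - u n x) 2 (volume : Measure X3) := fun n =>
    (Lp.memLp Ψ).sub (hT n).memLp
  -- pairing with test functions passes to the limit
  have hlim : ∀ w : X3 → F, Setup.Tst w →
      Tendsto (fun n => ∫ x, inner ℂ (u n x) (w x)) atTop (𝓝 (∫ x, inner ℂ (Ψ x) (w x))) := by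
    intro w hw
    rw [← tendsto_sub_nhds_zero_iff]
    have hz : Tendsto (fun n => Real.sqrt (∫ x, ‖Ψ x - u n x‖ ^ 2) *
        Real.sqrt (∫ x, ‖w x‖ ^ 2)) atTop (𝓝 0) := by
      have h1 : Tendsto (fun n => ∫ x, ‖Ψ x - u n x‖ ^ 2) atTop (𝓝 0) := by
        simpa only [norm_sub_rev] using hconv
      have h2 := (Real.continuous_sqrt.tendsto 0).comp h1
      simp only [Real.sqrt_zero] at h2
      simpa using h2.mul_const (Real.sqrt (∫ x, ‖w x‖ ^ 2))
    refine squeeze_zero_norm (fun n => ?_) hz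
    have e : (∫ x, inner ℂ (u n x) (w x)) - ∫ x, inner ℂ (Ψ x) (w x) =
        -∫ x, inner ℂ (Ψ x - u n x) (w x) := by
      have i1 : Integrable (fun x => inner ℂ (u n x) (w x)) := (hT n).inner_int hw.1.continuous
      have i2 : Integrable (fun x => inner ℂ (Ψ x) (w x)) :=
        integrable_inner_memLp (Lp.memLp Ψ) hw.memLp
      simp only [inner_sub_left]
      rw [integral_sub i2 i1]
      ring
    rw [e, norm_neg]
    exact cs_inner (hdiffm n) hw.memLp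
  -- invariance under finite rotations
  have hinv : ∀ t : ℝ, ∫ x, inner ℂ (Ψ x) (S.Ut k l t ζ x) = ∫ x, inner ℂ (Ψ x) (ζ x) := by
    intro t
    have h1 := hlim _ (hζ.Ut S hkl t)
    have h2 := hlim _ hζ
    have h3 := S.tendsto_Ut_sub hkl hJ Ψ u hA (-t)
    have h4 : Tendsto (fun n => (∫ x, inner ℂ (u n x) (S.Ut k l t ζ x)) -
        ∫ x, inner ℂ (u n x) (ζ x)) atTop (𝓝 0) := by
      have hz : Tendsto (fun n => Real.sqrt (∫ x, ‖S.Ut k l (-t) (u n) x - u n x‖ ^ 2) *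
          Real.sqrt (∫ x, ‖ζ x‖ ^ 2)) atTop (𝓝 0) := by
        have h5 := (Real.continuous_sqrt.tendsto 0).comp h3
        simp only [Real.sqrt_zero] at h5
        simpa using h5.mul_const (Real.sqrt (∫ x, ‖ζ x‖ ^ 2))
      refine squeeze_zero_norm (fun n => ?_) hz
      have e : (∫ x, inner ℂ (u n x) (S.Ut k l t ζ x)) - ∫ x, inner ℂ (u n x) (ζ x) =
          ∫ x, inner ℂ (S.Ut k l (-t) (u n) x - u n x) (ζ x) := by
        have hU := S.inner_Ut hkl (-t) (u n) ζ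
        rw [neg_neg] at hU
        rw [← hU, ← integral_sub (((hT n).Ut S hkl (-t)).inner_int hζ.1.continuous)
          ((hT n).inner_int hζ.1.continuous)]
        simp only [inner_sub_left]
      rw [e]
      exact cs_inner (((hT n).Ut S hkl (-t)).sub (hT n)).memLp hζ.memLp
    have h5 := tendsto_nhds_unique (h1.sub h2) h4
    exact sub_eq_zero.mp h5
  -- differentiate
  have hloc : LocallyIntegrable (fun x => Ψ x) (volume : Measure X3) :=
    (Lp.memLp Ψ).locallyIntegrable one_le_two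
  have hd := S.hasDerivAt_integral_Ut hkl hloc hζ 0
  have hconst : HasDerivAt (fun t => ∫ x, inner ℂ (Ψ x) (S.Ut k l t ζ x)) (0 : ℂ) 0 := by
    simp only [hinv]
    exact hasDerivAt_const _ _
  have h0 := hd.unique hconst
  have hU0 : S.Ut k l 0 ζ = ζ := by
    ext x
    rw [Setup.Ut, neg_zero, RR_zero, S.st_zero]
    rfl
  rw [hU0] at h0
  simp only [inner_smul_right] at h0
  rw [integral_const_mul] at h0
  have h1 : ∫ x, inner ℂ (Ψ x) (S.J k l ζ x) = 0 := by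
    rcases mul_eq_zero.mp h0 with h | h
    · exact absurd h Complex.I_ne_zero
    · exact h
  have h2 : ∫ x, inner ℂ (S.J k l ζ x) (Ψ x) =
      (starRingEnd ℂ) (∫ x, inner ℂ (Ψ x) (S.J k l ζ x)) := by
    rw [← integral_conj]
    congr 1
    ext x
    rw [inner_conj_symm]
  rw [h2, h1, map_zero]

theorem weak_J [CompleteSpace F] (S : Setup F) (Ψ : Lp F 2 (volume : Measure X3))
    (u : ℕ → X3 → F) (h : S.Apx Ψ u) (k l : Fin 9) (hkl : k ≠ l)
    (ζ : X3 → F) (hζ : Setup.Tst ζ) :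
    ∫ x, inner ℂ (S.J k l ζ x) (Ψ x) = 0 :=
  weak_J_of S Ψ u h k l hkl (jExact S hkl) ζ hζ

end Vale.Agent.P353
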