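import Vale.Agent.P353.BridgeB
import Vale.Agent.P353.Decay3
import Vale.Agent.P353.FiniteDim
import Vale.Agent.P353.RotF
import Vale.Agent.P353.Energy

open MeasureTheory Filter Topology
open scoped ContDiff

namespace Vale.Agent.P353

variable {F : Type*} [NormedAddCommGroup F] [InnerProductSpace ℂ F]

lemma opNorm_sq_le (L : X3 →L[ℝ] F) :
    ‖L‖ ^ 2 ≤ ∑ i, ∑ A, ‖L (EuclideanSpace.single (i, A) 1)‖ ^ 2 := by
  have h0 : 0 ≤ ∑ i, ∑ A, ‖L (EuclideanSpace.single (i, A) 1)‖ ^ 2 := by positivity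
  have h1 : ‖L‖ ≤ Real.sqrt (∑ i, ∑ A, ‖L (EuclideanSpace.single (i, A) 1)‖ ^ 2) := by
    refine L.opNorm_le_bound (Real.sqrt_nonneg _) fun x => ?_
    have hx : x = ∑ p : Fin 9 × Fin 3, x p • (EuclideanSpace.single p (1 : ℝ) : X3) := by
      ext q
      simp only [WithLp.ofLp_sum, Finset.sum_apply, WithLp.ofLp_smul, Pi.smul_apply,
        PiLp.single_apply, smul_eq_mul, mul_ite, mul_one, mul_zero]
      simp
    have h2 : L x = ∑ p : Fin 9 × Fin 3, x p • L (EuclideanSpace.single p (1 : ℝ) : X3) := by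
      conv_lhs => rw [hx]
      rw [map_sum]
      simp only [map_smul]
    have h3 : ‖L x‖ ≤ ∑ p : Fin 9 × Fin 3, |x p| * ‖L (EuclideanSpace.single p (1 : ℝ) : X3)‖ := by
      rw [h2]
      refine (norm_sum_le _ _).trans (Finset.sum_le_sum fun p _ => ?_)
      rw [norm_smul, Real.norm_eq_abs]
    have h4 := Finset.sum_mul_sq_le_sq_mul_sq (Finset.univ : Finset (Fin 9 × Fin 3))
      (fun p => |x p|) (fun p => ‖L (EuclideanSpace.single p (1 : ℝ) : X3)‖)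
    have h5 : ∑ p : Fin 9 × Fin 3, |x p| ^ 2 = ‖x‖ ^ 2 := by
      rw [EuclideanSpace.norm_sq_eq]
      simp
    have h6 : ∑ p : Fin 9 × Fin 3, ‖L (EuclideanSpace.single p (1 : ℝ) : X3)‖ ^ 2 =
        ∑ i, ∑ A, ‖L (EuclideanSpace.single (i, A) 1)‖ ^ 2 := by
      rw [Fintype.sum_prod_type]
    rw [h5, h6] at h4
    have h7 : 0 ≤ ∑ p : Fin 9 × Fin 3, |x p| * ‖L (EuclideanSpace.single p (1 : ℝ) : X3)‖ := by
      positivity
    refine h3.trans ?_
    rw [← Real.sqrt_sq h7, ← Real.sqrt_sq (norm_nonneg x), ← Real.sqrt_mul h0]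
    refine Real.sqrt_le_sqrt ?_
    linarith
  calc ‖L‖ ^ 2 ≤ (Real.sqrt (∑ i, ∑ A, ‖L (EuclideanSpace.single (i, A) 1)‖ ^ 2)) ^ 2 := by
        gcongr
    _ = _ := Real.sq_sqrt h0

lemma integral_fderiv_sq_le {v : X3 → F} (hv : Setup.Tst v) :
    ∫ x, ‖fderiv ℝ v x‖ ^ 2 ≤ ∑ i, ∑ A, ∫ x, ‖pd i A v x‖ ^ 2 := by
  have hi : ∀ i A, Integrable (fun x => ‖pd i A v x‖ ^ 2) := fun i A => (hv.pd i A).norm_sq_int
  have h1 : ∑ i, ∑ A, ∫ x, ‖pd i A v x‖ ^ 2 = ∫ x, ∑ i, ∑ A, ‖pd i A v x‖ ^ 2 := by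
    rw [integral_finsetSum _ fun i _ => integrable_finsetSum _ fun A _ => hi i A]
    refine Finset.sum_congr rfl fun i _ => ?_
    rw [integral_finsetSum _ fun A _ => hi i A]
  rw [h1]
  refine integral_mono_of_nonneg (Filter.Eventually.of_forall fun x => by
    simp only [Pi.zero_apply]; positivity)
    (integrable_finsetSum _ fun i _ => integrable_finsetSum _ fun A _ => hi i A)
    (Filter.Eventually.of_forall fun x => ?_)
  exact opNorm_sq_le (fderiv ℝ v x)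

namespace Setup

variable (S : Setup F)

/-- the constant of the commutator of `Q` with a cutoff -/
noncomputable def cg (b : Fin 16) : ℝ := ∑ i, ∑ A, ‖S.vec (S.g i) A b‖

lemma cg_nonneg (b : Fin 16) : 0 ≤ S.cg b := by unfold cg; positivity

lemma norm_Q_cut2 {K R : ℝ} (hR : 0 < R) (hK : 0 ≤ K) {χ : X3 → ℝ} (hχ : IsCut K R χ)
    {u : X3 → F} (hu : Tst u) (b : Fin 16) (x : X3) :
    ‖S.Q b (fun y => ((χ y : ℝ) : ℂ) • u y) x‖ ^ 2 ≤ 2 * ‖S.Q b u x‖ ^ 2 +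
      2 * (K / R * S.cg b) ^ 2 * ‖u x‖ ^ 2 := by
  obtain ⟨hsm, hcs, h0, h1, hin, hout, hgrad, hgrad0⟩ := hχ
  rw [Q_smul S b χ u x (hsm.differentiable (by simp) x) (hu.diff x)]
  have hg : ∀ i A, |pdr i A χ x| ≤ K / R := by
    intro i A
    by_cases hx : R ≤ ‖x‖
    · rw [le_div_iff₀ hR]
      calc |pdr i A χ x| * R ≤ |pdr i A χ x| * ‖x‖ := by gcongr
        _ ≤ K := hgrad i A x
    · push Not at hx
      rw [hgrad0 i A x hx, abs_zero]; positivity
  have e1 : ‖((χ x : ℝ) : ℂ) • S.Q b u x‖ ≤ ‖S.Q b u x‖ := by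
    rw [norm_smul, Complex.norm_real, Real.norm_of_nonneg (h0 x)]
    exact mul_le_of_le_one_left (norm_nonneg _) (h1 x)
  have e2 : ‖Complex.I • ∑ i, ∑ A, ((pdr i A χ x : ℝ) : ℂ) • S.vec (S.g i) A b (u x)‖ ≤
      K / R * S.cg b * ‖u x‖ := by
    rw [norm_smul, Complex.norm_I, one_mul]
    calc ‖∑ i, ∑ A, ((pdr i A χ x : ℝ) : ℂ) • S.vec (S.g i) A b (u x)‖ ≤
        ∑ i, ∑ A, K / R * (‖S.vec (S.g i) A b‖ * ‖u x‖) := by
          refine (norm_sum_le _ _).trans (Finset.sum_le_sum fun i _ => ?_)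
          refine (norm_sum_le _ _).trans (Finset.sum_le_sum fun A _ => ?_)
          rw [norm_smul, Complex.norm_real, Real.norm_eq_abs]
          exact mul_le_mul (hg i A) (ContinuousLinearMap.le_opNorm _ _) (norm_nonneg _)
            (by positivity)
      _ = _ := by
        rw [cg]
        simp only [← Finset.mul_sum, ← Finset.sum_mul]
        ring
  have e3 := norm_sub_le (((χ x : ℝ) : ℂ) • S.Q b u x)
    (Complex.I • ∑ i, ∑ A, ((pdr i A χ x : ℝ) : ℂ) • S.vec (S.g i) A b (u x))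
  have e4 : ‖((χ x : ℝ) : ℂ) • S.Q b u x -
      Complex.I • ∑ i, ∑ A, ((pdr i A χ x : ℝ) : ℂ) • S.vec (S.g i) A b (u x)‖ ≤
      ‖S.Q b u x‖ + K / R * S.cg b * ‖u x‖ := by linarith
  calc ‖((χ x : ℝ) : ℂ) • S.Q b u x -
      Complex.I • ∑ i, ∑ A, ((pdr i A χ x : ℝ) : ℂ) • S.vec (S.g i) A b (u x)‖ ^ 2 ≤
      (‖S.Q b u x‖ + K / R * S.cg b * ‖u x‖) ^ 2 := by gcongr
    _ ≤ _ := by nlinarith [sq_nonneg (‖S.Q b u x‖ - K / R * S.cg b * ‖u x‖)]

variable [FiniteDimensional ℂ F]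

/-- gradient bound for a cut off test function -/
lemma grad_cut_bound {K R : ℝ} (hR : 0 < R) (hK : 0 ≤ K) {χ : X3 → ℝ} (hχ : IsCut K R χ) :
    ∃ C1 : ℝ, 0 ≤ C1 ∧ ∀ u : X3 → F, Tst u →
      ∫ x, ‖fderiv ℝ (fun y => ((χ y : ℝ) : ℂ) • u y) x‖ ^ 2 ≤
        1 / 4 * (∑ b, ∫ x, ‖S.Q b u x‖ ^ 2) + C1 * ∫ x, ‖u x‖ ^ 2 := by
  have : CompleteSpace F := FiniteDimensional.complete ℂ F
  have hcF : Continuous (fun x : X3 => ‖S.Fx x‖) := (contDiff_Fx S).continuous.norm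
  obtain ⟨CF, hCF⟩ := (isCompact_closedBall (0 : X3) (2 * R)).exists_bound_of_continuousOn
    hcF.continuousOn
  refine ⟨1 / 4 * ∑ b, (K / R * S.cg b) ^ 2 + 2 * max CF 0, by positivity, fun u hu => ?_⟩
  set v : X3 → F := fun y => ((χ y : ℝ) : ℂ) • u y with hv
  have hvT : Tst v := hu.rsmul hχ.1
  have hE := energy_formula S v hvT
  have h1 : ∀ b, ∫ x, ‖S.Q b v x‖ ^ 2 ≤ 2 * (∫ x, ‖S.Q b u x‖ ^ 2) +
      2 * (K / R * S.cg b) ^ 2 * ∫ x, ‖u x‖ ^ 2 := by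
    intro b
    have i1 := (hu.Q S b).norm_sq_int.const_mul 2
    have i2 := hu.norm_sq_int.const_mul (2 * (K / R * S.cg b) ^ 2)
    rw [← integral_const_mul, ← integral_const_mul, ← integral_add i1 i2]
    exact integral_mono (hvT.Q S b).norm_sq_int (i1.add i2)
      fun x => S.norm_Q_cut2 hR hK hχ hu b x
  have h2 : 0 ≤ ∫ x, S.V x * ‖v x‖ ^ 2 := integral_nonneg fun x =>
    mul_nonneg (by unfold V; positivity) (by positivity)
  have h3 : -(max CF 0 * ∫ x, ‖u x‖ ^ 2) ≤ ∫ x, (inner ℂ (v x) (S.Fx x (v x))).re := by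
    rw [← integral_const_mul, ← integral_neg]
    have i3 : Integrable (fun x => (inner ℂ (v x) (S.Fx x (v x)) : ℂ).re) :=
      (hvT.inner_int (hvT.clm (contDiff_Fx S)).1.continuous).re
    refine integral_mono (hu.norm_sq_int.const_mul _).neg i3 fun x => ?_
    simp only
    have a1 : |(inner ℂ (v x) (S.Fx x (v x)) : ℂ).re| ≤ ‖v x‖ * (‖S.Fx x‖ * ‖v x‖) := by
      refine (Complex.abs_re_le_norm _).trans ((norm_inner_le_norm _ _).trans ?_)
      exact mul_le_mul_of_nonneg_left (ContinuousLinearMap.le_opNorm _ _) (norm_nonneg _)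
    have a2 : ‖v x‖ * (‖S.Fx x‖ * ‖v x‖) ≤ max CF 0 * ‖u x‖ ^ 2 := by
      by_cases hx : 2 * R ≤ ‖x‖
      · have : v x = 0 := by
          simp only [hv]
          rw [hχ.2.2.2.2.2.1 x hx]; simp
        rw [this, norm_zero, zero_mul]; positivity
      · push Not at hx
        have b1 : ‖S.Fx x‖ ≤ max CF 0 := by
          have := hCF x (by rw [Metric.mem_closedBall, dist_zero_right]; exact hx.le)
          rw [Real.norm_of_nonneg (norm_nonneg _)] at this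
          exact this.trans (le_max_left _ _)
        have b2 : ‖v x‖ ≤ ‖u x‖ := by
          simp only [hv]
          rw [norm_smul, Complex.norm_real, Real.norm_of_nonneg (hχ.2.2.1 x)]
          exact mul_le_of_le_one_left (norm_nonneg _) (hχ.2.2.2.1 x)
        calc ‖v x‖ * (‖S.Fx x‖ * ‖v x‖) = ‖S.Fx x‖ * ‖v x‖ ^ 2 := by ring
          _ ≤ max CF 0 * ‖u x‖ ^ 2 := by gcongr
    have a3 := neg_abs_le (inner ℂ (v x) (S.Fx x (v x)) : ℂ).re
    linarith
  have h4 : ∑ b, ∫ x, ‖S.Q b v x‖ ^ 2 ≤ 2 * (∑ b, ∫ x, ‖S.Q b u x‖ ^ 2) +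
      2 * (∑ b, (K / R * S.cg b) ^ 2) * ∫ x, ‖u x‖ ^ 2 := by
    refine (Finset.sum_le_sum fun b _ => h1 b).trans (le_of_eq ?_)
    rw [Finset.sum_add_distrib, ← Finset.mul_sum, ← Finset.sum_mul, ← Finset.mul_sum]
  have h5 := integral_fderiv_sq_le hvT
  linarith

/-- **finite dimensionality of the space of zero modes** from the weighted inequality -/
theorem finiteDimensional_zm (hW : WIneq S 0) : FiniteDimensional ℂ S.zm := by
  obtain ⟨C0, R, hR, htail⟩ := Dec.tail_bound S hW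
  obtain ⟨K, hK, hcut⟩ := exists_cut
  obtain ⟨χ, hχ⟩ := hcut R hR
  obtain ⟨C1, hC1, hgrad⟩ := S.grad_cut_bound hR hK hχ
  have hχ0 := hχ.2.2.1
  have hχ1 := hχ.2.2.2.1
  have hC : 0 ≤ max C0 (2 * C1) := (by positivity : 0 ≤ 2 * C1).trans (le_max_right _ _)
  refine finiteDimensional_of_tail S.zm (max C0 (2 * C1)) (2 * R) χ hχ.1.continuous hχ0 hχ1
    hχ.2.2.2.2.2.1 (fun Ψ hΨ => ?_) (fun Ψ hΨ => ?_)
  · have hΨ2 : Integrable (fun x => ‖Ψ x‖ ^ 2) := memLp_norm_sq_int (Lp.memLp Ψ)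
    have h1 := htail Ψ hΨ
    have h2 : C0 * (∫ x in Metric.ball (0 : X3) R, ‖Ψ x‖ ^ 2) ≤
        max C0 (2 * C1) * (∫ x in Metric.ball (0 : X3) R, ‖Ψ x‖ ^ 2) :=
      mul_le_mul_of_nonneg_right (le_max_left _ _) (integral_nonneg fun x => by positivity)
    have h3 : ∫ x in Metric.ball (0 : X3) R, ‖Ψ x‖ ^ 2 ≤ ∫ x, ‖((χ x : ℝ) : ℂ) • Ψ x‖ ^ 2 := by
      rw [← integral_indicator Metric.isOpen_ball.measurableSet]
      have i1 : Integrable (fun x => ‖((χ x : ℝ) : ℂ) • Ψ x‖ ^ 2) := by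
        have e : (fun x => ‖((χ x : ℝ) : ℂ) • Ψ x‖ ^ 2) = fun x => χ x ^ 2 * ‖Ψ x‖ ^ 2 := by
          funext x
          rw [norm_smul, Complex.norm_real, Real.norm_of_nonneg (hχ0 x), mul_pow]
        rw [e]
        refine Dec.integrable_bdd (C := 1) (hχ.1.continuous.pow 2).measurable (fun x => ?_) hΨ2
        change |χ x ^ 2| ≤ 1
        rw [abs_of_nonneg (pow_nonneg (hχ0 x) 2)]
        exact pow_le_one₀ (hχ0 x) (hχ1 x)
      refine integral_mono (hΨ2.indicator Metric.isOpen_ball.measurableSet) i1 fun x => ?_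
      simp only
      by_cases hx : x ∈ Metric.ball (0 : X3) R
      · rw [Set.indicator_of_mem hx, hχ.2.2.2.2.1 x (by
          rw [Metric.mem_ball, dist_zero_right] at hx; exact hx.le)]
        simp
      · rw [Set.indicator_of_notMem hx]; positivity
    exact h1.trans (h2.trans (mul_le_mul_of_nonneg_left h3 hC))
  · obtain ⟨u, hu1, hu2, hu3, hu4⟩ := hΨ
    have hΨ2 : Integrable (fun x => ‖Ψ x‖ ^ 2) := memLp_norm_sq_int (Lp.memLp Ψ)
    have hd : ∀ n, Integrable (fun x => ‖u n x - Ψ x‖ ^ 2) := fun n =>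
      memLp_norm_sq_int ((hu1 n).memLp.sub (Lp.memLp Ψ))
    refine ⟨fun n y => ((χ y : ℝ) : ℂ) • u n y, fun n => ((hu1 n).rsmul hχ.1).1.of_le (by simp),
      fun n => ((hu1 n).rsmul hχ.1).2, ?_, fun ε hε => ?_⟩
    · refine squeeze_zero (fun n => integral_nonneg fun x => by positivity) (fun n => ?_) hu3
      refine integral_mono_of_nonneg (Filter.Eventually.of_forall fun x => by
        simp only [Pi.zero_apply]; positivity) (hd n) (Filter.Eventually.of_forall fun x => ?_)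
      simp only
      rw [← smul_sub, norm_smul, Complex.norm_real, Real.norm_of_nonneg (hχ0 x)]
      have := mul_le_of_le_one_left (norm_nonneg (u n x - Ψ x)) (hχ1 x)
      have h0 : 0 ≤ χ x * ‖u n x - Ψ x‖ := mul_nonneg (hχ0 x) (norm_nonneg _)
      gcongr
    · have hlim : Tendsto (fun n => 1 / 4 * (∑ b, ∫ x, ‖S.Q b (u n) x‖ ^ 2) +
          2 * C1 * ∫ x, ‖u n x - Ψ x‖ ^ 2) atTop (𝓝 0) := by
        have h1 : Tendsto (fun n => ∑ b, ∫ x, ‖S.Q b (u n) x‖ ^ 2) atTop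
            (𝓝 (∑ _b : Fin 16, (0 : ℝ))) := tendsto_finsetSum _ fun b _ => hu4 b
        have h2 := (h1.const_mul (1 / 4)).add (hu3.const_mul (2 * C1))
        simpa using h2
      filter_upwards [hlim.eventually (gt_mem_nhds hε)] with n hn
      have h1 := hgrad (u n) (hu1 n)
      have h2 : ∫ x, ‖u n x‖ ^ 2 ≤ 2 * (∫ x, ‖Ψ x‖ ^ 2) + 2 * ∫ x, ‖u n x - Ψ x‖ ^ 2 := by
        rw [← integral_const_mul, ← integral_const_mul, ← integral_add (hΨ2.const_mul 2)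
          ((hd n).const_mul 2)]
        exact integral_mono (hu1 n).norm_sq_int ((hΨ2.const_mul 2).add ((hd n).const_mul 2))
          fun x => norm_sq_le_two (u n x) (Ψ x)
      have h3 : 2 * C1 * (∫ x, ‖Ψ x‖ ^ 2) ≤ max C0 (2 * C1) * (∫ x, ‖Ψ x‖ ^ 2) :=
        mul_le_mul_of_nonneg_right (le_max_right _ _) (integral_nonneg fun x => by positivity)
      have h4 := mul_le_mul_of_nonneg_left h2 hC1
      linarith

end Setup

end Vale.Agent.P353
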