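import Vale.Agent.P353.WDef
import Mathlib

open MeasureTheory Filter Topology
open scoped ContDiff

namespace Vale.Agent.P353
namespace Dec

/-! ### the cutoff function on the half line -/

lemma smoothTransition_deriv_bound : ∃ D : ℝ, 0 ≤ D ∧ (∀ t, |deriv Real.smoothTransition t| ≤ D) := by
  have hc : Continuous (deriv Real.smoothTransition) :=
    (Real.smoothTransition.contDiff (n := 1)).continuous_deriv (by simp)
  obtain ⟨D, hD⟩ := (isCompact_Icc (a := (0 : ℝ)) (b := 1)).exists_bound_of_continuousOn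
    hc.continuousOn
  refine ⟨max D 0, le_max_right _ _, fun t => ?_⟩
  by_cases ht : t ∈ Set.Icc (0 : ℝ) 1
  · exact (hD t ht).trans (le_max_left _ _)
  · have : deriv Real.smoothTransition t = 0 := by
      rw [Set.mem_Icc, not_and_or, not_le, not_le] at ht
      rcases ht with ht | ht
      · have h1 : Real.smoothTransition =ᶠ[𝓝 t] fun _ => 0 := by
          filter_upwards [Iio_mem_nhds ht] with y hy
          exact Real.smoothTransition.zero_of_nonpos (le_of_lt hy)
        rw [h1.deriv_eq]; simp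
      · have h1 : Real.smoothTransition =ᶠ[𝓝 t] fun _ => 1 := by
          filter_upwards [Ioi_mem_nhds ht] with y hy
          exact Real.smoothTransition.one_of_one_le (le_of_lt hy)
        rw [h1.deriv_eq]; simp
    rw [this, abs_zero]
    exact le_max_right _ _

lemma smoothTransition_deriv_zero {t : ℝ} (ht : t < 0 ∨ 1 < t) :
    deriv Real.smoothTransition t = 0 := by
  rcases ht with ht | ht
  · have h1 : Real.smoothTransition =ᶠ[𝓝 t] fun _ => 0 := by
      filter_upwards [Iio_mem_nhds ht] with y hy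
      exact Real.smoothTransition.zero_of_nonpos (le_of_lt hy)
    rw [h1.deriv_eq]; simp
  · have h1 : Real.smoothTransition =ᶠ[𝓝 t] fun _ => 1 := by
      filter_upwards [Ioi_mem_nhds ht] with y hy
      exact Real.smoothTransition.one_of_one_le (le_of_lt hy)
    rw [h1.deriv_eq]; simp

/-- the cutoff -/
noncomputable def cc (T K t : ℝ) : ℝ :=
  Real.smoothTransition (t / T - 1) * Real.smoothTransition (2 - t / K)

lemma contDiff_cc (T K : ℝ) : ContDiff ℝ ∞ (cc T K) := by
  unfold cc
  refine ContDiff.mul ?_ ?_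
  · exact Real.smoothTransition.contDiff.comp ((contDiff_id.div_const T).sub contDiff_const)
  · exact Real.smoothTransition.contDiff.comp (contDiff_const.sub (contDiff_id.div_const K))

lemma cc_nonneg (T K t : ℝ) : 0 ≤ cc T K t :=
  mul_nonneg (Real.smoothTransition.nonneg _) (Real.smoothTransition.nonneg _)

lemma cc_le_one (T K t : ℝ) : cc T K t ≤ 1 :=
  mul_le_one₀ (Real.smoothTransition.le_one _) (Real.smoothTransition.nonneg _)
    (Real.smoothTransition.le_one _)

lemma cc_zero_left {T K t : ℝ} (hT : 0 < T) (ht : t ≤ T) : cc T K t = 0 := by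
  rw [cc, Real.smoothTransition.zero_of_nonpos, zero_mul]
  rw [sub_nonpos, div_le_one hT]; exact ht

lemma cc_zero_right {T K t : ℝ} (hK : 0 < K) (ht : 2 * K ≤ t) : cc T K t = 0 := by
  rw [cc, Real.smoothTransition.zero_of_nonpos (x := 2 - t / K), mul_zero]
  rw [sub_nonpos, le_div_iff₀ hK]; exact ht

lemma cc_one {T K t : ℝ} (hT : 0 < T) (hK : 0 < K) (h1 : 2 * T ≤ t) (h2 : t ≤ K) :
    cc T K t = 1 := by
  rw [cc, Real.smoothTransition.one_of_one_le, Real.smoothTransition.one_of_one_le, mul_one]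
  · have : t / K ≤ 1 := (div_le_one hK).mpr h2
    linarith
  · have : 2 ≤ t / T := (le_div_iff₀ hT).mpr h1
    linarith

lemma deriv_cc (T K t : ℝ) : deriv (cc T K) t =
    deriv Real.smoothTransition (t / T - 1) / T * Real.smoothTransition (2 - t / K) -
      Real.smoothTransition (t / T - 1) * (deriv Real.smoothTransition (2 - t / K) / K) := by
  have hs : ∀ y, HasDerivAt Real.smoothTransition (deriv Real.smoothTransition y) y := fun y =>
    ((Real.smoothTransition.contDiff (n := 1)).differentiable (by simp) y).hasDerivAt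
  have h1 : HasDerivAt (fun t => Real.smoothTransition (t / T - 1))
      (deriv Real.smoothTransition (t / T - 1) * (1 / T)) t := by
    have := (hs (t / T - 1)).comp t (((hasDerivAt_id t).div_const T).sub_const 1)
    exact this
  have h2 : HasDerivAt (fun t => Real.smoothTransition (2 - t / K))
      (deriv Real.smoothTransition (2 - t / K) * (-(1 / K))) t := by
    have := (hs (2 - t / K)).comp t (((hasDerivAt_id t).div_const K).const_sub 2)
    exact this
  have h3 := (h1.mul h2).deriv
  have e : cc T K = (fun t => Real.smoothTransition (t / T - 1)) *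
      fun t => Real.smoothTransition (2 - t / K) := by
    ext t; rfl
  rw [e, h3]
  ring

lemma deriv_cc_bound : ∃ D : ℝ, 0 ≤ D ∧ ∀ T K t : ℝ, 0 < T → 0 < K → 0 < t →
    |deriv (cc T K) t| * t ≤ D := by
  obtain ⟨D, hD0, hD⟩ := smoothTransition_deriv_bound
  refine ⟨4 * D, by positivity, fun T K t hT hK ht => ?_⟩
  have hA : |deriv Real.smoothTransition (t / T - 1) / T| * t ≤ 2 * D := by
    by_cases h : 1 < t / T - 1
    · rw [smoothTransition_deriv_zero (Or.inr h)]; simp; positivity
    · push Not at h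
      have h2 : t ≤ 2 * T := by
        have : t / T ≤ 2 := by linarith
        exact (div_le_iff₀ hT).mp this
      rw [abs_div, abs_of_pos hT, div_mul_eq_mul_div, div_le_iff₀ hT]
      have := hD (t / T - 1)
      have h3 : |deriv Real.smoothTransition (t / T - 1)| * t ≤ D * (2 * T) := by gcongr
      linarith
  have hB : |deriv Real.smoothTransition (2 - t / K) / K| * t ≤ 2 * D := by
    by_cases h : 2 - t / K < 0
    · rw [smoothTransition_deriv_zero (Or.inl h)]; simp; positivity
    · push Not at h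
      have h2 : t ≤ 2 * K := by
        have : t / K ≤ 2 := by linarith
        exact (div_le_iff₀ hK).mp this
      rw [abs_div, abs_of_pos hK, div_mul_eq_mul_div, div_le_iff₀ hK]
      have := hD (2 - t / K)
      have h3 : |deriv Real.smoothTransition (2 - t / K)| * t ≤ D * (2 * K) := by gcongr
      linarith
  rw [deriv_cc]
  have h1 := Real.smoothTransition.nonneg (t / T - 1)
  have h2 := Real.smoothTransition.le_one (t / T - 1)
  have h3 := Real.smoothTransition.nonneg (2 - t / K)
  have h4 := Real.smoothTransition.le_one (2 - t / K)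
  calc |deriv Real.smoothTransition (t / T - 1) / T * Real.smoothTransition (2 - t / K) -
      Real.smoothTransition (t / T - 1) * (deriv Real.smoothTransition (2 - t / K) / K)| * t
      ≤ (|deriv Real.smoothTransition (t / T - 1) / T| * 1 +
        1 * |deriv Real.smoothTransition (2 - t / K) / K|) * t := by
        refine mul_le_mul_of_nonneg_right ((abs_sub _ _).trans ?_) ht.le
        rw [abs_mul, abs_mul, abs_of_nonneg h1, abs_of_nonneg h3]
        gcongr
    _ = |deriv Real.smoothTransition (t / T - 1) / T| * t +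
        |deriv Real.smoothTransition (2 - t / K) / K| * t := by ring
    _ ≤ 4 * D := by linarith

lemma deriv_cc_zero {T K t : ℝ} (hT : 0 < T) (hK : 0 < K)
    (h : (t < T ∨ 2 * T < t) ∧ (t < K ∨ 2 * K < t)) : deriv (cc T K) t = 0 := by
  rw [deriv_cc]
  have h1 : deriv Real.smoothTransition (t / T - 1) = 0 := by
    apply smoothTransition_deriv_zero
    rcases h.1 with h | h
    · left
      rw [sub_neg, div_lt_one hT]; exact h
    · right
      rw [lt_sub_iff_add_lt, lt_div_iff₀ hT]; linarith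
  have h2 : deriv Real.smoothTransition (2 - t / K) = 0 := by
    apply smoothTransition_deriv_zero
    rcases h.2 with h | h
    · right
      have : t / K < 1 := (div_lt_one hK).mpr h
      linarith
    · left
      have : 2 < t / K := by rw [lt_div_iff₀ hK]; exact h
      linarith
  rw [h1, h2]; simp

/-! ### the weights -/

/-- `φ(t) = t^((s-1)/4) (1+t/L²)^(-s/4)` -/
noncomputable def ph (s L t : ℝ) : ℝ := t ^ ((s - 1) / 4) * (1 + t / L ^ 2) ^ (-s / 4)

/-- `w(t) = t^(s/2) (1+t/L²)^(-s/2)` -/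
noncomputable def ww (s L t : ℝ) : ℝ := t ^ (s / 2) * (1 + t / L ^ 2) ^ (-s / 2)

lemma ww_eq {s L t : ℝ} (ht : 0 < t) : Real.sqrt t * ph s L t ^ 2 = ww s L t := by
  have hu : 0 < 1 + t / L ^ 2 := by positivity
  rw [ph, ww, mul_pow, ← Real.rpow_natCast, ← Real.rpow_natCast, ← Real.rpow_mul ht.le,
    ← Real.rpow_mul hu.le, Real.sqrt_eq_rpow, ← mul_assoc, ← Real.rpow_add ht]
  congr 2
  · push_cast; ring
  · push_cast; ring

lemma ph_pos {s L t : ℝ} (ht : 0 < t) : 0 < ph s L t := by
  unfold ph; positivity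

lemma ww_pos {s L t : ℝ} (ht : 0 < t) : 0 < ww s L t := by
  unfold ww; positivity

lemma hasDerivAt_ph {s L t : ℝ} (ht : 0 < t) : HasDerivAt (ph s L)
    (ph s L t * ((s - 1) / (4 * t) - s / (4 * (L ^ 2 * (1 + t / L ^ 2))))) t := by
  have hu : 0 < 1 + t / L ^ 2 := by positivity
  have h1 := Real.hasDerivAt_rpow_const (x := t) (p := (s - 1) / 4) (Or.inl ht.ne')
  have h2 : HasDerivAt (fun t : ℝ => 1 + t / L ^ 2) (1 / L ^ 2) t :=
    ((hasDerivAt_id t).div_const _).const_add 1
  have h3 := h2.rpow_const (p := -s / 4) (Or.inl hu.ne')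
  have h4 := h1.mul h3
  refine h4.congr_deriv ?_
  rw [Real.rpow_sub_one ht.ne', Real.rpow_sub_one hu.ne', ph]
  by_cases hL : L = 0
  · subst hL; simp; ring
  · field_simp
    ring

lemma lam_bound {s L t : ℝ} (hs : 0 ≤ s) (hL : 0 < L) (ht : 0 < t) :
    ((s - 1) / (4 * t) - s / (4 * (L ^ 2 * (1 + t / L ^ 2)))) ^ 2 ≤ ((2 * s + 1) / (4 * t)) ^ 2 := by
  have e : L ^ 2 * (1 + t / L ^ 2) = L ^ 2 + t := by field_simp
  rw [e]
  have h1 : 0 ≤ s / (4 * (L ^ 2 + t)) := by positivity
  have h2 : s / (4 * (L ^ 2 + t)) ≤ s / (4 * t) := by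
    apply div_le_div_of_nonneg_left hs (by positivity)
    have : 0 < L ^ 2 := by positivity
    linarith
  have h3 : (s - 1) / (4 * t) ≤ (2 * s + 1) / (4 * t) := by
    apply div_le_div_of_nonneg_right _ (by positivity)
    linarith
  have h4 : -((2 * s + 1) / (4 * t)) ≤ (s - 1) / (4 * t) - s / (4 * t) := by
    rw [← neg_div, ← sub_div]
    apply div_le_div_of_nonneg_right _ (by positivity)
    linarith
  apply sq_le_sq'
  · linarith
  · linarith

/-- the test function -/
noncomputable def HH (s L T K t : ℝ) : ℝ := cc T K t * ph s L t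

noncomputable def sg (s L t : ℝ) : ℝ := s / (1 + |t| / L ^ 2)

lemma continuous_sg (s L : ℝ) : Continuous (sg s L) := by
  unfold sg
  refine continuous_const.div ((continuous_const).add (continuous_abs.div_const _)) fun t => ?_
  positivity

lemma sg_mem {s : ℝ} (hs : 0 ≤ s) (L t : ℝ) : 0 ≤ sg s L t ∧ sg s L t ≤ s := by
  unfold sg
  constructor
  · positivity
  · apply div_le_self hs
    have : 0 ≤ |t| / L ^ 2 := by positivity
    linarith

lemma hasDerivAt_HH {s L T K t : ℝ} (ht : 0 < t) : HasDerivAt (HH s L T K)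
    (deriv (cc T K) t * ph s L t + cc T K t * (ph s L t *
      ((s - 1) / (4 * t) - s / (4 * (L ^ 2 * (1 + t / L ^ 2)))))) t := by
  have h1 : HasDerivAt (cc T K) (deriv (cc T K) t) t :=
    ((contDiff_cc T K).differentiable (by simp) t).hasDerivAt
  exact h1.mul (hasDerivAt_ph ht)

lemma pointwise_identity {s L T K t : ℝ} (hL : 0 < L) (ht : 0 < t) :
    2 * deriv (fun t => Real.sqrt t * HH s L T K t ^ 2) t * t -
      Real.sqrt t * HH s L T K t ^ 2 * sg s L t =
      4 * cc T K t * deriv (cc T K) t * ww s L t * t := by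
  have hsq := Real.sqrt_pos.mpr ht
  have hs2 : Real.sqrt t ^ 2 = t := Real.sq_sqrt ht.le
  have h1 := (Real.hasDerivAt_sqrt ht.ne').mul ((hasDerivAt_HH (s := s) (L := L) (T := T) (K := K)
    ht).pow 2)
  have h2 : deriv (fun t => Real.sqrt t * HH s L T K t ^ 2) t = _ := h1.deriv
  rw [h2, ← ww_eq ht, sg, abs_of_pos ht]
  have hu : 0 < 1 + t / L ^ 2 := by positivity
  simp only [HH, Pi.pow_apply]
  have e1 : 1 / (2 * Real.sqrt t) = Real.sqrt t / (2 * t) := by
    rw [div_eq_div_iff (by positivity) (by positivity)]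
    nlinarith
  have e2 : s / (4 * (L ^ 2 * (1 + t / L ^ 2))) * (4 * t) = s * (t / L ^ 2) / (1 + t / L ^ 2) := by
    field_simp
  rw [e1]
  set c := cc T K t
  set c' := deriv (cc T K) t
  set p := ph s L t
  set r := Real.sqrt t
  set q := s / (4 * (L ^ 2 * (1 + t / L ^ 2))) with hq
  have e3 : s / (1 + t / L ^ 2) = s - q * (4 * t) := by
    rw [e2]
    field_simp
    ring
  rw [e3]
  field_simp
  ring

lemma pointwise_bound_HH {s L T K t : ℝ} (hs : 0 ≤ s) (hL : 0 < L) (ht : 0 < t) :
    deriv (HH s L T K) t ^ 2 * t + |2 * deriv (fun t => Real.sqrt t * HH s L T K t ^ 2) t * t -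
      Real.sqrt t * HH s L T K t ^ 2 * sg s L t| ≤
      ww s L t * (2 * deriv (cc T K) t ^ 2 * Real.sqrt t +
        (2 * s + 1) ^ 2 / 8 * cc T K t ^ 2 * (Real.sqrt t / t ^ 2) +
        4 * cc T K t * (|deriv (cc T K) t| * t)) := by
  rw [pointwise_identity hL ht, (hasDerivAt_HH ht).deriv]
  have hw := ww_pos (s := s) (L := L) ht
  have hp := ph_pos (s := s) (L := L) ht
  have hc := cc_nonneg T K t
  have hlam := lam_bound hs hL ht
  have e0 : ph s L t ^ 2 * t = ww s L t * Real.sqrt t := by
    rw [← ww_eq ht]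
    have := Real.mul_self_sqrt ht.le
    linear_combination -(ph s L t ^ 2) * this
  set lam := (s - 1) / (4 * t) - s / (4 * (L ^ 2 * (1 + t / L ^ 2)))
  have e1 : (deriv (cc T K) t * ph s L t + cc T K t * (ph s L t * lam)) ^ 2 * t ≤
      2 * deriv (cc T K) t ^ 2 * (ph s L t ^ 2 * t) + 2 * cc T K t ^ 2 * (ph s L t ^ 2 * t) * lam ^ 2 := by
    have h1 : (deriv (cc T K) t * ph s L t + cc T K t * (ph s L t * lam)) ^ 2 ≤
        2 * (deriv (cc T K) t * ph s L t) ^ 2 + 2 * (cc T K t * (ph s L t * lam)) ^ 2 := by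
      nlinarith [sq_nonneg (deriv (cc T K) t * ph s L t - cc T K t * (ph s L t * lam))]
    calc _ ≤ (2 * (deriv (cc T K) t * ph s L t) ^ 2 + 2 * (cc T K t * (ph s L t * lam)) ^ 2) * t :=
          mul_le_mul_of_nonneg_right h1 ht.le
      _ = _ := by ring
  rw [e0] at e1
  have e2 : 2 * cc T K t ^ 2 * (ww s L t * Real.sqrt t) * lam ^ 2 ≤
      2 * cc T K t ^ 2 * (ww s L t * Real.sqrt t) * ((2 * s + 1) / (4 * t)) ^ 2 := by
    have : 0 ≤ 2 * cc T K t ^ 2 * (ww s L t * Real.sqrt t) := by positivity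
    exact mul_le_mul_of_nonneg_left hlam this
  have e3 : |4 * cc T K t * deriv (cc T K) t * ww s L t * t| =
      4 * cc T K t * (|deriv (cc T K) t| * t) * ww s L t := by
    rw [abs_mul, abs_mul, abs_mul, abs_mul, abs_of_pos hw, abs_of_pos ht, abs_of_nonneg hc]
    norm_num
    ring
  rw [e3]
  have e4 : 2 * cc T K t ^ 2 * (ww s L t * Real.sqrt t) * ((2 * s + 1) / (4 * t)) ^ 2 =
      ww s L t * ((2 * s + 1) ^ 2 / 8 * cc T K t ^ 2 * (Real.sqrt t / t ^ 2)) := by
    field_simp
    ring
  rw [e4] at e2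
  calc _ ≤ (2 * deriv (cc T K) t ^ 2 * (ww s L t * Real.sqrt t) +
        ww s L t * ((2 * s + 1) ^ 2 / 8 * cc T K t ^ 2 * (Real.sqrt t / t ^ 2))) +
        4 * cc T K t * (|deriv (cc T K) t| * t) * ww s L t := by linarith
    _ = _ := by ring

lemma contDiff_HH {s L T K : ℝ} (hT : 0 < T) (hL : 0 < L) : ContDiff ℝ ∞ (HH s L T K) := by
  rw [contDiff_iff_contDiffAt]
  intro t
  by_cases ht : t < T
  · have h1 : HH s L T K =ᶠ[𝓝 t] fun _ => 0 := by
      filter_upwards [Iio_mem_nhds ht] with y hy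
      rw [HH, cc_zero_left hT (le_of_lt hy), zero_mul]
    exact contDiffAt_const.congr_of_eventuallyEq h1
  · push Not at ht
    have ht0 : 0 < t := lt_of_lt_of_le hT ht
    have hu : 1 + t / L ^ 2 ≠ 0 := by positivity
    unfold HH ph
    refine (contDiff_cc T K).contDiffAt.mul (ContDiffAt.mul ?_ ?_)
    · exact Real.contDiffAt_rpow_const_of_ne ht0.ne'
    · exact (contDiffAt_const.add (contDiffAt_id.div_const _)).rpow_const_of_ne hu

lemma hasCompactSupport_HH {s L T K : ℝ} (hT : 0 < T) (hK : 0 < K) :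
    HasCompactSupport (HH s L T K) := by
  refine HasCompactSupport.intro (isCompact_Icc (a := T) (b := 2 * K)) fun t ht => ?_
  rw [Set.mem_Icc, not_and_or, not_le, not_le] at ht
  rcases ht with ht | ht
  · rw [HH, cc_zero_left hT ht.le, zero_mul]
  · rw [HH, cc_zero_right hK ht.le, zero_mul]

lemma ww_le_pow {s L t : ℝ} (hs : 0 ≤ s) (ht : 0 < t) : ww s L t ≤ t ^ (s / 2) := by
  have hu : 1 ≤ 1 + t / L ^ 2 := by
    have : 0 ≤ t / L ^ 2 := by positivity
    linarith
  rw [ww]
  have h1 : (1 + t / L ^ 2) ^ (-s / 2) ≤ 1 := Real.rpow_le_one_of_one_le_of_nonpos hu (by linarith)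
  exact mul_le_of_le_one_right (by positivity) h1

lemma ww_le_L {s L t : ℝ} (hs : 0 ≤ s) (hL : 0 < L) (ht : 0 < t) : ww s L t ≤ L ^ s := by
  have hu : 0 < 1 + t / L ^ 2 := by positivity
  have h1 : ww s L t = (t / (1 + t / L ^ 2)) ^ (s / 2) := by
    rw [ww, Real.div_rpow ht.le hu.le, neg_div, Real.rpow_neg hu.le]
    rfl
  rw [h1]
  have h2 : t / (1 + t / L ^ 2) ≤ L ^ 2 := by
    rw [div_le_iff₀ hu]
    have : L ^ 2 * (1 + t / L ^ 2) = L ^ 2 + t := by field_simp
    rw [this]
    have : 0 < L ^ 2 := by positivity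
    linarith
  calc (t / (1 + t / L ^ 2)) ^ (s / 2) ≤ (L ^ 2) ^ (s / 2) :=
        Real.rpow_le_rpow (by positivity) h2 (by positivity)
    _ = L ^ s := by
        rw [← Real.rpow_natCast, ← Real.rpow_mul hL.le]
        congr 1
        push_cast
        ring

end Dec
end Vale.Agent.P353
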