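import Vale.Agent.P353.Decay
import Vale.Agent.P353.Tools

open MeasureTheory Filter Topology
open scoped ContDiff

namespace Vale.Agent.P353
namespace Dec

variable {F : Type*} [NormedAddCommGroup F] [InnerProductSpace ℂ F]

omit [InnerProductSpace ℂ F] in
lemma integrable_bdd {f : X3 → ℝ} (hf : Measurable f) {C : ℝ} (hb : ∀ x, |f x| ≤ C)
    {Ψ : X3 → F} (hΨ : Integrable (fun x => ‖Ψ x‖ ^ 2)) :
    Integrable (fun x => f x * ‖Ψ x‖ ^ 2) := by
  refine (hΨ.const_mul C).mono' (hf.aestronglyMeasurable.mul hΨ.aestronglyMeasurable)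
    (Filter.Eventually.of_forall fun x => ?_)
  rw [norm_mul, Real.norm_eq_abs, Real.norm_of_nonneg (by positivity : 0 ≤ ‖Ψ x‖ ^ 2)]
  exact mul_le_mul_of_nonneg_right (hb x) (by positivity)

/-- indicator of `t ≤ a` -/
noncomputable def lo (a t : ℝ) : ℝ := if t ≤ a then 1 else 0
/-- indicator of `a ≤ t` -/
noncomputable def hi (a t : ℝ) : ℝ := if a ≤ t then 1 else 0

lemma measurable_lo (a : ℝ) : Measurable (lo a) :=
  Measurable.ite measurableSet_Iic measurable_const measurable_const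

lemma measurable_hi (a : ℝ) : Measurable (hi a) :=
  Measurable.ite measurableSet_Ici measurable_const measurable_const

lemma measurable_nsq : Measurable (fun x : X3 => ‖x‖ ^ 2) := measurable_norm.pow_const 2

lemma measurable_ww (s L : ℝ) : Measurable (ww s L) := by
  unfold ww
  exact (measurable_id.pow_const _).mul
    ((measurable_const.add (measurable_id.div_const _)).pow_const _)

lemma lo_nonneg (a t : ℝ) : 0 ≤ lo a t := by unfold lo; split_ifs <;> norm_num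
lemma hi_nonneg (a t : ℝ) : 0 ≤ hi a t := by unfold hi; split_ifs <;> norm_num
lemma lo_abs (a t : ℝ) : |lo a t| ≤ 1 := by unfold lo; split_ifs <;> norm_num
lemma hi_abs (a t : ℝ) : |hi a t| ≤ 1 := by unfold hi; split_ifs <;> norm_num

/-- pointwise estimate for the right side of the weighted inequality -/
lemma rhs_bound {s L T K t C D : ℝ} (hs : 0 ≤ s) (hL : 0 < L) (hT : 1 ≤ T) (hK : 2 * T ≤ K)
    (hC : 0 < C) (hD0 : 0 ≤ D) (hD : ∀ T K t : ℝ, 0 < T → 0 < K → 0 < t →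
      |deriv (cc T K) t| * t ≤ D) (hTC : 2 * C * ((2 * s + 1) ^ 2 / 8) ≤ T) (ht : 0 < t) :
    C * (deriv (HH s L T K) t ^ 2 * t + |2 * deriv (fun t => Real.sqrt t * HH s L T K t ^ 2) t * t -
      Real.sqrt t * HH s L T K t ^ 2 * sg s L t|) ≤
      1 / 2 * (cc T K t ^ 2 * ww s L t) + C * (2 * D ^ 2 + 4 * D) *
        ((2 * T) ^ (s / 2) * lo (2 * T) t + L ^ s * hi K t) := by
  have hT0 : 0 < T := by linarith
  have hK0 : 0 < K := by linarith
  have hw := ww_pos (s := s) (L := L) ht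
  have hc0 := cc_nonneg T K t
  have hc1 := cc_le_one T K t
  have hb := pointwise_bound_HH (T := T) (K := K) hs hL ht
  have hd := hD T K t hT0 hK0 ht
  have hlo := lo_nonneg (2 * T) t
  have hhi := hi_nonneg K t
  have hTp : 0 < (2 * T) ^ (s / 2) := by positivity
  have hLp : 0 < L ^ s := by positivity
  refine (mul_le_mul_of_nonneg_left hb hC.le).trans ?_
  by_cases htT : t < T
  · rw [deriv_cc_zero hT0 hK0 ⟨Or.inl htT, Or.inl (by linarith)⟩, cc_zero_left hT0 htT.le]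
    simp only [abs_zero]
    have : 0 ≤ C * (2 * D ^ 2 + 4 * D) *
        ((2 * T) ^ (s / 2) * lo (2 * T) t + L ^ s * hi K t) := by positivity
    refine le_trans (le_of_eq ?_) (this.trans (le_of_eq ?_))
    · ring
    · ring
  · push Not at htT
    have ht1 : 1 ≤ t := hT.trans htT
    have hr : Real.sqrt t ≤ t :=
      (Real.sqrt_le_left ht.le).mpr (le_self_pow₀ ht1 two_ne_zero)
    have hr0 := Real.sqrt_nonneg t
    have hrt : Real.sqrt t / t ^ 2 ≤ 1 / T := by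
      rw [div_le_div_iff₀ (by positivity) hT0]
      exact (mul_le_mul hr htT hT0.le ht.le).trans (le_of_eq (by ring))
    have hrt1 : Real.sqrt t / t ^ 2 ≤ 1 := hrt.trans (by rw [div_le_one hT0]; exact hT)
    have hrt0 : 0 ≤ Real.sqrt t / t ^ 2 := by positivity
    -- first piece
    have p1 : C * (ww s L t * ((2 * s + 1) ^ 2 / 8 * cc T K t ^ 2 * (Real.sqrt t / t ^ 2))) ≤
        1 / 2 * (cc T K t ^ 2 * ww s L t) := by
      have h1 : C * ((2 * s + 1) ^ 2 / 8) * (Real.sqrt t / t ^ 2) ≤ 1 / 2 := by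
        calc C * ((2 * s + 1) ^ 2 / 8) * (Real.sqrt t / t ^ 2) ≤
            C * ((2 * s + 1) ^ 2 / 8) * (1 / T) := by gcongr
          _ ≤ 1 / 2 := by
            rw [mul_one_div, div_le_iff₀ hT0]; linarith
      have h2 : 0 ≤ cc T K t ^ 2 * ww s L t := by positivity
      calc _ = C * ((2 * s + 1) ^ 2 / 8) * (Real.sqrt t / t ^ 2) * (cc T K t ^ 2 * ww s L t) := by
            ring
        _ ≤ _ := mul_le_mul_of_nonneg_right h1 h2
    -- second piece
    have p2 : C * (ww s L t * (2 * deriv (cc T K) t ^ 2 * Real.sqrt t +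
        4 * cc T K t * (|deriv (cc T K) t| * t))) ≤ C * (2 * D ^ 2 + 4 * D) *
        ((2 * T) ^ (s / 2) * lo (2 * T) t + L ^ s * hi K t) := by
      by_cases hz : deriv (cc T K) t = 0
      · rw [hz]
        simp only [abs_zero]
        have : 0 ≤ C * (2 * D ^ 2 + 4 * D) *
          ((2 * T) ^ (s / 2) * lo (2 * T) t + L ^ s * hi K t) := by positivity
        refine le_trans (le_of_eq ?_) this
        ring
      · have hreg : t ≤ 2 * T ∨ K ≤ t := by
          by_contra hcon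
          push Not at hcon
          exact hz (deriv_cc_zero hT0 hK0 ⟨Or.inr hcon.1, Or.inl hcon.2⟩)
        have hwb : ww s L t ≤ (2 * T) ^ (s / 2) * lo (2 * T) t + L ^ s * hi K t := by
          rcases hreg with h | h
          · have h1 : ww s L t ≤ (2 * T) ^ (s / 2) :=
              (ww_le_pow hs ht).trans (Real.rpow_le_rpow ht.le h (by positivity))
            rw [lo, if_pos h]
            have : 0 ≤ L ^ s * hi K t := by positivity
            linarith
          · have h1 : ww s L t ≤ L ^ s := ww_le_L hs hL ht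
            rw [hi, if_pos h]
            have : 0 ≤ (2 * T) ^ (s / 2) * lo (2 * T) t := by positivity
            linarith
        have e1 : 2 * deriv (cc T K) t ^ 2 * Real.sqrt t =
            2 * (|deriv (cc T K) t| * t) ^ 2 * (Real.sqrt t / t ^ 2) := by
          rw [mul_pow, sq_abs]
          field_simp
        have hd0 : 0 ≤ |deriv (cc T K) t| * t := by positivity
        have e2 : 2 * deriv (cc T K) t ^ 2 * Real.sqrt t ≤ 2 * D ^ 2 := by
          rw [e1]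
          calc 2 * (|deriv (cc T K) t| * t) ^ 2 * (Real.sqrt t / t ^ 2) ≤ 2 * D ^ 2 * 1 := by gcongr
            _ = _ := by ring
        have e3 : 4 * cc T K t * (|deriv (cc T K) t| * t) ≤ 4 * D := by
          calc 4 * cc T K t * (|deriv (cc T K) t| * t) ≤ 4 * 1 * D := by gcongr
            _ = _ := by ring
        calc C * (ww s L t * (2 * deriv (cc T K) t ^ 2 * Real.sqrt t +
            4 * cc T K t * (|deriv (cc T K) t| * t))) ≤ C * (ww s L t * (2 * D ^ 2 + 4 * D)) := by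
              gcongr
          _ = C * (2 * D ^ 2 + 4 * D) * ww s L t := by ring
          _ ≤ _ := by gcongr
    calc _ = C * (ww s L t * ((2 * s + 1) ^ 2 / 8 * cc T K t ^ 2 * (Real.sqrt t / t ^ 2))) +
        C * (ww s L t * (2 * deriv (cc T K) t ^ 2 * Real.sqrt t +
        4 * cc T K t * (|deriv (cc T K) t| * t))) := by ring
      _ ≤ _ := add_le_add p1 p2

/-- truncated weight -/
noncomputable def tw (s L T K t : ℝ) : ℝ := if 2 * T ≤ t ∧ t ≤ K then ww s L t else 0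

lemma measurable_tw (s L T K : ℝ) : Measurable (tw s L T K) := by
  unfold tw
  exact Measurable.ite (measurableSet_Ici.inter measurableSet_Iic) (measurable_ww s L)
    measurable_const

theorem main_bound (S : Setup F) {s : ℝ} (hs : 0 ≤ s) (hW : WIneq S s) :
    ∃ T E : ℝ, 1 ≤ T ∧ 0 ≤ E ∧ ∀ Ψ : Lp F 2 (volume : Measure X3), S.IsZM Ψ →
      ∀ L : ℝ, 0 < L → ∀ K : ℝ, 2 * T ≤ K →
      ∫ x : X3, tw s L T K (‖x‖ ^ 2) * ‖Ψ x‖ ^ 2 ≤
        E * ((2 * T) ^ (s / 2) * (∫ x : X3, lo (2 * T) (‖x‖ ^ 2) * ‖Ψ x‖ ^ 2) +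
          L ^ s * ∫ x : X3, hi K (‖x‖ ^ 2) * ‖Ψ x‖ ^ 2) := by
  obtain ⟨R, C, hR, hC, hW⟩ := hW
  obtain ⟨D, hD0, hD⟩ := deriv_cc_bound
  set T : ℝ := max 1 (max (R ^ 2) (2 * C * ((2 * s + 1) ^ 2 / 8))) with hTdef
  have hT1 : 1 ≤ T := le_max_left _ _
  have hTR : R ^ 2 ≤ T := (le_max_left _ _).trans (le_max_right _ _)
  have hTC : 2 * C * ((2 * s + 1) ^ 2 / 8) ≤ T := (le_max_right _ _).trans (le_max_right _ _)
  have hT0 : 0 < T := by linarith
  refine ⟨T, 2 * (C * (2 * D ^ 2 + 4 * D)), hT1, by positivity, fun Ψ hΨ L hL K hK => ?_⟩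
  have hK0 : 0 < K := by linarith
  have hΨ2 : Integrable (fun x => ‖Ψ x‖ ^ 2) := memLp_norm_sq_int (Lp.memLp Ψ)
  have hsm := contDiff_HH (s := s) (L := L) (T := T) (K := K) hT0 hL
  have hcs := hasCompactSupport_HH (s := s) (L := L) hT0 hK0
  have h1 := hW Ψ hΨ (HH s L T K) hsm hcs
    (fun t ht => by rw [HH, cc_zero_left hT0 (ht.trans hTR), zero_mul]) (sg s L)
    (continuous_sg s L) (fun t => sg_mem hs L t)
  -- the function `c² w`
  have hcw : ∀ x : X3, ‖x‖ * HH s L T K (‖x‖ ^ 2) ^ 2 =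
      cc T K (‖x‖ ^ 2) ^ 2 * ww s L (‖x‖ ^ 2) := by
    intro x
    by_cases hx : x = 0
    · subst hx
      have h0 : cc T K (‖(0 : X3)‖ ^ 2) = 0 := cc_zero_left hT0 (by simpa using hT0.le)
      rw [HH, h0]; ring
    · have hn : 0 < ‖x‖ := norm_pos_iff.mpr hx
      have ht : 0 < ‖x‖ ^ 2 := by positivity
      rw [← ww_eq ht, HH, Real.sqrt_sq hn.le]
      ring
  have hcwb : ∀ x : X3, |‖x‖ * HH s L T K (‖x‖ ^ 2) ^ 2| ≤ L ^ s := by
    intro x
    rw [hcw]
    by_cases hx : x = 0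
    · subst hx
      have h0 : cc T K (‖(0 : X3)‖ ^ 2) = 0 := cc_zero_left hT0 (by simpa using hT0.le)
      rw [h0]; simp; positivity
    · have hn : 0 < ‖x‖ := norm_pos_iff.mpr hx
      have ht : 0 < ‖x‖ ^ 2 := by positivity
      have hw := ww_pos (s := s) (L := L) ht
      have hc0 := cc_nonneg T K (‖x‖ ^ 2)
      have hc1 := cc_le_one T K (‖x‖ ^ 2)
      rw [abs_of_nonneg (by positivity)]
      calc cc T K (‖x‖ ^ 2) ^ 2 * ww s L (‖x‖ ^ 2) ≤ 1 * ww s L (‖x‖ ^ 2) := by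
            gcongr
            exact pow_le_one₀ hc0 hc1
        _ ≤ L ^ s := by rw [one_mul]; exact ww_le_L hs hL ht
  have hcont : Continuous (fun x : X3 => ‖x‖ * HH s L T K (‖x‖ ^ 2) ^ 2) :=
    continuous_norm.mul ((hsm.continuous.comp (continuous_norm.pow 2)).pow 2)
  have i1 : Integrable (fun x : X3 => ‖x‖ * HH s L T K (‖x‖ ^ 2) ^ 2 * ‖Ψ x‖ ^ 2) :=
    integrable_bdd hcont.measurable hcwb hΨ2
  have i2 : Integrable (fun x : X3 => lo (2 * T) (‖x‖ ^ 2) * ‖Ψ x‖ ^ 2) :=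
    integrable_bdd ((measurable_lo _).comp measurable_nsq) (fun x => lo_abs _ _) hΨ2
  have i3 : Integrable (fun x : X3 => hi K (‖x‖ ^ 2) * ‖Ψ x‖ ^ 2) :=
    integrable_bdd ((measurable_hi _).comp measurable_nsq) (fun x => hi_abs _ _) hΨ2
  set E0 := C * (2 * D ^ 2 + 4 * D) with hE0
  have hE00 : 0 ≤ E0 := by positivity
  have i5 : Integrable (fun x : X3 => (2 * T) ^ (s / 2) * (lo (2 * T) (‖x‖ ^ 2) * ‖Ψ x‖ ^ 2) +
        L ^ s * (hi K (‖x‖ ^ 2) * ‖Ψ x‖ ^ 2)) := (i2.const_mul _).add (i3.const_mul _)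
  have i6 : Integrable (fun x : X3 => E0 * ((2 * T) ^ (s / 2) *
      (lo (2 * T) (‖x‖ ^ 2) * ‖Ψ x‖ ^ 2) +
        L ^ s * (hi K (‖x‖ ^ 2) * ‖Ψ x‖ ^ 2))) := i5.const_mul _
  have i4 : Integrable (fun x : X3 => 1 / 2 * (‖x‖ * HH s L T K (‖x‖ ^ 2) ^ 2 * ‖Ψ x‖ ^ 2) +
      E0 * ((2 * T) ^ (s / 2) * (lo (2 * T) (‖x‖ ^ 2) * ‖Ψ x‖ ^ 2) +
        L ^ s * (hi K (‖x‖ ^ 2) * ‖Ψ x‖ ^ 2))) :=
    (i1.const_mul _).add i6
  have h2 : C * (∫ x : X3, (deriv (HH s L T K) (‖x‖ ^ 2) ^ 2 * ‖x‖ ^ 2 +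
        |2 * deriv (fun t => Real.sqrt t * HH s L T K t ^ 2) (‖x‖ ^ 2) * ‖x‖ ^ 2 -
          ‖x‖ * HH s L T K (‖x‖ ^ 2) ^ 2 * sg s L (‖x‖ ^ 2)|) * ‖Ψ x‖ ^ 2) ≤
      ∫ x : X3, (1 / 2 * (‖x‖ * HH s L T K (‖x‖ ^ 2) ^ 2 * ‖Ψ x‖ ^ 2) +
      E0 * ((2 * T) ^ (s / 2) * (lo (2 * T) (‖x‖ ^ 2) * ‖Ψ x‖ ^ 2) +
        L ^ s * (hi K (‖x‖ ^ 2) * ‖Ψ x‖ ^ 2))) := by
    rw [← integral_const_mul]
    refine integral_mono_of_nonneg (Filter.Eventually.of_forall fun x => by
      simp only [Pi.zero_apply]; positivity) i4 (Filter.Eventually.of_forall fun x => ?_)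
    simp only
    by_cases hx : x = 0
    · subst hx
      have a1 := lo_nonneg (2 * T) (‖(0 : X3)‖ ^ 2)
      have a2 := hi_nonneg K (‖(0 : X3)‖ ^ 2)
      have e : C * ((deriv (HH s L T K) (‖(0 : X3)‖ ^ 2) ^ 2 * ‖(0 : X3)‖ ^ 2 +
        |2 * deriv (fun t => Real.sqrt t * HH s L T K t ^ 2) (‖(0 : X3)‖ ^ 2) * ‖(0 : X3)‖ ^ 2 -
          ‖(0 : X3)‖ * HH s L T K (‖(0 : X3)‖ ^ 2) ^ 2 * sg s L (‖(0 : X3)‖ ^ 2)|) * ‖Ψ 0‖ ^ 2) = 0 := by
        simp
      rw [e]
      positivity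
    · have hn : 0 < ‖x‖ := norm_pos_iff.mpr hx
      have ht : 0 < ‖x‖ ^ 2 := by positivity
      have h3 := rhs_bound (D := D) hs hL hT1 hK hC hD0 hD hTC ht
      rw [Real.sqrt_sq hn.le, ← hcw] at h3
      have h4 := mul_le_mul_of_nonneg_right h3 (by positivity : 0 ≤ ‖Ψ x‖ ^ 2)
      calc _ = C * (deriv (HH s L T K) (‖x‖ ^ 2) ^ 2 * ‖x‖ ^ 2 +
            |2 * deriv (fun t => Real.sqrt t * HH s L T K t ^ 2) (‖x‖ ^ 2) * ‖x‖ ^ 2 -
              ‖x‖ * HH s L T K (‖x‖ ^ 2) ^ 2 * sg s L (‖x‖ ^ 2)|) * ‖Ψ x‖ ^ 2 := by ring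
        _ ≤ _ := h4
        _ = _ := by rw [hE0]; ring
  rw [integral_add (i1.const_mul _) i6,
    integral_const_mul, integral_const_mul, integral_add (i2.const_mul _) (i3.const_mul _),
    integral_const_mul, integral_const_mul] at h2
  have h5 : ∫ x : X3, tw s L T K (‖x‖ ^ 2) * ‖Ψ x‖ ^ 2 ≤
      ∫ x : X3, ‖x‖ * HH s L T K (‖x‖ ^ 2) ^ 2 * ‖Ψ x‖ ^ 2 := by
    refine integral_mono_of_nonneg (Filter.Eventually.of_forall fun x => ?_) i1
      (Filter.Eventually.of_forall fun x => ?_)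
    · simp only [Pi.zero_apply, tw]
      split_ifs with h
      · have ht : 0 < ‖x‖ ^ 2 := by linarith [h.1]
        have := ww_pos (s := s) (L := L) ht
        positivity
      · simp
    · simp only
      refine mul_le_mul_of_nonneg_right ?_ (by positivity)
      rw [tw]
      split_ifs with h
      · rw [hcw, cc_one hT0 hK0 h.1 h.2]; simp
      · positivity
  linarith

end Dec
end Vale.Agent.P353
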