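import Vale.Agent.P353.Ident

open Matrix

namespace Vale.Agent.P353

namespace CS

variable {R : Type*} [Ring R] [Algebra ℂ R] (S : CS R)

/-- `F^A_{pq}` -/
noncomputable def FFc (κ : ℂ) (X : Fin 9 → Fin 3 → ℂ) (A : Fin 3) (p q : Fin 9) : ℂ :=
  κ * ∑ B, ∑ C, (eps A B C : ℂ) * X p B * X q C

/-- `W_β` -/
noncomputable def Wv (κ : ℂ) (X : Fin 9 → Fin 3 → ℂ) (β : Fin 16) : R :=
  (1 / 2 : ℂ) • ∑ A, ∑ p, ∑ q, FFc κ X A p q • S.vec (S.g2 p q) A β

lemma eps_sum0 (f : Fin 3 → Fin 3 → ℂ) :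
    ∑ B, ∑ C, (eps 0 B C : ℂ) * f B C = f 1 2 - f 2 1 := by
  have h : eps 0 0 0 = 0 ∧ eps 0 0 1 = 0 ∧ eps 0 0 2 = 0 ∧ eps 0 1 0 = 0 ∧ eps 0 1 1 = 0 ∧
      eps 0 1 2 = 1 ∧ eps 0 2 0 = 0 ∧ eps 0 2 1 = -1 ∧ eps 0 2 2 = 0 := by decide
  obtain ⟨h1, h2, h3, h4, h5, h6, h7, h8, h9⟩ := h
  simp only [Fin.sum_univ_three, h1, h2, h3, h4, h5, h6, h7, h8, h9]
  push_cast; ring

lemma eps_sum1 (f : Fin 3 → Fin 3 → ℂ) :
    ∑ B, ∑ C, (eps 1 B C : ℂ) * f B C = f 2 0 - f 0 2 := by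
  have h : eps 1 0 0 = 0 ∧ eps 1 0 1 = 0 ∧ eps 1 0 2 = -1 ∧ eps 1 1 0 = 0 ∧ eps 1 1 1 = 0 ∧
      eps 1 1 2 = 0 ∧ eps 1 2 0 = 1 ∧ eps 1 2 1 = 0 ∧ eps 1 2 2 = 0 := by decide
  obtain ⟨h1, h2, h3, h4, h5, h6, h7, h8, h9⟩ := h
  simp only [Fin.sum_univ_three, h1, h2, h3, h4, h5, h6, h7, h8, h9]
  push_cast; ring

lemma eps_sum2 (f : Fin 3 → Fin 3 → ℂ) :
    ∑ B, ∑ C, (eps 2 B C : ℂ) * f B C = f 0 1 - f 1 0 := by
  have h : eps 2 0 0 = 0 ∧ eps 2 0 1 = 1 ∧ eps 2 0 2 = 0 ∧ eps 2 1 0 = -1 ∧ eps 2 1 1 = 0 ∧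
      eps 2 1 2 = 0 ∧ eps 2 2 0 = 0 ∧ eps 2 2 1 = 0 ∧ eps 2 2 2 = 0 := by decide
  obtain ⟨h1, h2, h3, h4, h5, h6, h7, h8, h9⟩ := h
  simp only [Fin.sum_univ_three, h1, h2, h3, h4, h5, h6, h7, h8, h9]
  push_cast; ring

lemma FFc_0 (κ : ℂ) (X : Fin 9 → Fin 3 → ℂ) (p q : Fin 9) :
    FFc κ X 0 p q = κ * (X p 1 * X q 2 - X p 2 * X q 1) := by
  simp only [FFc, mul_assoc, eps_sum0]

lemma FFc_1 (κ : ℂ) (X : Fin 9 → Fin 3 → ℂ) (p q : Fin 9) :
    FFc κ X 1 p q = κ * (X p 2 * X q 0 - X p 0 * X q 2) := by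
  simp only [FFc, mul_assoc, eps_sum1]

lemma FFc_2 (κ : ℂ) (X : Fin 9 → Fin 3 → ℂ) (p q : Fin 9) :
    FFc κ X 2 p q = κ * (X p 0 * X q 1 - X p 1 * X q 0) := by
  simp only [FFc, mul_assoc, eps_sum2]

lemma FFc_antisymm (κ : ℂ) (X : Fin 9 → Fin 3 → ℂ) (A : Fin 3) (p q : Fin 9) :
    FFc κ X A p q = -FFc κ X A q p := by
  fin_cases A
  · simp only [Fin.zero_eta, FFc_0]; ring
  · simp only [Fin.mk_one, FFc_1]; ring
  · simp only [Fin.reduceFinMk, FFc_2]; ring

lemma FFc_cross (κ : ℂ) (X : Fin 9 → Fin 3 → ℂ) (A B : Fin 3) (j p q : Fin 9) :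
    FFc κ X A p q * X j B + FFc κ X A q j * X p B + FFc κ X A j p * X q B =
      (if A = B then 1 else 0) * ∑ D, FFc κ X D p q * X j D := by
  rw [Fin.sum_univ_three]
  fin_cases A <;> fin_cases B <;>
    simp only [Fin.zero_eta, Fin.mk_one, Fin.reduceFinMk, FFc_0, FFc_1, FFc_2, if_true,
      Fin.reduceEq, if_false] <;> ring

lemma FFc_dot (κ : ℂ) (X : Fin 9 → Fin 3 → ℂ) (p j : Fin 9) :
    ∑ D, FFc κ X D p j * X j D = 0 := by
  simp only [Fin.sum_univ_three, FFc_0, FFc_1, FFc_2]; ring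

lemma FFc_dot' (κ : ℂ) (X : Fin 9 → Fin 3 → ℂ) (p j : Fin 9) :
    ∑ D, FFc κ X D j p * X j D = 0 := by
  simp only [Fin.sum_univ_three, FFc_0, FFc_1, FFc_2]; ring

lemma sum_Wv_mul (κ : ℂ) (X : Fin 9 → Fin 3 → ℂ) (Y : Fin 16 → R) :
    ∑ β, S.Wv κ X β * Y β = (1 / 2 : ℂ) • ∑ A, ∑ p, ∑ q, FFc κ X A p q •
      ∑ β, S.vec (S.g2 p q) A β * Y β := by
  simp only [Wv, smul_mul_assoc, Finset.sum_mul, ← Finset.smul_sum]
  congr 1
  rw [Finset.sum_comm]
  refine Finset.sum_congr rfl fun A _ => ?_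
  rw [Finset.sum_comm]
  refine Finset.sum_congr rfl fun p _ => ?_
  rw [Finset.sum_comm]
  refine Finset.sum_congr rfl fun q _ => ?_
  rw [Finset.smul_sum]

lemma sum_mul_Wv (κ : ℂ) (X : Fin 9 → Fin 3 → ℂ) (Y : Fin 16 → R) :
    ∑ β, Y β * S.Wv κ X β = (1 / 2 : ℂ) • ∑ A, ∑ p, ∑ q, FFc κ X A p q •
      ∑ β, Y β * S.vec (S.g2 p q) A β := by
  simp only [Wv, mul_smul_comm, Finset.mul_sum, ← Finset.smul_sum]
  congr 1
  rw [Finset.sum_comm]
  refine Finset.sum_congr rfl fun A _ => ?_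
  rw [Finset.sum_comm]
  refine Finset.sum_congr rfl fun p _ => ?_
  rw [Finset.sum_comm]
  refine Finset.sum_congr rfl fun q _ => ?_
  rw [Finset.smul_sum]

/-- `𝔟 = i B·W` -/
noncomputable def bb (κ : ℂ) (X : Fin 9 → Fin 3 → ℂ) : R :=
  Complex.I • ∑ β, S.Bv X β * S.Wv κ X β

/-- `𝔢` -/
noncomputable def ee (κ : ℂ) (X : Fin 9 → Fin 3 → ℂ) : R :=
  Complex.I • ∑ A, ∑ j, ∑ B, ∑ p, (FFc κ X A p j * X j B) • S.bil (S.g p) B A

lemma bb_eq (κ : ℂ) (X : Fin 9 → Fin 3 → ℂ) :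
    S.bb κ X = (Complex.I / 2) • ∑ A, ∑ p, ∑ q, ∑ j, ∑ B, (FFc κ X A p q * X j B) •
      S.bil (S.g j * S.g2 p q) B A := by
  rw [bb, sum_mul_Wv, smul_smul]
  have : Complex.I * (1 / 2) = Complex.I / 2 := by ring
  rw [this]
  congr 1
  refine Finset.sum_congr rfl fun A _ => Finset.sum_congr rfl fun p _ =>
    Finset.sum_congr rfl fun q _ => ?_
  simp only [Bv, Finset.sum_mul, smul_mul_assoc]
  rw [Finset.sum_comm, Finset.smul_sum]
  refine Finset.sum_congr rfl fun j _ => ?_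
  rw [Finset.sum_comm, Finset.smul_sum]
  refine Finset.sum_congr rfl fun B _ => ?_
  rw [← Finset.smul_sum, S.sum_vec_mul_vec, S.g_symm, smul_smul]

lemma g2_mul_g (p q j : Fin 9) : S.g2 p q * S.g j = S.g j * S.g2 p q +
    (2:ℂ) • ((if q = j then (1:ℂ) else 0) • S.g p - (if p = j then (1:ℂ) else 0) • S.g q) := by
  rw [g2_eq, sub_mul, mul_sub, smul_mul_assoc, one_mul, mul_smul_comm, mul_one]
  have e1 : S.g p * S.g q * S.g j = S.g j * (S.g p * S.g q) +
    (2:ℂ) • ((if q = j then (1:ℂ) else 0) • S.g p - (if p = j then (1:ℂ) else 0) • S.g q) := by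
    rw [mul_assoc, S.g_swap q j, mul_sub, ← mul_assoc, S.g_swap p j, sub_mul]
    simp only [smul_mul_assoc, mul_smul_comm, one_mul, mul_one, mul_assoc]
    by_cases h : q = j <;> by_cases h' : p = j <;> simp [h, h'] <;> module
  rw [e1]
  abel

/-- contraction with the antisymmetric `F_{pq}` -/
lemma FF_contr (κ : ℂ) (X : Fin 9 → Fin 3 → ℂ) (c : ℂ) :
    ∑ A, ∑ p, ∑ q, ∑ j, ∑ B, (FFc κ X A p q * X j B) •
      (c • S.bil ((if q = j then (1:ℂ) else 0) • S.g p -
        (if p = j then (1:ℂ) else 0) • S.g q) B A) =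
    (2 * c) • ∑ A, ∑ j, ∑ B, ∑ p, (FFc κ X A p j * X j B) • S.bil (S.g p) B A := by
  have h1 : ∀ A, ∑ p, ∑ q, ∑ j, ∑ B, (FFc κ X A p q * X j B) •
      (c • S.bil ((if q = j then (1:ℂ) else 0) • S.g p -
        (if p = j then (1:ℂ) else 0) • S.g q) B A) =
      ∑ p, ∑ j, ∑ B, (FFc κ X A p j * X j B * c) • S.bil (S.g p) B A -
      ∑ j, ∑ q, ∑ B, (FFc κ X A j q * X j B * c) • S.bil (S.g q) B A := by
    intro A
    simp only [bil_sub, bil_smul, smul_sub, smul_smul, Finset.sum_sub_distrib]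
    refine congrArg₂ HSub.hSub ?_ ?_
    · refine Finset.sum_congr rfl fun p _ => ?_
      refine Finset.sum_congr rfl fun q _ => ?_
      rw [Finset.sum_comm]
      refine Finset.sum_congr rfl fun B _ => ?_
      simp
    · refine Finset.sum_congr rfl fun p _ => ?_
      refine Finset.sum_congr rfl fun q _ => ?_
      rw [Finset.sum_comm]
      refine Finset.sum_congr rfl fun B _ => ?_
      simp
  simp only [h1, Finset.sum_sub_distrib]
  have h2 : ∑ A, ∑ j, ∑ q, ∑ B, (FFc κ X A j q * X j B * c) • S.bil (S.g q) B A =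
      - ∑ A, ∑ p, ∑ j, ∑ B, (FFc κ X A p j * X j B * c) • S.bil (S.g p) B A := by
    rw [← Finset.sum_neg_distrib]
    refine Finset.sum_congr rfl fun A _ => ?_
    rw [Finset.sum_comm, ← Finset.sum_neg_distrib]
    refine Finset.sum_congr rfl fun p _ => ?_
    rw [← Finset.sum_neg_distrib]
    refine Finset.sum_congr rfl fun j _ => ?_
    rw [← Finset.sum_neg_distrib]
    refine Finset.sum_congr rfl fun B _ => ?_
    rw [FFc_antisymm κ X A j p]
    module
  rw [h2, sub_neg_eq_add, ← two_smul ℂ, mul_smul]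
  refine congrArg (HSMul.hSMul _) ?_
  rw [Finset.smul_sum]
  refine Finset.sum_congr rfl fun A _ => ?_
  rw [Finset.sum_comm, Finset.smul_sum]
  refine Finset.sum_congr rfl fun j _ => ?_
  rw [Finset.sum_comm, Finset.smul_sum]
  refine Finset.sum_congr rfl fun B _ => ?_
  rw [Finset.smul_sum]
  refine Finset.sum_congr rfl fun p _ => ?_
  rw [smul_smul]; congr 1; ring

/-- W-part for `M^{S1}` -/
lemma WS (κ : ℂ) (X : Fin 9 → Fin 3 → ℂ) :
    ∑ β, S.Wv κ X β * S.MS X β =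
      -∑ β, S.MS X β * S.Wv κ X β - (2 : ℂ) • S.bb κ X - (5 : ℂ) • S.ee κ X := by
  have h0 : ∀ A p q, ∑ β, S.vec (S.g2 p q) A β * S.MS X β =
      -∑ β, S.MS X β * S.vec (S.g2 p q) A β + (Complex.I / 2) •
      ∑ j, ∑ B, X j B • S.bil ((-4 : ℂ) • (S.g j * S.g2 p q) + (-10 : ℂ) •
        ((if q = j then (1:ℂ) else 0) • S.g p - (if p = j then (1:ℂ) else 0) • S.g q)) B A := by
    intro A p q
    have h1 : ∑ β, S.vec (S.g2 p q) A β * S.MS X β = ∑ j, ∑ l, ∑ B, X j B •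
        ∑ β, S.vec (S.g2 p q) A β * (S.vec (S.g l) B β * S.Sk j l) := by
      simp only [MS, Finset.mul_sum, Finset.sum_mul, Finset.smul_sum, smul_mul_assoc,
        mul_smul_comm]
      rw [Finset.sum_comm]
      refine Finset.sum_congr rfl fun j _ => ?_
      rw [Finset.sum_comm]
      refine Finset.sum_congr rfl fun l _ => ?_
      rw [Finset.sum_comm]
    have h2 : ∑ β, S.MS X β * S.vec (S.g2 p q) A β = ∑ j, ∑ l, ∑ B, X j B •
        ∑ β, (S.vec (S.g l) B β * S.Sk j l) * S.vec (S.g2 p q) A β := by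
      simp only [MS, Finset.sum_mul, Finset.smul_sum, smul_mul_assoc]
      rw [Finset.sum_comm]
      refine Finset.sum_congr rfl fun j _ => ?_
      rw [Finset.sum_comm]
      refine Finset.sum_congr rfl fun l _ => ?_
      rw [Finset.sum_comm]
    have h3 : ∀ l, (S.g2 p q * S.g l).trace = 0 := by
      intro l; rw [Matrix.trace_mul_comm, trace_g_g2]
    rw [h1, h2]
    simp only [S.F1S, smul_add, Finset.sum_add_distrib,
      S.g_symm, h3, ite_self, zero_smul, zero_sub, smul_neg, Finset.sum_neg_distrib]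
    congr 1
    have e1 : ∀ j, ∑ l, S.g l * (S.g2 p q * S.g2 j l) =
        (-4 : ℂ) • (S.g j * S.g2 p q) + (-10 : ℂ) •
        ((if q = j then (1:ℂ) else 0) • S.g p - (if p = j then (1:ℂ) else 0) • S.g q) := by
      intro j
      have e2 : ∀ l, S.g l * (S.g2 p q * S.g2 j l) = S.g l * (S.g2 p q * S.g j) * S.g l
          - (if j = l then (1:ℂ) else 0) • (S.g l * S.g2 p q) := by
        intro l
        rw [S.g2_eq j l, mul_sub, mul_sub, mul_smul_comm, mul_smul_comm, mul_one]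
        simp only [mul_assoc]
      rw [Finset.sum_congr rfl fun l _ => e2 l, Finset.sum_sub_distrib]
      have e3 : ∑ l, S.g l * (S.g2 p q * S.g j) * S.g l = S.sand (S.g2 p q * S.g j) := rfl
      have e4 : S.sand (S.g j * S.g2 p q) = (2 : ℂ) • (S.g2 p q * S.g j)
          - (5 : ℂ) • (S.g j * S.g2 p q) := by
        rw [sand_g_mul, sand_g2, mul_smul_comm]
      rw [e3, S.g2_mul_g, sand_add, e4, sand_smul, sand_sub, sand_smul, sand_smul, sand_g, sand_g,
        S.g2_mul_g]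
      simp only [ite_smul, one_smul, zero_smul, Finset.sum_ite_eq, Finset.mem_univ, if_true]
      by_cases h : q = j <;> by_cases h' : p = j <;> simp only [h, h', if_true, if_false] <;>
        module
    rw [Finset.smul_sum]
    refine Finset.sum_congr rfl fun j _ => ?_
    rw [Finset.sum_comm, Finset.smul_sum]
    refine Finset.sum_congr rfl fun B _ => ?_
    rw [← e1, S.bil_sum, Finset.smul_sum, Finset.smul_sum]
    refine Finset.sum_congr rfl fun l _ => ?_
    rw [smul_comm]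
  rw [sum_Wv_mul, sum_mul_Wv, bb_eq, ee]
  simp only [h0, smul_add, Finset.sum_add_distrib, smul_neg, Finset.sum_neg_distrib]
  rw [sub_eq_add_neg, sub_eq_add_neg, add_assoc]
  congr 1
  have h5 := S.FF_contr κ X (-10)
  have h6 : (1 / 2 : ℂ) • ∑ A, ∑ p, ∑ q, FFc κ X A p q • (Complex.I / 2) •
      ∑ j, ∑ B, X j B • S.bil ((-4 : ℂ) • (S.g j * S.g2 p q) + (-10 : ℂ) •
        ((if q = j then (1:ℂ) else 0) • S.g p - (if p = j then (1:ℂ) else 0) • S.g q)) B A =
      (Complex.I / 4) • ((-4 : ℂ) • ∑ A, ∑ p, ∑ q, ∑ j, ∑ B, (FFc κ X A p q * X j B) •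
      S.bil (S.g j * S.g2 p q) B A + ∑ A, ∑ p, ∑ q, ∑ j, ∑ B, (FFc κ X A p q * X j B) •
      ((-10 : ℂ) • S.bil ((if q = j then (1:ℂ) else 0) • S.g p -
        (if p = j then (1:ℂ) else 0) • S.g q) B A)) := by
    simp only [Finset.smul_sum, ← Finset.sum_add_distrib]
    refine Finset.sum_congr rfl fun A _ => Finset.sum_congr rfl fun p _ =>
      Finset.sum_congr rfl fun q _ => Finset.sum_congr rfl fun j _ =>
      Finset.sum_congr rfl fun B _ => ?_
    rw [bil_add, bil_smul, bil_smul]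
    module
  rw [h6, h5]
  module

/-- W-part for `B` -/
lemma WB (κ : ℂ) (X : Fin 9 → Fin 3 → ℂ) :
    ∑ β, S.Wv κ X β * S.Bv X β = -∑ β, S.Bv X β * S.Wv κ X β := by
  rw [sum_Wv_mul, sum_mul_Wv, ← smul_neg]
  congr 1
  rw [← Finset.sum_neg_distrib]
  refine Finset.sum_congr rfl fun A _ => ?_
  rw [← Finset.sum_neg_distrib]
  refine Finset.sum_congr rfl fun p _ => ?_
  rw [← Finset.sum_neg_distrib]
  refine Finset.sum_congr rfl fun q _ => ?_
  rw [← smul_neg]
  congr 1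
  rw [eq_neg_iff_add_eq_zero, ← Finset.sum_add_distrib]
  have h : ∀ β, S.vec (S.g2 p q) A β * S.Bv X β + S.Bv X β * S.vec (S.g2 p q) A β =
      ∑ j, ∑ B, (if A = B then X j B * (S.g2 p q * S.g j) β β else 0) • (1 : R) := by
    intro β
    simp only [Bv, Finset.sum_mul, Finset.mul_sum, smul_mul_assoc, mul_smul_comm]
    rw [← Finset.sum_add_distrib]
    refine Finset.sum_congr rfl fun j _ => ?_
    rw [← Finset.sum_add_distrib]
    refine Finset.sum_congr rfl fun B _ => ?_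
    rw [← smul_add, S.vec_anti, S.g_symm]
    by_cases hB : A = B <;> simp [hB, smul_smul]
  rw [Finset.sum_congr rfl fun β _ => h β, Finset.sum_comm]
  refine Finset.sum_eq_zero fun j _ => ?_
  rw [Finset.sum_comm]
  refine Finset.sum_eq_zero fun B _ => ?_
  rw [← Finset.sum_smul]
  by_cases hB : A = B
  · simp only [hB, if_true, ← Finset.mul_sum]
    have : ∑ i, (S.g2 p q * S.g j) i i = (S.g2 p q * S.g j).trace := rfl
    rw [this, Matrix.trace_mul_comm, trace_g_g2]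
    simp
  · simp [hB]

/-- W-part for `MI` -/
lemma WI (κ : ℂ) (X : Fin 9 → Fin 3 → ℂ) :
    ∑ β, S.Wv κ X β * S.MI X β =
      -∑ β, S.MI X β * S.Wv κ X β + (8 : ℂ) • S.bb κ X := by
  have h0 : ∀ A p q, ∑ β, S.vec (S.g2 p q) A β * S.MI X β =
      -∑ β, S.MI X β * S.vec (S.g2 p q) A β + (8 * Complex.I) •
      ∑ j, ∑ B, X j B • S.bil (S.g j * S.g2 p q) B A := by
    intro A p q
    have h1 : ∑ β, S.vec (S.g2 p q) A β * S.MI X β = ∑ k, ∑ l, ∑ j, ∑ B, X j B •
        ∑ β, S.vec (S.g2 p q) A β * (S.vec (S.g2 k l * S.g j) B β * S.Sk k l) := by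
      simp only [MI, Finset.mul_sum, Finset.sum_mul, Finset.smul_sum, smul_mul_assoc,
        mul_smul_comm]
      rw [Finset.sum_comm]
      refine Finset.sum_congr rfl fun k _ => ?_
      rw [Finset.sum_comm]
      refine Finset.sum_congr rfl fun l _ => ?_
      rw [Finset.sum_comm]
      refine Finset.sum_congr rfl fun j _ => ?_
      rw [Finset.sum_comm]
    have h2 : ∑ β, S.MI X β * S.vec (S.g2 p q) A β = ∑ k, ∑ l, ∑ j, ∑ B, X j B •
        ∑ β, (S.vec (S.g2 k l * S.g j) B β * S.Sk k l) * S.vec (S.g2 p q) A β := by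
      simp only [MI, Finset.sum_mul, Finset.smul_sum, smul_mul_assoc]
      rw [Finset.sum_comm]
      refine Finset.sum_congr rfl fun k _ => ?_
      rw [Finset.sum_comm]
      refine Finset.sum_congr rfl fun l _ => ?_
      rw [Finset.sum_comm]
      refine Finset.sum_congr rfl fun j _ => ?_
      rw [Finset.sum_comm]
    have ht : ∀ k l j, (S.g2 k l * S.g j)ᵀ = -(S.g j * S.g2 k l) := by
      intro k l j
      rw [Matrix.transpose_mul, g2_transpose, S.g_symm, mul_neg]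
    have h3 : ∀ k l j, (S.g2 p q * -(S.g j * S.g2 k l)).trace = 0 := by
      intro k l j; rw [mul_neg, Matrix.trace_neg, ← mul_assoc, trace_g2_g_g2, neg_zero]
    rw [h1, h2]
    simp only [S.F1S, ht, h3, smul_add, Finset.sum_add_distrib,
      ite_self, zero_smul, zero_sub, smul_neg, Finset.sum_neg_distrib]
    congr 1
    have e1 : ∀ j, ∑ k, ∑ l, -(S.g j * S.g2 k l) * (S.g2 p q * S.g2 k l) =
        (16 : ℂ) • (S.g j * S.g2 p q) := by
      intro j
      have e2 : ∀ k l, -(S.g j * S.g2 k l) * (S.g2 p q * S.g2 k l) =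
          -(S.g j * (S.g2 k l * S.g2 p q * S.g2 k l)) := by
        intro k l; noncomm_ring
      simp only [e2, Finset.sum_neg_distrib, ← Finset.mul_sum]
      rw [sum_g2_g2_g2]
      simp
    have e4 : ∑ k, ∑ l, ∑ j, ∑ B, X j B • (Complex.I / 2) •
        S.bil (-(S.g j * S.g2 k l) * (S.g2 p q * S.g2 k l)) B A =
        ∑ j, ∑ B, X j B • (Complex.I / 2) •
          S.bil (∑ k, ∑ l, -(S.g j * S.g2 k l) * (S.g2 p q * S.g2 k l)) B A := by
      have : ∀ k, ∑ l, ∑ j, ∑ B, X j B • (Complex.I / 2) •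
        S.bil (-(S.g j * S.g2 k l) * (S.g2 p q * S.g2 k l)) B A = ∑ j, ∑ B, ∑ l, X j B •
        (Complex.I / 2) • S.bil (-(S.g j * S.g2 k l) * (S.g2 p q * S.g2 k l)) B A := by
        intro k
        rw [Finset.sum_comm]
        refine Finset.sum_congr rfl fun j _ => ?_
        rw [Finset.sum_comm]
      simp only [this]
      rw [Finset.sum_comm]
      refine Finset.sum_congr rfl fun j _ => ?_
      rw [Finset.sum_comm]
      refine Finset.sum_congr rfl fun B _ => ?_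
      simp only [S.bil_sum, Finset.smul_sum]
    rw [e4]
    simp only [e1, bil_smul, Finset.smul_sum]
    refine Finset.sum_congr rfl fun j _ => Finset.sum_congr rfl fun B _ => ?_
    module
  rw [sum_Wv_mul, sum_mul_Wv, bb_eq]
  simp only [h0, smul_add, Finset.sum_add_distrib, smul_neg, Finset.sum_neg_distrib]
  congr 1
  simp only [Finset.smul_sum]
  refine Finset.sum_congr rfl fun A _ => Finset.sum_congr rfl fun p _ =>
    Finset.sum_congr rfl fun q _ => Finset.sum_congr rfl fun j _ =>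
    Finset.sum_congr rfl fun B _ => ?_
  module

/-- `γ_{jpq}` -/
noncomputable def g3 (j p q : Fin 9) : Matrix (Fin 16) (Fin 16) ℂ :=
  S.g j * S.g2 p q + ((if q = j then (1:ℂ) else 0) • S.g p - (if p = j then (1:ℂ) else 0) • S.g q)

lemma g3_cyc (j p q : Fin 9) : S.g3 j p q = S.g3 p q j := by
  have e1 : S.g j * (S.g p * S.g q) = (if j = p then (2:ℂ) else 0) • S.g q
      - (if j = q then (2:ℂ) else 0) • S.g p + S.g p * (S.g q * S.g j) := by
    rw [← mul_assoc, S.g_swap j p, sub_mul, smul_mul_assoc, one_mul, mul_assoc, S.g_swap j q,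
      mul_sub, mul_smul_comm, mul_one]
    abel
  rw [g3, g3, g2_eq, g2_eq, mul_sub, mul_sub, e1, mul_smul_comm, mul_smul_comm, mul_one, mul_one]
  have a1 : (if q = j then (1:ℂ) else 0) = (if j = q then (1:ℂ) else 0) := by
    simp only [eq_comm]
  have a2 : (if p = j then (1:ℂ) else 0) = (if j = p then (1:ℂ) else 0) := by
    simp only [eq_comm]
  have a3 : (if q = p then (1:ℂ) else 0) = (if p = q then (1:ℂ) else 0) := by
    simp only [eq_comm]
  have a4 : ∀ (P : Prop) [Decidable P], (if P then (2:ℂ) else 0) = 2 * (if P then (1:ℂ) else 0) := by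
    intro P _; split_ifs <;> simp
  rw [a1, a2, a3, a4, a4]
  module

lemma cyc_sum (f : Fin 9 → Fin 9 → Fin 9 → R) :
    ∑ p, ∑ q, ∑ j, f p q j = ∑ p, ∑ q, ∑ j, f q j p := by
  have h : ∀ q, ∑ p, ∑ j, f q j p = ∑ j, ∑ p, f q j p := fun q => Finset.sum_comm
  conv_rhs => rw [Finset.sum_comm]
  simp only [h]

lemma sum4_comm {ι : Type*} [Fintype ι] (f : Fin 9 → Fin 9 → Fin 9 → ι → R) :
    ∑ p, ∑ q, ∑ j, ∑ B, f p q j B = ∑ B, ∑ p, ∑ q, ∑ j, f p q j B := by
  have h1 : ∀ p q, ∑ j, ∑ B, f p q j B = ∑ B, ∑ j, f p q j B := fun p q => Finset.sum_comm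
  have h2 : ∀ p, ∑ q, ∑ B, ∑ j, f p q j B = ∑ B, ∑ q, ∑ j, f p q j B := fun p => Finset.sum_comm
  simp only [h1, h2]
  exact Finset.sum_comm

/-- (T) the three-dimensional identity -/
lemma bb_add_ee (κ : ℂ) (X : Fin 9 → Fin 3 → ℂ) :
    (3 : ℂ) • (S.bb κ X + S.ee κ X) = (Complex.I / 2) • ∑ A, ∑ p, ∑ q, ∑ j,
      (FFc κ X A p q * X j A) • S.tot (S.g j * S.g2 p q) := by
  have h1 : S.bb κ X + S.ee κ X = (Complex.I / 2) • ∑ A, ∑ p, ∑ q, ∑ j, ∑ B,
      (FFc κ X A p q * X j B) • S.bil (S.g3 j p q) B A := by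
    have h2 := S.FF_contr κ X 1
    simp only [one_smul, mul_one] at h2
    have h3 : S.ee κ X = (Complex.I / 2) • ∑ A, ∑ p, ∑ q, ∑ j, ∑ B, (FFc κ X A p q * X j B) •
      (S.bil ((if q = j then (1:ℂ) else 0) • S.g p -
        (if p = j then (1:ℂ) else 0) • S.g q) B A) := by
      rw [h2, ee, smul_smul]; congr 1; ring
    rw [h3, bb_eq, ← smul_add]
    refine congrArg (HSMul.hSMul _) ?_
    simp only [← Finset.sum_add_distrib]
    refine Finset.sum_congr rfl fun A _ => Finset.sum_congr rfl fun p _ =>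
      Finset.sum_congr rfl fun q _ => Finset.sum_congr rfl fun j _ =>
      Finset.sum_congr rfl fun B _ => ?_
    rw [g3, bil_add, smul_add]
  rw [h1, smul_comm]
  refine congrArg (HSMul.hSMul _) ?_
  -- reorganize
  have h4 : ∀ A B, ∑ p, ∑ q, ∑ j, (FFc κ X A p q * X j B) • S.bil (S.g3 j p q) B A =
      ∑ p, ∑ q, ∑ j, (FFc κ X A q j * X p B) • S.bil (S.g3 j p q) B A := by
    intro A B
    rw [cyc_sum]
    refine Finset.sum_congr rfl fun p _ => Finset.sum_congr rfl fun q _ =>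
        Finset.sum_congr rfl fun j _ => ?_
    rw [S.g3_cyc j p q]
  have h5 : ∀ A B, ∑ p, ∑ q, ∑ j, (FFc κ X A p q * X j B) • S.bil (S.g3 j p q) B A =
      ∑ p, ∑ q, ∑ j, (FFc κ X A j p * X q B) • S.bil (S.g3 j p q) B A := by
    intro A B
    rw [cyc_sum, cyc_sum]
    refine Finset.sum_congr rfl fun p _ => Finset.sum_congr rfl fun q _ =>
        Finset.sum_congr rfl fun j _ => ?_
    rw [S.g3_cyc q j p]
  have h6 : (3 : ℂ) • ∑ A, ∑ p, ∑ q, ∑ j, ∑ B,
      (FFc κ X A p q * X j B) • S.bil (S.g3 j p q) B A =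
      ∑ A, ∑ B, ∑ p, ∑ q, ∑ j, ((if A = B then 1 else 0) * ∑ D, FFc κ X D p q * X j D) •
        S.bil (S.g3 j p q) B A := by
    have e1 : ∑ A, ∑ p, ∑ q, ∑ j, ∑ B, (FFc κ X A p q * X j B) • S.bil (S.g3 j p q) B A =
        ∑ A, ∑ B, ∑ p, ∑ q, ∑ j, (FFc κ X A p q * X j B) • S.bil (S.g3 j p q) B A := by
      refine Finset.sum_congr rfl fun A _ => ?_
      rw [sum4_comm]
    rw [e1, Finset.smul_sum]
    refine Finset.sum_congr rfl fun A _ => ?_
    rw [Finset.smul_sum]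
    refine Finset.sum_congr rfl fun B _ => ?_
    have e2 : (3 : ℂ) • ∑ p, ∑ q, ∑ j, (FFc κ X A p q * X j B) • S.bil (S.g3 j p q) B A =
        ∑ p, ∑ q, ∑ j, (FFc κ X A p q * X j B) • S.bil (S.g3 j p q) B A +
        ∑ p, ∑ q, ∑ j, (FFc κ X A q j * X p B) • S.bil (S.g3 j p q) B A +
        ∑ p, ∑ q, ∑ j, (FFc κ X A j p * X q B) • S.bil (S.g3 j p q) B A := by
      rw [← h4, ← h5]; module
    rw [e2]
    simp only [← Finset.sum_add_distrib, ← add_smul, FFc_cross]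
  rw [h6]
  have h7 : ∑ A, ∑ B, ∑ p, ∑ q, ∑ j, ((if A = B then 1 else 0) * ∑ D, FFc κ X D p q * X j D) •
        S.bil (S.g3 j p q) B A =
      ∑ p, ∑ q, ∑ j, (∑ D, FFc κ X D p q * X j D) • S.tot (S.g3 j p q) := by
    have e1 : ∀ A, ∑ B, ∑ p, ∑ q, ∑ j,
        ((if A = B then 1 else 0) * ∑ D, FFc κ X D p q * X j D) • S.bil (S.g3 j p q) B A =
        ∑ p, ∑ q, ∑ j, (∑ D, FFc κ X D p q * X j D) • S.bil (S.g3 j p q) A A := by
      intro A
      rw [Finset.sum_eq_single A]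
      · simp
      · intro B _ hB; simp [Ne.symm hB]
      · simp
    simp only [e1, tot, Finset.smul_sum]
    rw [sum4_comm]
  rw [h7]
  have h8 : ∀ p q, ∑ j, (∑ D, FFc κ X D p q * X j D) • S.tot (S.g3 j p q) =
      ∑ j, (∑ D, FFc κ X D p q * X j D) • S.tot (S.g j * S.g2 p q) := by
    intro p q
    simp only [g3, tot_add, tot_sub, tot_smul, smul_add, smul_sub, Finset.sum_add_distrib,
      Finset.sum_sub_distrib]
    simp only [ite_smul, one_smul, zero_smul, smul_ite, smul_zero, Finset.sum_ite_eq,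
      Finset.mem_univ, if_true, FFc_dot, FFc_dot', zero_smul, sub_zero, add_zero]
  have h9 : ∑ p, ∑ q, ∑ j, (∑ D, FFc κ X D p q * X j D) • S.tot (S.g3 j p q) =
      ∑ p, ∑ q, ∑ j, ∑ D, (FFc κ X D p q * X j D) • S.tot (S.g j * S.g2 p q) := by
    refine Finset.sum_congr rfl fun p _ => Finset.sum_congr rfl fun q _ => ?_
    rw [h8]
    simp only [Finset.sum_smul]
  rw [h9, sum4_comm]

/-- W-part for `MG` -/
lemma WG (κ : ℂ) (X : Fin 9 → Fin 3 → ℂ) :
    ∑ β, S.Wv κ X β * S.MG X β =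
      -∑ β, S.MG X β * S.Wv κ X β + (2 : ℂ) • S.bb κ X + S.ee κ X := by
  have h0 : ∀ A p q, ∑ β, S.vec (S.g2 p q) A β * S.MG X β =
      -∑ β, S.MG X β * S.vec (S.g2 p q) A β +
      Complex.I • ∑ j, X j A • S.tot (S.g j * S.g2 p q) -
      Complex.I • ∑ j, ∑ B, X j B • S.bil (S.g2 p q * S.g j) B A := by
    intro A p q
    have h1 : ∑ β, S.vec (S.g2 p q) A β * S.MG X β =
        ∑ C, ∑ j, ∑ B, ∑ A', ((eps B A' C : ℂ) * X j B) •
        ∑ β, S.vec (S.g2 p q) A β * (S.vec (S.g j) A' β * S.sG C) := by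
      simp only [MG, Finset.mul_sum, Finset.sum_mul, Finset.smul_sum, smul_mul_assoc,
        mul_smul_comm]
      rw [Finset.sum_comm]
      refine Finset.sum_congr rfl fun C _ => ?_
      rw [Finset.sum_comm]
      refine Finset.sum_congr rfl fun j _ => ?_
      rw [Finset.sum_comm]
      refine Finset.sum_congr rfl fun B _ => ?_
      rw [Finset.sum_comm]
    have h2 : ∑ β, S.MG X β * S.vec (S.g2 p q) A β =
        ∑ C, ∑ j, ∑ B, ∑ A', ((eps B A' C : ℂ) * X j B) •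
        ∑ β, (S.vec (S.g j) A' β * S.sG C) * S.vec (S.g2 p q) A β := by
      simp only [MG, Finset.sum_mul, Finset.smul_sum, smul_mul_assoc]
      rw [Finset.sum_comm]
      refine Finset.sum_congr rfl fun C _ => ?_
      rw [Finset.sum_comm]
      refine Finset.sum_congr rfl fun j _ => ?_
      rw [Finset.sum_comm]
      refine Finset.sum_congr rfl fun B _ => ?_
      rw [Finset.sum_comm]
    have h3 : ∀ l, (S.g2 p q * S.g l).trace = 0 := by
      intro l; rw [Matrix.trace_mul_comm, trace_g_g2]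
    rw [h1, h2]
    simp only [S.F1G, S.g_symm, h3, smul_add, Finset.sum_add_distrib,
      ite_self, zero_smul, zero_sub, smul_neg, Finset.sum_neg_distrib]
    rw [add_sub_assoc]
    refine congrArg (HAdd.hAdd _) ?_
    have e1 : ∑ C, ∑ j, ∑ B, ∑ A', ((eps B A' C : ℂ) * X j B) •
      Complex.I • ∑ E, (eps C A E : ℂ) • S.bil (S.g j * S.g2 p q) A' E =
      Complex.I • ∑ j, ∑ B, ∑ A', ∑ E, (X j B * ∑ C, (eps B A' C : ℂ) * (eps C A E : ℂ)) •
        S.bil (S.g j * S.g2 p q) A' E := by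
      rw [Finset.sum_comm, Finset.smul_sum]
      refine Finset.sum_congr rfl fun j _ => ?_
      rw [Finset.sum_comm, Finset.smul_sum]
      refine Finset.sum_congr rfl fun B _ => ?_
      rw [Finset.sum_comm, Finset.smul_sum]
      refine Finset.sum_congr rfl fun A' _ => ?_
      simp only [Finset.smul_sum, Finset.mul_sum, Finset.sum_smul, smul_smul]
      rw [Finset.sum_comm]
      refine Finset.sum_congr rfl fun E _ => Finset.sum_congr rfl fun C _ => ?_
      congr 1; ring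
    rw [e1]
    simp only [eps_contr, mul_sub, sub_smul, Finset.sum_sub_distrib, smul_sub]
    refine congrArg₂ HSub.hSub ?_ ?_
    · refine congrArg (HSMul.hSMul _) ?_
      refine Finset.sum_congr rfl fun j _ => ?_
      have : ∀ B A' E, (X j B * ((if B = A then 1 else 0) * (if A' = E then 1 else 0))) •
          S.bil (S.g j * S.g2 p q) A' E = if B = A then (if A' = E then X j B •
          S.bil (S.g j * S.g2 p q) A' E else 0) else 0 := by
        intro B A' E; split_ifs <;> simp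
      simp only [this, Finset.sum_ite_irrel, Finset.sum_const_zero, Finset.sum_ite_eq,
        Finset.sum_ite_eq', Finset.mem_univ, if_true, tot, Finset.smul_sum]
    · refine congrArg (HSMul.hSMul _) ?_
      refine Finset.sum_congr rfl fun j _ => Finset.sum_congr rfl fun B _ => ?_
      have : ∀ A' E, (X j B * ((if B = E then 1 else 0) * (if A' = A then 1 else 0))) •
          S.bil (S.g j * S.g2 p q) A' E = if A' = A then (if B = E then X j B •
          S.bil (S.g j * S.g2 p q) A' E else 0) else 0 := by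
        intro A' E; split_ifs <;> simp
      simp only [this, Finset.sum_ite_irrel, Finset.sum_const_zero, Finset.sum_ite_eq,
        Finset.sum_ite_eq', Finset.mem_univ, if_true]
      rw [S.bil_swap, Matrix.transpose_mul, g2_transpose, S.g_symm, trace_g_g2, neg_mul, bil_neg]
      simp
  have hb := S.bb_add_ee κ X
  have hb2 := S.FF_contr κ X 2
  have h6 : ∑ β, S.Wv κ X β * S.MG X β = -∑ β, S.MG X β * S.Wv κ X β +
      (Complex.I / 2) • ∑ A, ∑ p, ∑ q, ∑ j, (FFc κ X A p q * X j A) • S.tot (S.g j * S.g2 p q)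
      - (Complex.I / 2) • (∑ A, ∑ p, ∑ q, ∑ j, ∑ B, (FFc κ X A p q * X j B) •
          S.bil (S.g j * S.g2 p q) B A +
        ∑ A, ∑ p, ∑ q, ∑ j, ∑ B, (FFc κ X A p q * X j B) •
      ((2 : ℂ) • S.bil ((if q = j then (1:ℂ) else 0) • S.g p -
        (if p = j then (1:ℂ) else 0) • S.g q) B A)) := by
    rw [sum_Wv_mul, sum_mul_Wv]
    simp only [h0, smul_add, smul_sub, Finset.sum_add_distrib, Finset.sum_sub_distrib, smul_neg,
      Finset.sum_neg_distrib]
    rw [sub_eq_add_neg, sub_eq_add_neg, add_assoc, add_assoc]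
    refine congrArg (HAdd.hAdd _) ?_
    refine congrArg₂ HAdd.hAdd ?_ ?_
    · simp only [Finset.smul_sum]
      refine Finset.sum_congr rfl fun A _ => Finset.sum_congr rfl fun p _ =>
        Finset.sum_congr rfl fun q _ => Finset.sum_congr rfl fun j _ => ?_
      module
    · rw [← smul_add, ← neg_smul, ← neg_smul]
      simp only [Finset.smul_sum, ← Finset.sum_add_distrib]
      refine Finset.sum_congr rfl fun A _ => Finset.sum_congr rfl fun p _ =>
        Finset.sum_congr rfl fun q _ => Finset.sum_congr rfl fun j _ =>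
        Finset.sum_congr rfl fun B _ => ?_
      rw [S.g2_mul_g, bil_add, bil_smul]
      module
  rw [h6, ← hb, hb2]
  rw [bb_eq, ee]
  module

end CS
end Vale.Agent.P353
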