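import Vale.Agent.P353.Gamma

open Matrix

namespace Vale.Agent.P353

lemma eps_contr (A B D E : Fin 3) : ∑ C, (eps A B C : ℂ) * (eps C D E : ℂ) =
    (if A = D then 1 else 0) * (if B = E then 1 else 0) -
      (if A = E then 1 else 0) * (if B = D then 1 else 0) := by
  have h : ∀ A B D E : Fin 3, ∑ C, (eps A B C) * (eps C D E) =
    (if A = D then 1 else 0) * (if B = E then 1 else 0) -
      (if A = E then 1 else 0) * (if B = D then 1 else 0) := by decide
  exact_mod_cast h A B D E

lemma eps_cyc (A B C : Fin 3) : eps A B C = eps C A B := by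
  revert A B C; decide

lemma eps_swap (A B C : Fin 3) : eps A B C = -eps B A C := by
  revert A B C; decide

lemma eps_swap' (A B C : Fin 3) : eps A B C = -eps A C B := by
  revert A B C; decide

namespace CS

variable {R : Type*} [Ring R] [Algebra ℂ R] (S : CS R)

/-- `S_{kl}` -/
noncomputable def Sk (k l : Fin 9) : R := (-Complex.I / 4) • S.tot (S.g2 k l)

/-- spin part of gauge generator -/
noncomputable def sG (C : Fin 3) : R :=
  (-Complex.I / 2) • ∑ D, ∑ E, (eps C D E : ℂ) • S.bil 1 D E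

lemma Sk_antisymm (k l : Fin 9) : S.Sk k l = -S.Sk l k := by
  rw [Sk, S.g2_antisymm, tot_neg, smul_neg]; rfl

lemma tot_g2 (k l : Fin 9) : S.tot (S.g2 k l) = (4 * Complex.I) • S.Sk k l := by
  rw [Sk, smul_smul]
  have : 4 * Complex.I * (-Complex.I / 4) = 1 := by
    have := Complex.I_mul_I
    linear_combination -this
  rw [this, one_smul]

lemma tot_gg (k l : Fin 9) :
    S.tot (S.g k * S.g l) = (4 * Complex.I) • S.Sk k l + (if k = l then (24:ℂ) else 0) • 1 := by
  have h : S.g k * S.g l = S.g2 k l + (if k = l then (1 : ℂ) else 0) • 1 := by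
    rw [g2_eq]; abel
  rw [h, tot_add, tot_g2, tot_smul, tot_one, smul_smul]
  congr 2
  split_ifs <;> simp

lemma Sk_self (k : Fin 9) : S.Sk k k = 0 := by
  simp [Sk, g2, tot, bil, vec]

/-- `[(Pθ^A)_β, S_{kl}] = -(i/2) (P γ_{kl} θ^A)_β` -/
lemma vec_comm_Sk (P : Matrix (Fin 16) (Fin 16) ℂ) (A : Fin 3) (β : Fin 16) (k l : Fin 9) :
    S.vec P A β * S.Sk k l - S.Sk k l * S.vec P A β =
      (-Complex.I / 2) • S.vec (P * S.g2 k l) A β := by
  rw [Sk, mul_smul_comm, smul_mul_assoc, ← smul_sub, S.vec_comm_tot _ _ (S.g2_transpose k l),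
    smul_smul]
  congr 1; ring

/-- `θ^B·θ^A = 8 δ_{AB} + i ε_{CBA} 𝒮_C` -/
lemma bil_one_eq (B A : Fin 3) :
    S.bil 1 B A = (if A = B then (8:ℂ) else 0) • 1 +
      Complex.I • ∑ C, (eps C B A : ℂ) • S.sG C := by
  have h1 : ∑ C, (eps C B A : ℂ) • S.sG C =
      (-Complex.I / 2) • (S.bil 1 B A - S.bil 1 A B) := by
    have h2 : ∀ C, (eps C B A : ℂ) • S.sG C = (-Complex.I / 2) •
        ∑ D, ∑ E, ((eps B A C : ℂ) * (eps C D E : ℂ)) • S.bil 1 D E := by
      intro C
      rw [sG, smul_comm, ← eps_cyc B A C]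
      simp only [Finset.smul_sum, smul_smul]
    rw [Finset.sum_congr rfl fun C _ => h2 C, ← Finset.smul_sum]
    congr 1
    rw [Finset.sum_comm]
    have h3 : ∀ D, ∑ C, ∑ E, ((eps B A C : ℂ) * (eps C D E : ℂ)) • S.bil 1 D E =
        ∑ E, ((if B = D then 1 else 0) * (if A = E then 1 else 0) -
      (if B = E then 1 else 0) * (if A = D then 1 else 0) : ℂ) • S.bil 1 D E := by
      intro D
      rw [Finset.sum_comm]
      refine Finset.sum_congr rfl fun E _ => ?_
      rw [← Finset.sum_smul, eps_contr]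
    rw [Finset.sum_congr rfl fun D _ => h3 D]
    simp only [sub_smul, Finset.sum_sub_distrib, mul_smul, ite_smul, one_smul, zero_smul,
      Finset.sum_ite_eq, Finset.mem_univ, if_true]
    congr 1
    simp
  rw [h1, smul_smul]
  have h4 : Complex.I * (-Complex.I / 2) = 1 / 2 := by
    have := Complex.I_mul_I
    linear_combination (-1/2) * this
  rw [h4]
  have h5 := S.bil_swap 1 A B
  rw [Matrix.transpose_one] at h5
  rw [h5, Matrix.trace_one, Fintype.card_fin]
  by_cases h : A = B
  · subst h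
    simp only [if_true]
    push_cast
    module
  · simp only [if_neg h]
    module

/-- `[(Pθ^A)_β, 𝒮_C] = -i ε_{CAE} (Pθ^E)_β` -/
lemma vec_comm_sG (P : Matrix (Fin 16) (Fin 16) ℂ) (A : Fin 3) (β : Fin 16) (C : Fin 3) :
    S.vec P A β * S.sG C - S.sG C * S.vec P A β =
      (-Complex.I) • ∑ E, (eps C A E : ℂ) • S.vec P E β := by
  have key : ∀ D E, S.vec P A β * S.bil 1 D E - S.bil 1 D E * S.vec P A β =
      (if A = D then S.vec P E β else 0) - (if A = E then S.vec P D β else 0) := by
    intro D E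
    have hb : S.bil 1 D E = ∑ δ, S.vec 1 D δ * S.vec 1 E δ := by
      rw [S.sum_vec_mul_vec]; simp
    rw [hb, Finset.mul_sum, Finset.sum_mul, ← Finset.sum_sub_distrib]
    have h1 : ∀ δ, S.vec P A β * (S.vec 1 D δ * S.vec 1 E δ) -
        S.vec 1 D δ * S.vec 1 E δ * S.vec P A β =
        (if A = D then (P β δ) • S.vec 1 E δ else 0) -
        (if A = E then (P β δ) • S.vec 1 D δ else 0) := by
      intro δ
      have e1 := S.vec_anti P 1 A D β δ
      have e2 := S.vec_anti P 1 A E β δ
      have : S.vec P A β * (S.vec 1 D δ * S.vec 1 E δ) -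
        S.vec 1 D δ * S.vec 1 E δ * S.vec P A β =
        (S.vec P A β * S.vec 1 D δ + S.vec 1 D δ * S.vec P A β) * S.vec 1 E δ -
        S.vec 1 D δ * (S.vec P A β * S.vec 1 E δ + S.vec 1 E δ * S.vec P A β) := by
        noncomm_ring
      rw [this, e1, e2, Matrix.transpose_one, mul_one]
      by_cases h : A = D <;> by_cases h' : A = E <;> simp [h, h']
    rw [Finset.sum_congr rfl fun δ _ => h1 δ, Finset.sum_sub_distrib]
    congr 1
    · by_cases h : A = D
      · simp only [h, if_true, vec_one]; rfl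
      · simp [h]
    · by_cases h : A = E
      · simp only [h, if_true, vec_one]; rfl
      · simp [h]
  have h2 : S.vec P A β * S.sG C - S.sG C * S.vec P A β = (-Complex.I / 2) •
      ∑ D, ∑ E, (eps C D E : ℂ) • ((if A = D then S.vec P E β else 0) -
        (if A = E then S.vec P D β else 0)) := by
    rw [sG, mul_smul_comm, smul_mul_assoc, ← smul_sub]
    congr 1
    simp only [Finset.mul_sum, Finset.sum_mul, ← Finset.sum_sub_distrib, mul_smul_comm,
      smul_mul_assoc, ← smul_sub, key]
  rw [h2]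
  simp only [smul_sub, smul_ite, smul_zero, Finset.sum_sub_distrib]
  have h3 : ∑ D, ∑ E, (if A = D then (eps C D E : ℂ) • S.vec P E β else 0) =
      ∑ E, (eps C A E : ℂ) • S.vec P E β := by
    rw [Finset.sum_comm]; simp
  have h4 : ∑ D, ∑ E, (if A = E then (eps C D E : ℂ) • S.vec P D β else 0) =
      -∑ E, (eps C A E : ℂ) • S.vec P E β := by
    simp only [Finset.sum_ite_eq, Finset.mem_univ, if_true]
    rw [← Finset.sum_neg_distrib]
    refine Finset.sum_congr rfl fun E _ => ?_
    rw [eps_swap' C E A]; push_cast; rw [neg_smul]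
  rw [h3, h4]
  module

/-- anticommutator sum, with `S_{jl}` on the right -/
lemma F1S (P N : Matrix (Fin 16) (Fin 16) ℂ) (A B : Fin 3) (j l : Fin 9) :
    ∑ β, S.vec P A β * (S.vec N B β * S.Sk j l) =
      (if A = B then (P * Nᵀ).trace else 0) • S.Sk j l
      - ∑ β, (S.vec N B β * S.Sk j l) * S.vec P A β
      + (Complex.I / 2) • S.bil (Nᵀ * (P * S.g2 j l)) B A := by
  have h : ∀ β, S.vec P A β * (S.vec N B β * S.Sk j l) =
      (if A = B then (P * Nᵀ) β β else 0) • S.Sk j l
      - (S.vec N B β * S.Sk j l) * S.vec P A β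
      + (Complex.I / 2) • (S.vec N B β * S.vec (P * S.g2 j l) A β) := by
    intro β
    have e1 := S.vec_anti P N A B β β
    have e2 := S.vec_comm_Sk P A β j l
    have e3 : S.vec P A β * (S.vec N B β * S.Sk j l) =
        (S.vec P A β * S.vec N B β + S.vec N B β * S.vec P A β) * S.Sk j l
        - (S.vec N B β * S.Sk j l) * S.vec P A β
        - S.vec N B β * (S.vec P A β * S.Sk j l - S.Sk j l * S.vec P A β) := by
      noncomm_ring
    rw [e3, e1, e2, mul_smul_comm, sub_eq_add_neg, ← neg_smul]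
    congr 2
    · by_cases h : A = B <;> simp [h]
    · ring_nf
  rw [Finset.sum_congr rfl fun β _ => h β, Finset.sum_add_distrib, Finset.sum_sub_distrib,
    ← Finset.sum_smul, ← Finset.smul_sum, S.sum_vec_mul_vec]
  congr 3
  by_cases h : A = B <;> simp [h, Matrix.trace]

lemma F1G (P N : Matrix (Fin 16) (Fin 16) ℂ) (A B : Fin 3) (C : Fin 3) :
    ∑ β, S.vec P A β * (S.vec N B β * S.sG C) =
      (if A = B then (P * Nᵀ).trace else 0) • S.sG C
      - ∑ β, (S.vec N B β * S.sG C) * S.vec P A β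
      + Complex.I • ∑ E, (eps C A E : ℂ) • S.bil (Nᵀ * P) B E := by
  have h : ∀ β, S.vec P A β * (S.vec N B β * S.sG C) =
      (if A = B then (P * Nᵀ) β β else 0) • S.sG C
      - (S.vec N B β * S.sG C) * S.vec P A β
      + Complex.I • ∑ E, (eps C A E : ℂ) • (S.vec N B β * S.vec P E β) := by
    intro β
    have e1 := S.vec_anti P N A B β β
    have e2 := S.vec_comm_sG P A β C
    have e3 : S.vec P A β * (S.vec N B β * S.sG C) =
        (S.vec P A β * S.vec N B β + S.vec N B β * S.vec P A β) * S.sG C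
        - (S.vec N B β * S.sG C) * S.vec P A β
        - S.vec N B β * (S.vec P A β * S.sG C - S.sG C * S.vec P A β) := by
      noncomm_ring
    rw [e3, e1, e2, mul_smul_comm, sub_eq_add_neg, ← neg_smul, neg_neg, Finset.mul_sum]
    congr 2
    · by_cases h : A = B <;> simp [h]
    · simp only [mul_smul_comm]
  rw [Finset.sum_congr rfl fun β _ => h β, Finset.sum_add_distrib, Finset.sum_sub_distrib,
    ← Finset.sum_smul, ← Finset.smul_sum]
  congr 1
  · congr 2
    by_cases h : A = B <;> simp [h, Matrix.trace]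
  · congr 1
    rw [Finset.sum_comm]
    refine Finset.sum_congr rfl fun E _ => ?_
    rw [← Finset.smul_sum, S.sum_vec_mul_vec]

/-- `B_β(X)` -/
noncomputable def Bv (X : Fin 9 → Fin 3 → ℂ) (β : Fin 16) : R :=
  ∑ i, ∑ A, X i A • S.vec (S.g i) A β

/-- `M^{S1}` -/
noncomputable def MS (X : Fin 9 → Fin 3 → ℂ) (β : Fin 16) : R :=
  ∑ j, ∑ l, (∑ A, X j A • S.vec (S.g l) A β) * S.Sk j l

/-- `M^{G}` -/
noncomputable def MG (X : Fin 9 → Fin 3 → ℂ) (β : Fin 16) : R :=
  ∑ C, (∑ j, ∑ A, ∑ A', ((eps A A' C : ℂ) * X j A) • S.vec (S.g j) A' β) * S.sG C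

/-- `-M^{IC}` -/
noncomputable def MI (X : Fin 9 → Fin 3 → ℂ) (β : Fin 16) : R :=
  ∑ k, ∑ l, (∑ j, ∑ A, X j A • S.vec (S.g2 k l * S.g j) A β) * S.Sk k l

/-- the multiplier -/
noncomputable def Mv (X : Fin 9 → Fin 3 → ℂ) (β : Fin 16) : R :=
  (1 / 27 : ℂ) • (S.MS X β + (5 : ℂ) • S.MG X β + (4 / 3 : ℂ) • S.MI X β
    - (11 * Complex.I) • S.Bv X β)

lemma Bv_mul_vec (X : Fin 9 → Fin 3 → ℂ) (i : Fin 9) (A : Fin 3) :
    ∑ β, S.Bv X β * S.vec (S.g i) A β = ∑ j, ∑ B, X j B • S.bil (S.g j * S.g i) B A := by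
  simp only [Bv, Finset.sum_mul, smul_mul_assoc]
  rw [Finset.sum_comm]
  refine Finset.sum_congr rfl fun j _ => ?_
  rw [Finset.sum_comm]
  refine Finset.sum_congr rfl fun B _ => ?_
  rw [← Finset.smul_sum, S.sum_vec_mul_vec, S.g_symm]

/-- (P1) for `B` -/
lemma P1B (X : Fin 9 → Fin 3 → ℂ) (i : Fin 9) (A : Fin 3) :
    ∑ β, S.vec (S.g i) A β * S.Bv X β =
      -∑ β, S.Bv X β * S.vec (S.g i) A β + (16 * X i A) • (1 : R) := by
  rw [eq_neg_add_iff_add_eq, ← Finset.sum_add_distrib]
  have h : ∀ β, S.Bv X β * S.vec (S.g i) A β + S.vec (S.g i) A β * S.Bv X β =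
      ∑ j, ∑ B, (if B = A then X j B * (S.g j * S.g i) β β else 0) • (1 : R) := by
    intro β
    simp only [Bv, Finset.sum_mul, Finset.mul_sum, smul_mul_assoc, mul_smul_comm]
    rw [← Finset.sum_add_distrib]
    refine Finset.sum_congr rfl fun j _ => ?_
    rw [← Finset.sum_add_distrib]
    refine Finset.sum_congr rfl fun B _ => ?_
    rw [← smul_add, S.vec_anti, S.g_symm]
    by_cases hB : B = A <;> simp [hB, smul_smul]
  rw [Finset.sum_congr rfl fun β _ => h β, Finset.sum_comm]
  have h2 : ∀ j, ∑ β, ∑ B, (if B = A then X j B * (S.g j * S.g i) β β else 0) • (1 : R) =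
      (if j = i then 16 * X i A else 0) • (1 : R) := by
    intro j
    rw [Finset.sum_comm]
    simp only [← Finset.sum_smul]
    congr 1
    simp only [Finset.sum_ite_irrel, Finset.sum_const_zero, ← Finset.mul_sum, Finset.sum_ite_eq',
      Finset.mem_univ, if_true]
    have : ∑ i_1, (S.g j * S.g i) i_1 i_1 = (S.g j * S.g i).trace := rfl
    rw [this, trace_gg]
    by_cases hj : j = i
    · subst hj; simp [mul_comm]
    · simp [hj]
  rw [Finset.sum_congr rfl fun j _ => h2 j, ← Finset.sum_smul]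
  simp

/-- (P1) for `M^{S1}` -/
lemma P1S (X : Fin 9 → Fin 3 → ℂ) (i : Fin 9) (A : Fin 3) :
    ∑ β, S.vec (S.g i) A β * S.MS X β =
      -∑ β, S.MS X β * S.vec (S.g i) A β
      - (3 * Complex.I) • ∑ β, S.Bv X β * S.vec (S.g i) A β
      + (16 : ℂ) • ∑ j, X j A • S.Sk j i
      + (56 * Complex.I * X i A) • (1 : R)
      - (7 : ℂ) • ∑ B, ∑ C, ((eps C B A : ℂ) * X i B) • S.sG C := by
  have h1 : ∑ β, S.vec (S.g i) A β * S.MS X β = ∑ j, ∑ l, ∑ B, X j B •
      ∑ β, S.vec (S.g i) A β * (S.vec (S.g l) B β * S.Sk j l) := by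
    simp only [MS, Finset.mul_sum, Finset.sum_mul, Finset.smul_sum, smul_mul_assoc,
      mul_smul_comm]
    rw [Finset.sum_comm]
    refine Finset.sum_congr rfl fun j _ => ?_
    rw [Finset.sum_comm]
    refine Finset.sum_congr rfl fun l _ => ?_
    rw [Finset.sum_comm]
  have h2 : ∑ β, S.MS X β * S.vec (S.g i) A β = ∑ j, ∑ l, ∑ B, X j B •
      ∑ β, (S.vec (S.g l) B β * S.Sk j l) * S.vec (S.g i) A β := by
    simp only [MS, Finset.sum_mul, Finset.smul_sum, smul_mul_assoc]
    rw [Finset.sum_comm]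
    refine Finset.sum_congr rfl fun j _ => ?_
    rw [Finset.sum_comm]
    refine Finset.sum_congr rfl fun l _ => ?_
    rw [Finset.sum_comm]
  rw [h1, h2, S.Bv_mul_vec]
  simp only [S.F1S, smul_add, smul_sub, Finset.sum_add_distrib, Finset.sum_sub_distrib,
    S.g_symm]
  have h3 : ∑ j, ∑ l, ∑ B, X j B • (if A = B then (S.g i * S.g l).trace else 0) • S.Sk j l =
      (16 : ℂ) • ∑ j, X j A • S.Sk j i := by
    rw [Finset.smul_sum]
    refine Finset.sum_congr rfl fun j _ => ?_
    simp only [trace_gg, ite_smul, zero_smul, smul_ite, smul_zero, Finset.sum_ite_eq,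
      Finset.mem_univ, if_true]
    rw [smul_comm]
  have h4 : ∑ j, ∑ l, ∑ B, X j B • (Complex.I / 2) •
      S.bil (S.g l * (S.g i * S.g2 j l)) B A =
      -((3 * Complex.I) • ∑ j, ∑ B, X j B • S.bil (S.g j * S.g i) B A) +
      (7 * Complex.I) • ∑ B, X i B • S.bil 1 B A := by
    have e1 : ∀ j, ∑ l, S.g l * (S.g i * S.g2 j l) =
        (-6 : ℂ) • (S.g j * S.g i) + (if j = i then (14:ℂ) else 0) • 1 := by
      intro j
      have e2 : ∀ l, S.g l * (S.g i * S.g2 j l) = S.g l * (S.g i * S.g j) * S.g l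
          - (if j = l then (1:ℂ) else 0) • (S.g l * S.g i) := by
        intro l
        rw [g2_eq, mul_sub, mul_sub, mul_smul_comm, mul_smul_comm, mul_one]
        simp only [mul_assoc]
      rw [Finset.sum_congr rfl fun l _ => e2 l, Finset.sum_sub_distrib]
      have e3 : ∑ l, S.g l * (S.g i * S.g j) * S.g l = S.sand (S.g i * S.g j) := rfl
      rw [e3, sand_gg, S.g_swap i j]
      simp only [ite_smul, one_smul, zero_smul, Finset.sum_ite_eq, Finset.mem_univ, if_true]
      by_cases h : i = j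
      · subst h; simp only [if_true]; module
      · simp only [if_neg h, if_neg (Ne.symm h)]; module
    have e4 : ∑ j, ∑ l, ∑ B, X j B • (Complex.I / 2) •
        S.bil (S.g l * (S.g i * S.g2 j l)) B A =
        ∑ j, ∑ B, X j B • (Complex.I / 2) • S.bil (∑ l, S.g l * (S.g i * S.g2 j l)) B A := by
      refine Finset.sum_congr rfl fun j _ => ?_
      rw [Finset.sum_comm]
      refine Finset.sum_congr rfl fun B _ => ?_
      rw [S.bil_sum, Finset.smul_sum, Finset.smul_sum]
    rw [e4]
    simp only [e1, bil_add, bil_smul, smul_add, Finset.sum_add_distrib]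
    congr 1
    · rw [← neg_smul, Finset.smul_sum]
      refine Finset.sum_congr rfl fun j _ => ?_
      rw [Finset.smul_sum]
      refine Finset.sum_congr rfl fun B _ => ?_
      module
    · rw [Finset.sum_comm, Finset.smul_sum]
      refine Finset.sum_congr rfl fun B _ => ?_
      simp only [ite_smul, zero_smul, smul_ite, smul_zero, Finset.sum_ite_eq', Finset.mem_univ,
        if_true]
      module
  rw [h3, h4]
  have h5 : (7 * Complex.I) • ∑ B, X i B • S.bil 1 B A =
      (56 * Complex.I * X i A) • (1 : R)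
      - (7 : ℂ) • ∑ B, ∑ C, ((eps C B A : ℂ) * X i B) • S.sG C := by
    simp only [S.bil_one_eq, smul_add, Finset.sum_add_distrib]
    rw [sub_eq_add_neg]
    congr 1
    · simp only [ite_smul, zero_smul, smul_ite, smul_zero, Finset.sum_ite_eq, Finset.mem_univ,
        if_true]
      module
    · rw [← neg_smul, Finset.smul_sum, Finset.smul_sum]
      refine Finset.sum_congr rfl fun B _ => ?_
      rw [Finset.smul_sum, Finset.smul_sum, Finset.smul_sum, Finset.smul_sum]
      refine Finset.sum_congr rfl fun C _ => ?_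
      simp only [smul_smul]
      congr 1
      have := Complex.I_mul_I
      linear_combination (7 * X i B * (eps C B A : ℂ)) * this
  rw [h5]
  abel

/-- (P1) for `M^{IC}` (with the sign `MI = -M^{IC}`) -/
lemma P1I (X : Fin 9 → Fin 3 → ℂ) (i : Fin 9) (A : Fin 3) :
    ∑ β, S.vec (S.g i) A β * S.MI X β =
      -∑ β, S.MI X β * S.vec (S.g i) A β
      + (20 * Complex.I) • ∑ β, S.Bv X β * S.vec (S.g i) A β
      - (32 : ℂ) • ∑ j, X j A • S.Sk j i := by
  have h1 : ∑ β, S.vec (S.g i) A β * S.MI X β = ∑ k, ∑ l, ∑ j, ∑ B, X j B •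
      ∑ β, S.vec (S.g i) A β * (S.vec (S.g2 k l * S.g j) B β * S.Sk k l) := by
    simp only [MI, Finset.mul_sum, Finset.sum_mul, Finset.smul_sum, smul_mul_assoc,
      mul_smul_comm]
    rw [Finset.sum_comm]
    refine Finset.sum_congr rfl fun k _ => ?_
    rw [Finset.sum_comm]
    refine Finset.sum_congr rfl fun l _ => ?_
    rw [Finset.sum_comm]
    refine Finset.sum_congr rfl fun j _ => ?_
    rw [Finset.sum_comm]
  have h2 : ∑ β, S.MI X β * S.vec (S.g i) A β = ∑ k, ∑ l, ∑ j, ∑ B, X j B •
      ∑ β, (S.vec (S.g2 k l * S.g j) B β * S.Sk k l) * S.vec (S.g i) A β := by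
    simp only [MI, Finset.sum_mul, Finset.smul_sum, smul_mul_assoc]
    rw [Finset.sum_comm]
    refine Finset.sum_congr rfl fun k _ => ?_
    rw [Finset.sum_comm]
    refine Finset.sum_congr rfl fun l _ => ?_
    rw [Finset.sum_comm]
    refine Finset.sum_congr rfl fun j _ => ?_
    rw [Finset.sum_comm]
  rw [h1, h2, S.Bv_mul_vec]
  have ht : ∀ k l j, (S.g2 k l * S.g j)ᵀ = -(S.g j * S.g2 k l) := by
    intro k l j
    rw [Matrix.transpose_mul, g2_transpose, S.g_symm, mul_neg]
  simp only [S.F1S, smul_add, smul_sub, Finset.sum_add_distrib, Finset.sum_sub_distrib, ht]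
  have h3 : ∑ k, ∑ l, ∑ j, ∑ B, X j B •
      (if A = B then (S.g i * -(S.g j * S.g2 k l)).trace else 0) • S.Sk k l =
      -((32 : ℂ) • ∑ j, X j A • S.Sk j i) := by
    have e : ∀ j k l, (S.g i * -(S.g j * S.g2 k l)).trace =
        -(16 * ((if i = l then 1 else 0) * (if j = k then 1 else 0) -
      (if i = k then 1 else 0) * (if j = l then 1 else 0))) := by
      intro j k l
      rw [mul_neg, Matrix.trace_neg, ← mul_assoc, S.trace_gg_g2]
    simp only [e]
    have e2 : ∀ k l, ∑ j, ∑ B, X j B •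
      (if A = B then (-(16 * ((if i = l then 1 else 0) * (if j = k then 1 else 0) -
      (if i = k then 1 else 0) * (if j = l then 1 else 0))) : ℂ) else 0) • S.Sk k l =
      (if i = l then (-16 * X k A) • S.Sk k l else 0) +
      (if i = k then (16 * X l A) • S.Sk k l else 0) := by
      intro k l
      have : ∀ j B, X j B •
        (if A = B then (-(16 * ((if i = l then 1 else 0) * (if j = k then 1 else 0) -
        (if i = k then 1 else 0) * (if j = l then 1 else 0))) : ℂ) else 0) • S.Sk k l =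
        (if A = B then ((if i = l then (if j = k then (-16 * X j B) • S.Sk k l else 0) else 0) +
          (if i = k then (if j = l then (16 * X j B) • S.Sk k l else 0) else 0)) else 0) := by
        intro j B
        split_ifs <;> simp [smul_smul] <;> ring_nf
      simp only [this, Finset.sum_ite_eq, Finset.mem_univ, if_true, Finset.sum_add_distrib]
      congr 1
      · by_cases h : i = l <;> simp [h]
      · by_cases h : i = k <;> simp [h]
    simp only [e2, Finset.sum_add_distrib, Finset.sum_ite_eq, Finset.mem_univ, if_true]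
    rw [Finset.sum_comm (f := fun x x_1 => if i = x then (16 * X x_1 A) • S.Sk x x_1 else 0)]
    simp only [Finset.sum_ite_eq, Finset.mem_univ, if_true]
    rw [← Finset.sum_add_distrib, Finset.smul_sum, ← Finset.sum_neg_distrib]
    refine Finset.sum_congr rfl fun j _ => ?_
    rw [S.Sk_antisymm i j]
    module
  have h4 : ∑ k, ∑ l, ∑ j, ∑ B, X j B • (Complex.I / 2) •
      S.bil (-(S.g j * S.g2 k l) * (S.g i * S.g2 k l)) B A =
      (20 * Complex.I) • ∑ j, ∑ B, X j B • S.bil (S.g j * S.g i) B A := by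
    have e1 : ∀ j, ∑ k, ∑ l, -(S.g j * S.g2 k l) * (S.g i * S.g2 k l) =
        (40 : ℂ) • (S.g j * S.g i) := by
      intro j
      have e2 : ∀ k l, -(S.g j * S.g2 k l) * (S.g i * S.g2 k l) =
          -(S.g j * (S.g2 k l * S.g i * S.g2 k l)) := by
        intro k l; noncomm_ring
      simp only [e2, Finset.sum_neg_distrib, ← Finset.mul_sum]
      rw [sum_g2_g_g2]
      simp
    have e4 : ∑ k, ∑ l, ∑ j, ∑ B, X j B • (Complex.I / 2) •
        S.bil (-(S.g j * S.g2 k l) * (S.g i * S.g2 k l)) B A =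
        ∑ j, ∑ B, X j B • (Complex.I / 2) •
          S.bil (∑ k, ∑ l, -(S.g j * S.g2 k l) * (S.g i * S.g2 k l)) B A := by
      have : ∀ k, ∑ l, ∑ j, ∑ B, X j B • (Complex.I / 2) •
        S.bil (-(S.g j * S.g2 k l) * (S.g i * S.g2 k l)) B A = ∑ j, ∑ B, ∑ l, X j B •
        (Complex.I / 2) • S.bil (-(S.g j * S.g2 k l) * (S.g i * S.g2 k l)) B A := by
        intro k
        rw [Finset.sum_comm]
        refine Finset.sum_congr rfl fun j _ => ?_
        rw [Finset.sum_comm]
      simp only [this]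
      rw [Finset.sum_comm]
      refine Finset.sum_congr rfl fun j _ => ?_
      rw [Finset.sum_comm]
      refine Finset.sum_congr rfl fun B _ => ?_
      simp only [S.bil_sum, Finset.smul_sum]
    rw [e4]
    simp only [e1, bil_smul, Finset.smul_sum]
    refine Finset.sum_congr rfl fun j _ => Finset.sum_congr rfl fun B _ => ?_
    module
  rw [h3, h4]
  abel

/-- (P1) for `M^{G}` -/
lemma P1G (X : Fin 9 → Fin 3 → ℂ) (i : Fin 9) (A : Fin 3) :
    ∑ β, S.vec (S.g i) A β * S.MG X β =
      -∑ β, S.MG X β * S.vec (S.g i) A β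
      - Complex.I • ∑ β, S.Bv X β * S.vec (S.g i) A β
      - (4 : ℂ) • ∑ j, X j A • S.Sk j i
      + (24 * Complex.I * X i A) • (1 : R)
      + (14 : ℂ) • ∑ B, ∑ C, ((eps C B A : ℂ) * X i B) • S.sG C := by
  have h1 : ∑ β, S.vec (S.g i) A β * S.MG X β = ∑ C, ∑ j, ∑ B, ∑ A', ((eps B A' C : ℂ) * X j B) •
      ∑ β, S.vec (S.g i) A β * (S.vec (S.g j) A' β * S.sG C) := by
    simp only [MG, Finset.mul_sum, Finset.sum_mul, Finset.smul_sum, smul_mul_assoc,
      mul_smul_comm]
    rw [Finset.sum_comm]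
    refine Finset.sum_congr rfl fun C _ => ?_
    rw [Finset.sum_comm]
    refine Finset.sum_congr rfl fun j _ => ?_
    rw [Finset.sum_comm]
    refine Finset.sum_congr rfl fun B _ => ?_
    rw [Finset.sum_comm]
  have h2 : ∑ β, S.MG X β * S.vec (S.g i) A β = ∑ C, ∑ j, ∑ B, ∑ A', ((eps B A' C : ℂ) * X j B) •
      ∑ β, (S.vec (S.g j) A' β * S.sG C) * S.vec (S.g i) A β := by
    simp only [MG, Finset.sum_mul, Finset.smul_sum, smul_mul_assoc]
    rw [Finset.sum_comm]
    refine Finset.sum_congr rfl fun C _ => ?_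
    rw [Finset.sum_comm]
    refine Finset.sum_congr rfl fun j _ => ?_
    rw [Finset.sum_comm]
    refine Finset.sum_congr rfl fun B _ => ?_
    rw [Finset.sum_comm]
  rw [h1, h2, S.Bv_mul_vec]
  simp only [S.F1G, smul_add, smul_sub, Finset.sum_add_distrib, Finset.sum_sub_distrib,
    S.g_symm]
  have h3 : ∑ C, ∑ j, ∑ B, ∑ A', ((eps B A' C : ℂ) * X j B) •
      (if A = A' then (S.g i * S.g j).trace else 0) • S.sG C =
      (16 : ℂ) • ∑ B, ∑ C, ((eps C B A : ℂ) * X i B) • S.sG C := by
    simp only [trace_gg, ite_smul, zero_smul, smul_ite, smul_zero, Finset.sum_ite_eq,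
      Finset.mem_univ, if_true]
    have : ∀ C, ∑ j, ∑ B, (if i = j then ((eps B A C : ℂ) * X j B) • (16:ℂ) • S.sG C else 0) =
        ∑ B, ((eps B A C : ℂ) * X i B) • (16:ℂ) • S.sG C := by
      intro C
      rw [Finset.sum_comm]; simp
    simp only [this]
    rw [Finset.sum_comm, Finset.smul_sum]
    refine Finset.sum_congr rfl fun B _ => ?_
    rw [Finset.smul_sum]
    refine Finset.sum_congr rfl fun C _ => ?_
    rw [eps_cyc B A C, smul_comm]
  have h4 : ∑ C, ∑ j, ∑ B, ∑ A', ((eps B A' C : ℂ) * X j B) •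
      Complex.I • ∑ E, (eps C A E : ℂ) • S.bil (S.g j * S.g i) A' E =
      Complex.I • ∑ j, X j A • S.tot (S.g j * S.g i) -
      Complex.I • ∑ j, ∑ B, X j B • S.bil (S.g j * S.g i) A B := by
    have e1 : ∑ C, ∑ j, ∑ B, ∑ A', ((eps B A' C : ℂ) * X j B) •
      Complex.I • ∑ E, (eps C A E : ℂ) • S.bil (S.g j * S.g i) A' E =
      Complex.I • ∑ j, ∑ B, ∑ A', ∑ E, (X j B * ∑ C, (eps B A' C : ℂ) * (eps C A E : ℂ)) •
        S.bil (S.g j * S.g i) A' E := by
      rw [Finset.sum_comm, Finset.smul_sum]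
      refine Finset.sum_congr rfl fun j _ => ?_
      rw [Finset.sum_comm, Finset.smul_sum]
      refine Finset.sum_congr rfl fun B _ => ?_
      rw [Finset.sum_comm, Finset.smul_sum]
      refine Finset.sum_congr rfl fun A' _ => ?_
      simp only [Finset.smul_sum, Finset.mul_sum, Finset.sum_smul, smul_smul]
      rw [Finset.sum_comm]
      refine Finset.sum_congr rfl fun E _ => Finset.sum_congr rfl fun C _ => ?_
      congr 1; ring
    rw [e1]
    simp only [eps_contr, mul_sub, sub_smul, Finset.sum_sub_distrib, smul_sub]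
    refine congrArg₂ HSub.hSub ?_ ?_
    · refine congrArg (HSMul.hSMul Complex.I) ?_
      refine Finset.sum_congr rfl fun j _ => ?_
      have : ∀ B A' E, (X j B * ((if B = A then 1 else 0) * (if A' = E then 1 else 0))) •
          S.bil (S.g j * S.g i) A' E = if B = A then (if A' = E then X j B •
          S.bil (S.g j * S.g i) A' E else 0) else 0 := by
        intro B A' E; split_ifs <;> simp
      simp only [this, Finset.sum_ite_irrel, Finset.sum_const_zero, Finset.sum_ite_eq,
        Finset.sum_ite_eq', Finset.mem_univ, if_true, tot, Finset.smul_sum]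
    · refine congrArg (HSMul.hSMul Complex.I) ?_
      refine Finset.sum_congr rfl fun j _ => Finset.sum_congr rfl fun B _ => ?_
      have : ∀ A' E, (X j B * ((if B = E then 1 else 0) * (if A' = A then 1 else 0))) •
          S.bil (S.g j * S.g i) A' E = if A' = A then (if B = E then X j B •
          S.bil (S.g j * S.g i) A' E else 0) else 0 := by
        intro A' E; split_ifs <;> simp
      simp only [this, Finset.sum_ite_irrel, Finset.sum_const_zero, Finset.sum_ite_eq,
        Finset.sum_ite_eq', Finset.mem_univ, if_true]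
  have h5 : Complex.I • ∑ j, X j A • S.tot (S.g j * S.g i) =
      -((4 : ℂ) • ∑ j, X j A • S.Sk j i) + (24 * Complex.I * X i A) • (1 : R) := by
    simp only [tot_gg, smul_add, Finset.sum_add_distrib]
    congr 1
    · rw [← neg_smul, Finset.smul_sum, Finset.smul_sum]
      refine Finset.sum_congr rfl fun j _ => ?_
      simp only [smul_smul]
      congr 1
      linear_combination (4 * X j A) * Complex.I_mul_I
    · simp only [ite_smul, zero_smul, smul_ite, smul_zero, Finset.sum_ite_eq', Finset.mem_univ,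
        if_true, smul_smul]
      congr 1; ring
  have h6 : Complex.I • ∑ j, ∑ B, X j B • S.bil (S.g j * S.g i) A B =
      Complex.I • ∑ j, ∑ B, X j B • S.bil (S.g j * S.g i) B A
      + (2 : ℂ) • ∑ B, ∑ C, ((eps C B A : ℂ) * X i B) • S.sG C := by
    have e1 : ∀ j B, S.bil (S.g j * S.g i) A B =
        (if A = B then (if j = i then (16:ℂ) else 0) else 0) • (1 : R)
        - (if j = i then (2:ℂ) else 0) • S.bil 1 B A + S.bil (S.g j * S.g i) B A := by
      intro j B
      rw [S.bil_swap, Matrix.transpose_mul, S.g_symm, S.g_symm, S.g_swap i j, bil_sub, bil_smul,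
        trace_gg]
      have hc : (if i = j then (2:ℂ) else 0) = (if j = i then (2:ℂ) else 0) := by
        simp only [eq_comm]
      rw [hc]
      have hd : (if A = B then (if j = i then (16:ℂ) else 0) • (1 : R) else 0) =
          (if A = B then (if j = i then (16:ℂ) else 0) else 0) • (1 : R) := by
        split_ifs <;> simp
      rw [hd]
      abel
    simp only [e1, smul_add, smul_sub, Finset.sum_add_distrib, Finset.sum_sub_distrib]
    have e2 : ∑ j, ∑ B, X j B • (if A = B then (if j = i then (16:ℂ) else 0) else 0) • (1 : R) =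
        (16 * X i A) • (1 : R) := by
      simp only [ite_smul, zero_smul, smul_ite, smul_zero, Finset.sum_ite_eq, Finset.mem_univ,
        if_true, Finset.sum_ite_eq', smul_smul]
      congr 1; ring
    have e3 : ∑ j, ∑ B, X j B • (if j = i then (2:ℂ) else 0) • S.bil 1 B A =
        (16 * X i A) • (1 : R) + (2 * Complex.I) • ∑ B, ∑ C, ((eps C B A : ℂ) * X i B) • S.sG C := by
      rw [Finset.sum_comm]
      have e31 : ∀ B, ∑ j, X j B • (if j = i then (2:ℂ) else 0) • S.bil 1 B A =
          (2 * X i B) • S.bil 1 B A := by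
        intro B
        simp only [ite_smul, zero_smul, smul_ite, smul_zero, Finset.sum_ite_eq', Finset.mem_univ,
          if_true, smul_smul]
        congr 1; ring
      rw [Finset.sum_congr rfl fun B _ => e31 B]
      simp only [S.bil_one_eq, smul_add, Finset.sum_add_distrib]
      congr 1
      · simp only [ite_smul, zero_smul, smul_ite, smul_zero, Finset.sum_ite_eq, Finset.mem_univ,
          if_true, smul_smul]
        congr 1; ring
      · simp only [Finset.smul_sum, smul_smul]
        refine Finset.sum_congr rfl fun B _ => Finset.sum_congr rfl fun C _ => ?_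
        congr 1; ring
    rw [e2, e3]
    have := Complex.I_mul_I
    rw [smul_add, smul_smul Complex.I (2 * Complex.I)]
    have e4 : Complex.I * (2 * Complex.I) = -2 := by linear_combination 2 * this
    rw [e4]
    module
  rw [h3, h4, h5, h6]
  module

end CS
end Vale.Agent.P353
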