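import Vale.Agent.P353.RotA
import Vale.Agent.P353.Ident

open MeasureTheory Filter Topology
open scoped ContDiff

namespace Vale.Agent.P353

variable {F : Type*} [NormedAddCommGroup F] [InnerProductSpace ℂ F]

lemma hasDerivAt_mul_op {a b : ℝ → F →L[ℂ] F} {a' b' : F →L[ℂ] F} {s : ℝ}
    (ha : HasDerivAt a a' s) (hb : HasDerivAt b b' s) :
    HasDerivAt (fun s => a s * b s) (a s * b' + a' * b s) s := by
  have hB : IsBoundedBilinearMap ℝ (fun p : (F →L[ℂ] F) × (F →L[ℂ] F) => p.1 * p.2) := by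
    refine ⟨fun a b c => by rw [add_mul], fun c a b => by rw [smul_mul_assoc],
      fun a b c => by rw [mul_add], fun c a b => by rw [mul_smul_comm], ?_⟩
    exact ⟨1, one_pos, fun x y => by rw [one_mul]; exact norm_mul_le x y⟩
  have h1 := hB.hasFDerivAt (a s, b s)
  have h2 := ha.prodMk hb
  have h3 := h1.comp_hasDerivAt s h2
  exact h3

lemma hasDerivAt_conj_zero {a X Y : ℝ → F →L[ℂ] F}
    {X' : F →L[ℂ] F} {s : ℝ} (T : F →L[ℂ] F) (ha : HasDerivAt a (T * a s) s)
    (hX : HasDerivAt X X' s)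
    (hY : HasDerivAt Y (-(T * Y s)) s) (hc : T * a s = a s * T) (hX' : X' = X s * T - T * X s) :
    HasDerivAt (fun s => a s * X s * Y s) 0 s := by
  have h := hasDerivAt_mul_op (hasDerivAt_mul_op ha hX) hY
  refine h.congr_deriv ?_
  rw [hc, hX']
  noncomm_ring

namespace Setup

variable [CompleteSpace F] (S : Setup F)

/-- `s_t = exp (i t S_{kl})` -/
noncomputable def st (k l : Fin 9) (t : ℝ) : F →L[ℂ] F :=
  NormedSpace.exp ((t : ℂ) • (Complex.I • S.Skl k l))

lemma hasDerivAt_st (k l : Fin 9) (t : ℝ) :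
    HasDerivAt (S.st k l) ((Complex.I • S.Skl k l) * S.st k l t) t := by
  have h1 := hasDerivAt_exp_smul_const' (𝕂 := ℂ) (Complex.I • S.Skl k l) (t : ℂ)
  have h2 : HasDerivAt (fun s : ℝ => (s : ℂ)) 1 t := Complex.ofRealCLM.hasDerivAt
  have h3 := HasDerivAt.scomp t h1 h2
  rw [one_smul] at h3
  exact h3

lemma st_zero (k l : Fin 9) : S.st k l 0 = 1 := by
  simp [st]

lemma st_add (k l : Fin 9) (s t : ℝ) : S.st k l (s + t) = S.st k l s * S.st k l t := by
  unfold st
  let _ : NormedAlgebra ℚ (F →L[ℂ] F) := NormedAlgebra.restrictScalars ℚ ℂ _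
  rw [← NormedSpace.exp_add_of_commute, ← add_smul]
  · push_cast; rfl
  · exact ((Commute.refl _).smul_left _).smul_right _

lemma st_neg_mul (k l : Fin 9) (t : ℝ) : S.st k l (-t) * S.st k l t = 1 := by
  rw [← st_add, neg_add_cancel, st_zero]

lemma st_mul_neg (k l : Fin 9) (t : ℝ) : S.st k l t * S.st k l (-t) = 1 := by
  rw [← st_add, add_neg_cancel, st_zero]

lemma st_comm (k l : Fin 9) (t : ℝ) : S.Skl k l * S.st k l t = S.st k l t * S.Skl k l := by
  have h : Commute (S.Skl k l) (NormedSpace.exp ((t : ℂ) • (Complex.I • S.Skl k l))) := by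
    apply Commute.exp_right
    exact ((Commute.refl _).smul_right _).smul_right _
  exact h

lemma hasDerivAt_st_neg (k l : Fin 9) (t : ℝ) :
    HasDerivAt (fun s => S.st k l (-s)) (-((Complex.I • S.Skl k l) * S.st k l (-t))) t := by
  have h := HasDerivAt.scomp t (S.hasDerivAt_st k l (-t)) (hasDerivAt_neg t)
  rw [neg_one_smul] at h
  exact h

lemma st_inner (k l : Fin 9) (t : ℝ) (v w : F) :
    inner ℂ (S.st k l t v) (S.st k l t w) = inner ℂ v w := by
  have hd : ∀ v : F, ∀ s : ℝ, HasDerivAt (fun s => S.st k l s v)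
      (((Complex.I • S.Skl k l) * S.st k l s) v) s := by
    intro v s
    have h := S.hasDerivAt_st k l s
    exact ((ContinuousLinearMap.apply ℂ F v).restrictScalars ℝ).hasFDerivAt.comp_hasDerivAt s h
  have hi : ∀ s, HasDerivAt (fun s => inner ℂ (S.st k l s v) (S.st k l s w)) 0 s := by
    intro s
    have h := (hd v s).inner ℂ (hd w s)
    have e : inner ℂ (S.st k l s v) (((Complex.I • S.Skl k l) * S.st k l s) w) +
        inner ℂ (((Complex.I • S.Skl k l) * S.st k l s) v) (S.st k l s w) = 0 := by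
      simp only [mul_apply_eq_comp, _root_.smul_apply, inner_smul_left, inner_smul_right,
        Complex.conj_I, S.Skl_symm]
      ring
    rw [e] at h
    exact h
  have hc := is_const_of_deriv_eq_zero (f := fun s => inner ℂ (S.st k l s v) (S.st k l s w))
    (fun s => (hi s).differentiableAt) (fun s => (hi s).deriv) t 0
  simpa [st_zero] using hc

lemma st_adj (k l : Fin 9) (t : ℝ) (v w : F) :
    inner ℂ (S.st k l t v) w = inner ℂ v (S.st k l (-t) w) := by
  have h := S.st_inner k l t v (S.st k l (-t) w)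
  have e : S.st k l t (S.st k l (-t) w) = w := by
    have := congrArg (fun T : F →L[ℂ] F => T w) (S.st_mul_neg k l t)
    simpa [mul_apply_eq_comp] using this
  rw [e] at h
  exact h

lemma st_norm (k l : Fin 9) (t : ℝ) (v : F) : ‖S.st k l t v‖ = ‖v‖ := by
  have h := S.st_inner k l t v v
  rw [inner_self_eq_norm_sq_to_K, inner_self_eq_norm_sq_to_K] at h
  have h2 : ‖S.st k l t v‖ ^ 2 = ‖v‖ ^ 2 := by exact_mod_cast h
  exact (sq_eq_sq₀ (norm_nonneg _) (norm_nonneg _)).mp h2

/-- the spinor rotation matrix -/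
noncomputable def gt (k l : Fin 9) (t : ℝ) : Matrix (Fin 16) (Fin 16) ℂ :=
  (Real.cos (t / 2) : ℂ) • 1 + (Real.sin (t / 2) : ℂ) • S.g2 k l

omit [CompleteSpace F] in
lemma g2_eq_mul {k l : Fin 9} (h : k ≠ l) : S.g2 k l = S.g k * S.g l := by
  rw [S.g2_eq, if_neg h, zero_smul, sub_zero]

omit [CompleteSpace F] in
lemma g2_sq {k l : Fin 9} (h : k ≠ l) : S.g2 k l * S.g2 k l = -1 := by
  rw [S.g2_eq_mul h]
  have : S.g k * S.g l * (S.g k * S.g l) = S.g k * (S.g l * S.g k) * S.g l := by noncomm_ring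
  rw [this, S.g_swap_ne (Ne.symm h)]
  have : S.g k * -(S.g k * S.g l) * S.g l = -((S.g k * S.g k) * (S.g l * S.g l)) := by noncomm_ring
  rw [this, S.g_sq, S.g_sq, mul_one]

omit [CompleteSpace F] in
lemma hasDerivAt_vec_gt {k l : Fin 9} (h : k ≠ l) (P : Matrix (Fin 16) (Fin 16) ℂ) (A : Fin 3)
    (b : Fin 16) (t : ℝ) : HasDerivAt (fun s => S.vec (P * S.gt k l s) A b)
      ((1 / 2 : ℂ) • S.vec (P * S.gt k l t * S.g2 k l) A b) t := by
  have e : (fun s => S.vec (P * S.gt k l s) A b) = fun s =>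
      Real.cos (s / 2) • S.vec P A b + Real.sin (s / 2) • S.vec (P * S.g2 k l) A b := by
    ext1 s
    simp only [gt, mul_add, Matrix.mul_smul, mul_one, S.vec_add, S.vec_smul]
    rw [Complex.coe_smul, Complex.coe_smul]
  have e2 : (1 / 2 : ℂ) • S.vec (P * S.gt k l t * S.g2 k l) A b =
      (-Real.sin (t / 2) * (1 / 2)) • S.vec P A b +
        (Real.cos (t / 2) * (1 / 2)) • S.vec (P * S.g2 k l) A b := by
    have : P * S.gt k l t * S.g2 k l = (Real.cos (t / 2) : ℂ) • (P * S.g2 k l) +
        (-Real.sin (t / 2) : ℂ) • P := by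
      simp only [gt, mul_add, add_mul, Matrix.mul_smul, Matrix.smul_mul, mul_one]
      rw [mul_assoc, S.g2_sq h]
      simp
    rw [this, S.vec_add, S.vec_smul, S.vec_smul, smul_add, smul_smul, smul_smul]
    simp only [← Complex.coe_smul]
    push_cast
    rw [add_comm]
    congr 2 <;> ring
  rw [e, e2]
  have h1 : HasDerivAt (fun s : ℝ => s / 2) (1 / 2) t := (hasDerivAt_id t).div_const 2
  exact (h1.cos.smul_const (S.vec P A b)).add (h1.sin.smul_const (S.vec (P * S.g2 k l) A b))

/-- `(P θ)_b s_t = s_t (P g_t θ)_b` -/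
lemma vec_mul_st {k l : Fin 9} (h : k ≠ l) (P : Matrix (Fin 16) (Fin 16) ℂ) (A : Fin 3)
    (b : Fin 16) (t : ℝ) :
    S.vec P A b * S.st k l t = S.st k l t * S.vec (P * S.gt k l t) A b := by
  have hφ : ∀ s, HasDerivAt (fun s => S.st k l s * S.vec (P * S.gt k l s) A b * S.st k l (-s))
      0 s := by
    intro s
    refine hasDerivAt_conj_zero (Complex.I • S.Skl k l) (S.hasDerivAt_st k l s)
      (S.hasDerivAt_vec_gt h P A b s) (S.hasDerivAt_st_neg k l s) ?_ ?_
    · rw [smul_mul_assoc, mul_smul_comm, S.st_comm]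
    · have hc := S.vec_comm_Sk (P * S.gt k l s) A b k l
      have hS : S.Sk k l = S.Skl k l := rfl
      rw [hS] at hc
      rw [smul_mul_assoc, mul_smul_comm, ← smul_sub, hc, smul_smul]
      have e3 : Complex.I * (-Complex.I / 2) = 1 / 2 := by
        have := Complex.I_mul_I
        linear_combination (-1 / 2) * this
      rw [e3]
  have hconst := is_const_of_deriv_eq_zero (fun s => (hφ s).differentiableAt)
    (fun s => (hφ s).deriv) t 0
  simp only [neg_zero, st_zero, mul_one, one_mul] at hconst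
  have hg0 : S.gt k l 0 = 1 := by
    simp only [gt, zero_div, Real.cos_zero, Real.sin_zero, Complex.ofReal_one,
      Complex.ofReal_zero, one_smul, zero_smul, add_zero]
  rw [hg0, mul_one] at hconst
  calc S.vec P A b * S.st k l t = S.st k l t * S.vec (P * S.gt k l t) A b * S.st k l (-t) *
        S.st k l t := by rw [hconst]
    _ = S.st k l t * S.vec (P * S.gt k l t) A b := by
        rw [mul_assoc, S.st_neg_mul, mul_one]

end Setup

end Vale.Agent.P353
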