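import Vale.Agent.P353.Defs
import Vale.Agent.P353.RotB

open MeasureTheory Filter Topology
open scoped ContDiff

namespace Vale.Agent.P353

variable {F : Type*} [NormedAddCommGroup F] [InnerProductSpace ℂ F]

/-! ### structure constants of `su(2)` -/

lemma two_anticomm (X Y : Matrix (Fin 2) (Fin 2) ℂ) (hX : X.trace = 0) (hY : Y.trace = 0) :
    X * Y + Y * X = (X * Y).trace • (1 : Matrix (Fin 2) (Fin 2) ℂ) := by
  rw [Matrix.trace_fin_two] at hX hY
  have hX' : X 1 1 = - X 0 0 := by linear_combination hX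
  have hY' : Y 1 1 = - Y 0 0 := by linear_combination hY
  ext i j
  fin_cases i <;> fin_cases j <;>
    simp [Matrix.mul_apply, Fin.sum_univ_two, Matrix.trace_fin_two, hX', hY'] <;> ring

variable (M : Model 2 3 F)

lemma T_anti (A B : Fin 3) : M.T A * M.T B + M.T B * M.T A =
    (if A = B then (1 : ℂ) else 0) • (1 : Matrix (Fin 2) (Fin 2) ℂ) := by
  rw [two_anticomm _ _ (M.T_traceless A) (M.T_traceless B), M.T_orthonormal]

lemma T_sq (A : Fin 3) : M.T A * M.T A = (1 / 2 : ℂ) • (1 : Matrix (Fin 2) (Fin 2) ℂ) := by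
  have h := T_anti M A A
  rw [if_pos rfl, one_smul, ← two_smul ℂ] at h
  rw [← h, smul_smul]
  norm_num

lemma T_swap {A B : Fin 3} (h : A ≠ B) : M.T A * M.T B = -(M.T B * M.T A) := by
  have h1 := T_anti M A B
  rw [if_neg h, zero_smul] at h1
  exact eq_neg_of_add_eq_zero_left h1

lemma f_trace (A B C : Fin 3) : ((M.T A * M.T B - M.T B * M.T A) * M.T C).trace =
    Complex.I * (M.f A B C : ℂ) := by
  rw [M.T_comm, Finset.sum_mul, Matrix.trace_sum]
  simp only [Matrix.smul_mul, Matrix.trace_smul, M.T_orthonormal, smul_eq_mul, mul_ite, mul_one,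
    mul_zero, Finset.sum_ite_eq', Finset.mem_univ, if_true]

lemma f_swap (A B C : Fin 3) : M.f A B C = - M.f B A C := by
  have h1 := f_trace M A B C
  have h2 := f_trace M B A C
  have h3 : ((M.T A * M.T B - M.T B * M.T A) * M.T C).trace =
      -((M.T B * M.T A - M.T A * M.T B) * M.T C).trace := by
    rw [← Matrix.trace_neg, ← Matrix.neg_mul, neg_sub]
  rw [h1, h2] at h3
  have h4 : Complex.I * ((M.f A B C : ℂ) + (M.f B A C : ℂ)) = 0 := by linear_combination h3
  have h5 : ((M.f A B C : ℂ) + (M.f B A C : ℂ)) = 0 := by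
    rcases mul_eq_zero.mp h4 with h | h
    · exact absurd h Complex.I_ne_zero
    · exact h
  have h6 : M.f A B C + M.f B A C = 0 := by exact_mod_cast h5
  linarith

lemma f_cyc (A B C : Fin 3) : M.f A B C = M.f B C A := by
  have h1 := f_trace M A B C
  have h2 := f_trace M B C A
  have h3 : ((M.T A * M.T B - M.T B * M.T A) * M.T C).trace =
      ((M.T B * M.T C - M.T C * M.T B) * M.T A).trace := by
    rw [Matrix.sub_mul, Matrix.sub_mul, Matrix.trace_sub, Matrix.trace_sub]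
    rw [Matrix.trace_mul_cycle (M.T A) (M.T B) (M.T C), Matrix.trace_mul_cycle (M.T B) (M.T C) (M.T A),
      Matrix.trace_mul_cycle (M.T C) (M.T A) (M.T B), Matrix.trace_mul_cycle (M.T B) (M.T A) (M.T C)]
    rw [Matrix.trace_mul_cycle (M.T C) (M.T B) (M.T A), Matrix.trace_mul_cycle (M.T B) (M.T C) (M.T A)]
  rw [h1, h2] at h3
  have h4 : Complex.I * ((M.f A B C : ℂ) - (M.f B C A : ℂ)) = 0 := by linear_combination h3
  have h5 : ((M.f A B C : ℂ) - (M.f B C A : ℂ)) = 0 := by
    rcases mul_eq_zero.mp h4 with h | h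
    · exact absurd h Complex.I_ne_zero
    · exact h
  have h6 : M.f A B C - M.f B C A = 0 := by exact_mod_cast h5
  linarith

lemma f_eq_eps (A B C : Fin 3) : M.f A B C = M.f 0 1 2 * (eps A B C : ℝ) := by
  have s := f_swap M
  have c := f_cyc M
  have hz1 : ∀ A C, M.f A A C = 0 := fun A C => by linarith [s A A C]
  have hz2 : ∀ A B, M.f A B B = 0 := fun A B => by rw [c]; exact hz1 B A
  have hz3 : ∀ A B, M.f A B A = 0 := fun A B => by rw [c]; exact hz2 B A
  have h120 : M.f 1 2 0 = M.f 0 1 2 := (c 0 1 2).symm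
  have h201 : M.f 2 0 1 = M.f 0 1 2 := by rw [c 2 0 1]
  have h102 : M.f 1 0 2 = -M.f 0 1 2 := s 1 0 2
  have h021 : M.f 0 2 1 = -M.f 0 1 2 := by rw [s 0 2 1, h201]
  have h210 : M.f 2 1 0 = -M.f 0 1 2 := by rw [s 2 1 0, h120]
  fin_cases A <;> fin_cases B <;> fin_cases C <;>
    simp [hz1, hz2, hz3, h120, h201, h102, h021, h210, eps]

lemma f_sq : M.f 0 1 2 ^ 2 = 2 := by
  have h1 := M.T_comm 0 1
  have hne : (0 : Fin 3) ≠ 1 := by decide
  have h2 : M.T 0 * M.T 1 - M.T 1 * M.T 0 = (2 : ℂ) • (M.T 0 * M.T 1) := by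
    rw [T_swap M hne, two_smul]; abel
  have h3 : ∑ C, (Complex.I * (M.f 0 1 C : ℂ)) • M.T C = (Complex.I * (M.f 0 1 2 : ℂ)) • M.T 2 := by
    rw [Fin.sum_univ_three, f_eq_eps M 0 1 0, f_eq_eps M 0 1 1]
    simp [eps]
  rw [h2, h3] at h1
  have h4 := congrArg (fun X => (X * X).trace) h1
  simp only [smul_mul_smul_comm, Matrix.trace_smul, T_sq, Matrix.trace_one] at h4
  have h5 : M.T 0 * M.T 1 * (M.T 0 * M.T 1) = -((1 / 4 : ℂ) • (1 : Matrix (Fin 2) (Fin 2) ℂ)) := by
    calc M.T 0 * M.T 1 * (M.T 0 * M.T 1) = M.T 0 * (M.T 1 * M.T 0) * M.T 1 := by noncomm_ring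
      _ = M.T 0 * (-(M.T 0 * M.T 1)) * M.T 1 := by rw [T_swap M hne.symm]
      _ = -((M.T 0 * M.T 0) * (M.T 1 * M.T 1)) := by noncomm_ring
      _ = _ := by
        rw [T_sq, T_sq, smul_mul_smul_comm, one_mul]
        norm_num
  rw [h5, Matrix.trace_neg, Matrix.trace_smul, Matrix.trace_one] at h4
  simp only [Fintype.card_fin, smul_eq_mul] at h4
  have hI := Complex.I_mul_I
  have h6 : ((M.f 0 1 2 : ℂ)) ^ 2 = 2 := by
    push_cast at h4
    linear_combination h4 + (M.f 0 1 2 : ℂ) ^ 2 * hI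
  exact_mod_cast h6

theorem f_eq : ∃ κ : ℝ, κ ^ 2 = 2 ∧ ∀ A B C, M.f A B C = κ * (eps A B C : ℝ) :=
  ⟨M.f 0 1 2, f_sq M, f_eq_eps M⟩

/-! ### one-parameter subgroups of `SU(2)` -/

/-- `cos a + i √2 sin a T_C` -/
noncomputable def Us (C : Fin 3) (a : ℝ) : Matrix (Fin 2) (Fin 2) ℂ :=
  (Real.cos a : ℂ) • 1 + (Complex.I * (Real.sqrt 2 : ℂ) * (Real.sin a : ℂ)) • M.T C

lemma sqrt2_sq : ((Real.sqrt 2 : ℝ) : ℂ) * ((Real.sqrt 2 : ℝ) : ℂ) = 2 := by
  rw [← Complex.ofReal_mul, Real.mul_self_sqrt (by norm_num)]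
  norm_num

lemma Us_mul (C : Fin 3) (a b : ℝ) : Us M C a * Us M C b = Us M C (a + b) := by
  have hI := Complex.I_mul_I
  have h2 := sqrt2_sq
  simp only [Us, add_mul, mul_add, Matrix.smul_mul, Matrix.mul_smul, one_mul, mul_one, T_sq,
    Real.cos_add, Real.sin_add]
  have e : Complex.I * (Real.sqrt 2 : ℂ) * (Real.sin a : ℂ) *
      (Complex.I * (Real.sqrt 2 : ℂ) * (Real.sin b : ℂ)) = -2 * (Real.sin a : ℂ) * (Real.sin b : ℂ) := by
    linear_combination (Real.sin a : ℂ) * (Real.sin b : ℂ) * (Real.sqrt 2 : ℂ) *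
      (Real.sqrt 2 : ℂ) * hI - (Real.sin a : ℂ) * (Real.sin b : ℂ) * h2
  simp only [smul_smul]
  rw [show Complex.I * (Real.sqrt 2 : ℂ) * (Real.sin b : ℂ) *
      (Complex.I * (Real.sqrt 2 : ℂ) * (Real.sin a : ℂ) * (1 / 2)) =
      (Complex.I * (Real.sqrt 2 : ℂ) * (Real.sin a : ℂ) *
      (Complex.I * (Real.sqrt 2 : ℂ) * (Real.sin b : ℂ))) * (1 / 2) by ring, e]
  push_cast
  module

lemma Us_zero (C : Fin 3) : Us M C 0 = 1 := by
  simp [Us]

lemma Us_star (C : Fin 3) (a : ℝ) : (Us M C a).conjTranspose = Us M C (-a) := by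
  simp only [Us, Matrix.conjTranspose_add, Matrix.conjTranspose_smul, Matrix.conjTranspose_one,
    M.T_hermitian, Real.cos_neg, Real.sin_neg]
  congr 1
  · congr 1
    rw [RCLike.star_def, Complex.conj_ofReal]
  · congr 1
    simp only [RCLike.star_def, map_mul, Complex.conj_I, Complex.conj_ofReal]
    push_cast
    ring

lemma T_det (C : Fin 3) : (M.T C) 0 0 * (M.T C) 1 1 - (M.T C) 0 1 * (M.T C) 1 0 = -(1 / 2) := by
  have h1 := T_sq M C
  have h2 := M.T_traceless C
  rw [Matrix.trace_fin_two] at h2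
  have h3 := congrFun (congrFun h1 0) 0
  simp only [Matrix.mul_apply, Fin.sum_univ_two, Matrix.smul_apply, Matrix.one_apply_eq,
    smul_eq_mul, mul_one] at h3
  linear_combination (M.T C) 0 0 * h2 - h3

lemma Us_det (C : Fin 3) (a : ℝ) : (Us M C a).det = 1 := by
  have h1 := T_det M C
  have h2 := M.T_traceless C
  rw [Matrix.trace_fin_two] at h2
  rw [Matrix.det_fin_two]
  simp only [Us, Matrix.add_apply, Matrix.smul_apply, smul_eq_mul, Matrix.one_apply_eq]
  have h01 : (1 : Matrix (Fin 2) (Fin 2) ℂ) 0 1 = 0 := by simp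
  have h10 : (1 : Matrix (Fin 2) (Fin 2) ℂ) 1 0 = 0 := by simp
  rw [h01, h10]
  have hI := Complex.I_mul_I
  have hs := sqrt2_sq
  have hcs : (Real.cos a : ℂ) ^ 2 + (Real.sin a : ℂ) ^ 2 = 1 := by
    have := Real.sin_sq_add_cos_sq a
    rw [add_comm] at this
    exact_mod_cast this
  set z := Complex.I * (Real.sqrt 2 : ℂ) * (Real.sin a : ℂ) with hz
  have hz2 : z * z = -2 * (Real.sin a : ℂ) ^ 2 := by
    rw [hz]
    linear_combination (Real.sin a : ℂ) ^ 2 * (Real.sqrt 2 : ℂ) *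
      (Real.sqrt 2 : ℂ) * hI - (Real.sin a : ℂ) ^ 2 * hs
  linear_combination hcs + (Real.cos a : ℂ) * z * h2 + z * z * h1 - (1 / 2) * hz2

/-- the element of `SU(2)` -/
noncomputable def Wg (C : Fin 3) (a : ℝ) : Matrix.specialUnitaryGroup (Fin 2) ℂ :=
  ⟨Us M C a, by
    rw [Matrix.mem_specialUnitaryGroup_iff]
    refine ⟨?_, Us_det M C a⟩
    rw [Matrix.mem_unitaryGroup_iff, Matrix.star_eq_conjTranspose, Us_star, Us_mul, add_neg_cancel,
      Us_zero]⟩

lemma Wg_mul (C : Fin 3) (a b : ℝ) : Wg M C a * Wg M C b = Wg M C (a + b) :=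
  Subtype.ext (Us_mul M C a b)

lemma Wg_zero (C : Fin 3) : Wg M C 0 = 1 := Subtype.ext (Us_zero M C)

lemma conj_T (C A : Fin 3) (a : ℝ) : Us M C a * M.T A * (Us M C a).conjTranspose =
    (Real.cos (2 * a) : ℂ) • M.T A - ((Real.sqrt 2 / 2 * Real.sin (2 * a) : ℝ) : ℂ) •
      (∑ B, (M.f C A B : ℂ) • M.T B) +
      ((1 - Real.cos (2 * a) : ℝ) : ℂ) • (if A = C then M.T C else 0) := by
  rw [Us_star]
  have hI := Complex.I_mul_I
  have hs := sqrt2_sq
  have hcomm : M.T C * M.T A - M.T A * M.T C = Complex.I • ∑ B, (M.f C A B : ℂ) • M.T B := by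
    rw [M.T_comm, Finset.smul_sum]
    simp only [smul_smul]
  have hcos : (Real.cos (2 * a) : ℂ) = (Real.cos a : ℂ) ^ 2 - (Real.sin a : ℂ) ^ 2 := by
    rw [Real.cos_two_mul']; push_cast; ring
  have hcs : (Real.cos a : ℂ) ^ 2 + (Real.sin a : ℂ) ^ 2 = 1 := by
    have := Real.sin_sq_add_cos_sq a
    rw [add_comm] at this
    exact_mod_cast this
  have hsin : (Real.sin (2 * a) : ℂ) = 2 * (Real.sin a : ℂ) * (Real.cos a : ℂ) := by
    rw [Real.sin_two_mul]; push_cast; ring
  have e1 : Us M C a * M.T A * Us M C (-a) = ((Real.cos a : ℂ) ^ 2) • M.T A +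
      ((Real.cos a : ℂ) * (Complex.I * (Real.sqrt 2 : ℂ) * (Real.sin a : ℂ))) •
        (M.T C * M.T A - M.T A * M.T C) + (2 * (Real.sin a : ℂ) ^ 2) • (M.T C * M.T A * M.T C) := by
    simp only [Us, add_mul, mul_add, Matrix.smul_mul, Matrix.mul_smul, one_mul, mul_one,
      Real.cos_neg, Real.sin_neg, smul_smul, smul_sub]
    have hz : Complex.I * (Real.sqrt 2 : ℂ) * ((-Real.sin a : ℝ) : ℂ) *
        (Complex.I * (Real.sqrt 2 : ℂ) * (Real.sin a : ℂ)) = 2 * (Real.sin a : ℂ) ^ 2 := by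
      push_cast
      linear_combination -(Complex.sin a) ^ 2 * (Real.sqrt 2 : ℂ) *
        (Real.sqrt 2 : ℂ) * hI + (Complex.sin a) ^ 2 * hs
    rw [hz]
    push_cast
    module
  rw [e1, hcomm, smul_smul]
  have e2 : (Real.cos a : ℂ) * (Complex.I * (Real.sqrt 2 : ℂ) * (Real.sin a : ℂ)) * Complex.I =
      -((Real.sqrt 2 / 2 * Real.sin (2 * a) : ℝ) : ℂ) := by
    rw [Complex.ofReal_mul, hsin]
    push_cast
    linear_combination (Complex.cos a) * (Real.sqrt 2 : ℂ) * (Complex.sin a) * hI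
  rw [e2]
  by_cases h : A = C
  · subst h
    rw [if_pos rfl]
    have e3 : M.T A * M.T A * M.T A = (1 / 2 : ℂ) • M.T A := by
      rw [T_sq, Matrix.smul_mul, one_mul]
    rw [e3, smul_smul]
    have e4 : ((1 - Real.cos (2 * a) : ℝ) : ℂ) = 1 - (Real.cos (2 * a) : ℂ) := by push_cast; ring
    rw [e4, hcos]
    have e5 : (Real.cos a : ℂ) ^ 2 + 2 * (Real.sin a : ℂ) ^ 2 * (1 / 2) =
        (Real.cos a : ℂ) ^ 2 - (Real.sin a : ℂ) ^ 2 +
        (1 - ((Real.cos a : ℂ) ^ 2 - (Real.sin a : ℂ) ^ 2)) := by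
      linear_combination hcs
    linear_combination (norm := module) e5 • M.T A
  · rw [if_neg h]
    have e3 : M.T C * M.T A * M.T C = -((1 / 2 : ℂ) • M.T A) := by
      rw [mul_assoc, T_swap M h, mul_neg, ← mul_assoc, T_sq, Matrix.smul_mul, one_mul]
    rw [e3, hcos]
    module

/-- matrix elements of the adjoint action of `Wg` -/
noncomputable def aco (C B A : Fin 3) (a : ℝ) : ℝ :=
  Real.cos (2 * a) * (if A = B then 1 else 0) - Real.sqrt 2 / 2 * Real.sin (2 * a) * M.f C A B +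
    (1 - Real.cos (2 * a)) * (if A = C ∧ B = C then 1 else 0)

lemma adCoeff_Wg (C B A : Fin 3) (a : ℝ) : adCoeff M.T (Wg M C a) B A = aco M C B A a := by
  have h1 : ((Wg M C a : Matrix.specialUnitaryGroup (Fin 2) ℂ) : Matrix (Fin 2) (Fin 2) ℂ) =
      Us M C a := rfl
  rw [adCoeff, h1, conj_T]
  have h2 : (M.T B * ((Real.cos (2 * a) : ℂ) • M.T A -
      ((Real.sqrt 2 / 2 * Real.sin (2 * a) : ℝ) : ℂ) • (∑ B, (M.f C A B : ℂ) • M.T B) +
      ((1 - Real.cos (2 * a) : ℝ) : ℂ) • (if A = C then M.T C else 0))).trace =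
      ((aco M C B A a : ℝ) : ℂ) := by
    have t1 : ∀ D, (M.T B * M.T D).trace = if B = D then 1 else 0 := M.T_orthonormal B
    simp only [mul_add, mul_sub, Matrix.mul_smul, Finset.mul_sum, Matrix.trace_add,
      Matrix.trace_sub, Matrix.trace_smul, Matrix.trace_sum, t1, smul_eq_mul, mul_ite, mul_one,
      mul_zero, Finset.sum_ite_eq, Finset.mem_univ, if_true]
    have t2 : (if A = C then M.T B * M.T C else 0).trace = if A = C ∧ B = C then 1 else 0 := by
      by_cases h : A = C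
      · simp only [h, if_true, true_and, t1]
      · simp [h]
    rw [aco, t2]
    have t3 : (if B = A then (Real.cos (2 * a) : ℂ) else 0) =
        (Real.cos (2 * a) : ℂ) * ((if A = B then (1 : ℝ) else 0 : ℝ) : ℂ) := by
      by_cases h : A = B
      · simp [h]
      · simp [h, Ne.symm h]
    have t4 : (if A = C ∧ B = C then (1 : ℂ) else 0) =
        ((if A = C ∧ B = C then (1 : ℝ) else 0 : ℝ) : ℂ) := by
      by_cases h : A = C ∧ B = C <;> simp [h]
    rw [t3, t4]
    push_cast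
    ring
  rw [h2, Complex.ofReal_re]

/-! ### the action on the Fock space -/

section Fock

/-- the generator `Z_C = (1/2) f_{CDE} θ_{αD} θ_{αE}` -/
noncomputable def Zg (C : Fin 3) : F →L[ℂ] F :=
  (1 / 2 : ℂ) • ∑ α, ∑ D, ∑ E, (M.f C D E : ℂ) • (M.θ α D * M.θ α E)

lemma Zg_comm (C : Fin 3) (α : Fin 16) (A : Fin 3) :
    Zg M C * M.θ α A - M.θ α A * Zg M C = -∑ B, (M.f C A B : ℂ) • M.θ α B := by
  have h1 : ∀ β D E, M.θ β D * M.θ β E * M.θ α A - M.θ α A * (M.θ β D * M.θ β E) =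
      (if β = α ∧ E = A then M.θ β D else 0) - (if α = β ∧ A = D then M.θ β E else 0) := by
    intro β D E
    have e1 := M.θ_anticomm β E α A
    have e2 := M.θ_anticomm α A β D
    have e3 : M.θ β D * M.θ β E * M.θ α A - M.θ α A * (M.θ β D * M.θ β E) =
        M.θ β D * (M.θ β E * M.θ α A + M.θ α A * M.θ β E) -
        (M.θ α A * M.θ β D + M.θ β D * M.θ α A) * M.θ β E := by noncomm_ring
    rw [e3, e1, e2]
    simp only [mul_ite, ite_mul, mul_one, one_mul, mul_zero, zero_mul]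
  have h2 : Zg M C * M.θ α A - M.θ α A * Zg M C = (1 / 2 : ℂ) • ∑ β, ∑ D, ∑ E, (M.f C D E : ℂ) •
      ((if β = α ∧ E = A then M.θ β D else 0) - (if α = β ∧ A = D then M.θ β E else 0)) := by
    simp only [← h1, Zg, smul_mul_assoc, mul_smul_comm, Finset.sum_mul, Finset.mul_sum,
      ← smul_sub, ← Finset.sum_sub_distrib]
  rw [h2]
  have h3 : ∀ β, ∑ D, ∑ E, (M.f C D E : ℂ) •
      ((if β = α ∧ E = A then M.θ β D else 0) - (if α = β ∧ A = D then M.θ β E else 0)) =
      if β = α then -((2 : ℂ) • ∑ B, (M.f C A B : ℂ) • M.θ α B) else 0 := by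
    intro β
    by_cases hb : β = α
    · subst hb
      simp only [true_and, if_true, smul_sub, Finset.sum_sub_distrib, smul_ite, smul_zero,
        Finset.sum_ite_eq', Finset.mem_univ]
      have a1 : ∑ D, ∑ E, (if A = D then (M.f C D E : ℂ) • M.θ β E else 0) =
          ∑ E, (M.f C A E : ℂ) • M.θ β E := by
        rw [Finset.sum_comm]
        refine Finset.sum_congr rfl fun E _ => ?_
        simp
      rw [a1]
      have a2 : ∑ D, (M.f C D A : ℂ) • M.θ β D = -∑ D, (M.f C A D : ℂ) • M.θ β D := by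
        rw [← Finset.sum_neg_distrib]
        refine Finset.sum_congr rfl fun D _ => ?_
        have : M.f C D A = - M.f C A D := by
          rw [f_cyc M C D A, f_cyc M C A D, f_swap M D A C]
        rw [this]
        push_cast
        rw [neg_smul]
      rw [a2, two_smul]
      abel
    · have hb' : ¬ α = β := fun h => hb h.symm
      simp [hb, hb']
  simp only [h3, Finset.sum_ite_eq', Finset.mem_univ, if_true]
  rw [smul_neg, smul_smul]
  norm_num

variable [CompleteSpace F]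

/-- `exp (√2 a Z_C)` -/
noncomputable def Eg (C : Fin 3) (a : ℝ) : F →L[ℂ] F :=
  NormedSpace.exp ((a : ℂ) • ((Real.sqrt 2 : ℂ) • Zg M C))

lemma hasDerivAt_Eg (C : Fin 3) (a : ℝ) :
    HasDerivAt (Eg M C) (((Real.sqrt 2 : ℂ) • Zg M C) * Eg M C a) a := by
  have h1 := hasDerivAt_exp_smul_const' (𝕂 := ℂ) ((Real.sqrt 2 : ℂ) • Zg M C) (a : ℂ)
  have h2 : HasDerivAt (fun s : ℝ => (s : ℂ)) 1 a := Complex.ofRealCLM.hasDerivAt
  have h3 := HasDerivAt.scomp a h1 h2
  rw [one_smul] at h3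
  exact h3

lemma Eg_zero (C : Fin 3) : Eg M C 0 = 1 := by
  simp [Eg]

lemma Eg_add (C : Fin 3) (s t : ℝ) : Eg M C (s + t) = Eg M C s * Eg M C t := by
  unfold Eg
  let _ : NormedAlgebra ℚ (F →L[ℂ] F) := NormedAlgebra.restrictScalars ℚ ℂ _
  rw [← NormedSpace.exp_add_of_commute, ← add_smul]
  · push_cast; rfl
  · exact ((Commute.refl _).smul_left _).smul_right _

lemma Eg_comm (C : Fin 3) (a : ℝ) : ((Real.sqrt 2 : ℂ) • Zg M C) * Eg M C a =
    Eg M C a * ((Real.sqrt 2 : ℂ) • Zg M C) := by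
  have h : Commute ((Real.sqrt 2 : ℂ) • Zg M C)
      (NormedSpace.exp ((a : ℂ) • ((Real.sqrt 2 : ℂ) • Zg M C))) := by
    apply Commute.exp_right
    exact (Commute.refl _).smul_right _
  exact h

lemma hasDerivAt_Eg_neg (C : Fin 3) (a : ℝ) :
    HasDerivAt (fun s => Eg M C (-s)) (-(((Real.sqrt 2 : ℂ) • Zg M C) * Eg M C (-a))) a := by
  have h := HasDerivAt.scomp a (hasDerivAt_Eg M C (-a)) (hasDerivAt_neg a)
  rw [neg_one_smul] at h
  exact h

/-- rotated generator -/
noncomputable def Xg (C : Fin 3) (α : Fin 16) (A : Fin 3) (a : ℝ) : F →L[ℂ] F :=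
  ∑ B, ((aco M C B A a : ℝ) : ℂ) • M.θ α B

omit [CompleteSpace F] in
lemma ff_contr (C A D : Fin 3) : ∑ B, M.f C A B * M.f C B D =
    -2 * ((if A = D then 1 else 0) - (if A = C ∧ D = C then 1 else 0)) := by
  have h2 := f_sq M
  have e := f_eq_eps M
  have h : ∀ C A D : Fin 3, ∑ B, eps C A B * eps C B D =
      -((if A = D then 1 else 0) - (if A = C ∧ D = C then 1 else 0)) := by decide
  have h' : ∑ B, M.f C A B * M.f C B D = M.f 0 1 2 ^ 2 * ((∑ B, eps C A B * eps C B D : ℤ) : ℝ) := by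
    push_cast
    rw [Finset.mul_sum]
    refine Finset.sum_congr rfl fun B _ => ?_
    rw [e C A B, e C B D]
    ring
  rw [h', h, h2]
  push_cast
  ring

omit [CompleteSpace F] in
lemma hasDerivAt_aco (C B A : Fin 3) (a : ℝ) : HasDerivAt (aco M C B A)
    (-(Real.sqrt 2 * ∑ D, aco M C D A a * M.f C D B)) a := by
  have h1 : HasDerivAt (fun s : ℝ => 2 * s) 2 a := by
    simpa using (hasDerivAt_id a).const_mul 2
  have h2 : HasDerivAt (aco M C B A) ((-Real.sin (2 * a) * 2) * (if A = B then 1 else 0) -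
      Real.sqrt 2 / 2 * (Real.cos (2 * a) * 2) * M.f C A B +
      (0 - (-Real.sin (2 * a) * 2)) * (if A = C ∧ B = C then 1 else 0)) a := by
    unfold aco
    exact (((h1.cos).mul_const _).sub (((h1.sin).const_mul _).mul_const _)).add
      (((hasDerivAt_const a (1 : ℝ)).sub h1.cos).mul_const _)
  refine h2.congr_deriv ?_
  have h3 : ∑ D, aco M C D A a * M.f C D B = Real.cos (2 * a) * M.f C A B -
      Real.sqrt 2 / 2 * Real.sin (2 * a) * ∑ D, M.f C A D * M.f C D B := by
    simp only [aco, add_mul, sub_mul, Finset.sum_add_distrib, Finset.sum_sub_distrib]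
    have b1 : ∑ D, Real.cos (2 * a) * (if A = D then 1 else 0) * M.f C D B =
        Real.cos (2 * a) * M.f C A B := by
      rw [Finset.sum_eq_single A]
      · simp
      · intro D _ hD; simp [Ne.symm hD]
      · intro h; exact absurd (Finset.mem_univ _) h
    have b2 : ∑ D, (1 * (if A = C ∧ D = C then (1 : ℝ) else 0) * M.f C D B -
        Real.cos (2 * a) * (if A = C ∧ D = C then 1 else 0) * M.f C D B) = 0 := by
      refine Finset.sum_eq_zero fun D _ => ?_
      by_cases h : A = C ∧ D = C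
      · have : M.f C D B = 0 := by
          rw [h.2]
          have := f_swap M C C B
          linarith
        rw [this]; ring
      · simp [h]
    have b3 : ∑ D, Real.sqrt 2 / 2 * Real.sin (2 * a) * M.f C A D * M.f C D B =
        Real.sqrt 2 / 2 * Real.sin (2 * a) * ∑ D, M.f C A D * M.f C D B := by
      rw [Finset.mul_sum]
      refine Finset.sum_congr rfl fun D _ => ?_
      ring
    simp only [Finset.sum_sub_distrib] at b2
    rw [b1, b3]
    linarith [b2]
  rw [h3, ff_contr]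
  have hs : Real.sqrt 2 * Real.sqrt 2 = 2 := Real.mul_self_sqrt (by norm_num)
  linear_combination (Real.sin (2 * a)) * ((if A = B then (1 : ℝ) else 0) -
    (if A = C ∧ B = C then 1 else 0)) * hs

lemma Xg_Eg (C : Fin 3) (α : Fin 16) (A : Fin 3) (a : ℝ) :
    Eg M C (-a) * Xg M C α A a * Eg M C a = M.θ α A := by
  have hX : ∀ s, HasDerivAt (Xg M C α A) (Xg M C α A s * (-((Real.sqrt 2 : ℂ) • Zg M C)) -
      (-((Real.sqrt 2 : ℂ) • Zg M C)) * Xg M C α A s) s := by
    intro s
    have h1 : HasDerivAt (Xg M C α A) (∑ B, (-(Real.sqrt 2 * ∑ D, aco M C D A s * M.f C D B)) •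
        M.θ α B) s := by
      have e : Xg M C α A = fun a => ∑ B, (aco M C B A a) • M.θ α B := by
        ext1 a
        simp only [Xg, Complex.coe_smul]
      rw [e]
      exact HasDerivAt.fun_sum fun B _ => (hasDerivAt_aco M C B A s).smul_const (M.θ α B)
    refine h1.congr_deriv ?_
    have h2 : Xg M C α A s * (-((Real.sqrt 2 : ℂ) • Zg M C)) -
        (-((Real.sqrt 2 : ℂ) • Zg M C)) * Xg M C α A s =
        (Real.sqrt 2 : ℂ) • ∑ D, ((aco M C D A s : ℝ) : ℂ) • (Zg M C * M.θ α D - M.θ α D * Zg M C) := by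
      simp only [Xg, mul_neg, neg_mul, Finset.sum_mul, Finset.mul_sum,
        smul_mul_assoc, mul_smul_comm, smul_sub, Finset.sum_sub_distrib, Finset.smul_sum]
      simp only [smul_neg, Finset.sum_neg_distrib, sub_neg_eq_add]
      rw [neg_add_eq_sub]
      congr 1
      refine Finset.sum_congr rfl fun D _ => ?_
      rw [smul_comm]
    rw [h2]
    simp only [Zg_comm, smul_neg, Finset.sum_neg_distrib, Finset.smul_sum, smul_smul]
    rw [Finset.sum_comm, ← Finset.sum_neg_distrib]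
    refine Finset.sum_congr rfl fun B _ => ?_
    rw [← Finset.sum_smul, ← neg_smul, ← Complex.coe_smul]
    congr 1
    push_cast
    rw [Finset.mul_sum]
  have hφ : ∀ s, HasDerivAt (fun s => Eg M C (-s) * Xg M C α A s * Eg M C s) 0 s := by
    intro s
    refine hasDerivAt_conj_zero (-((Real.sqrt 2 : ℂ) • Zg M C)) ?_ (hX s) ?_ ?_ rfl
    · have := hasDerivAt_Eg_neg M C s
      rwa [← neg_mul] at this
    · have := hasDerivAt_Eg M C s
      rwa [neg_mul, neg_neg]
    · rw [neg_mul, mul_neg, Eg_comm]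
  have hconst := is_const_of_deriv_eq_zero (fun s => (hφ s).differentiableAt)
    (fun s => (hφ s).deriv) a 0
  simp only [neg_zero, Eg_zero, mul_one, one_mul] at hconst
  rw [hconst]
  have h0 : ∀ B, aco M C B A 0 = if A = B then 1 else 0 := by
    intro B; simp [aco]
  simp only [Xg, h0]
  rw [Finset.sum_eq_single A]
  · simp
  · intro B _ hB; simp [Ne.symm hB]
  · intro h; exact absurd (Finset.mem_univ _) h

lemma Eg_neg_mul (C : Fin 3) (a : ℝ) : Eg M C (-a) * Eg M C a = 1 := by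
  rw [← Eg_add, neg_add_cancel, Eg_zero]

lemma Eg_mul_neg (C : Fin 3) (a : ℝ) : Eg M C a * Eg M C (-a) = 1 := by
  rw [← Eg_add, add_neg_cancel, Eg_zero]

omit [CompleteSpace F] in
/-- Schur's lemma -/
lemma schur [FiniteDimensional ℂ F] (K : F →L[ℂ] F) (hK : ∀ α A, K * M.θ α A = M.θ α A * K) :
    ∃ μ : ℂ, K = μ • (1 : F →L[ℂ] F) := by
  have : Nontrivial F := by
    obtain ⟨v, hv⟩ := M.nontrivial
    exact ⟨v, 0, hv⟩
  obtain ⟨μ, hμ⟩ := Module.End.exists_eigenvalue (K : F →ₗ[ℂ] F)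
  refine ⟨μ, ?_⟩
  have hinv : ∀ α A, ∀ v ∈ Module.End.eigenspace (K : F →ₗ[ℂ] F) μ,
      M.θ α A v ∈ Module.End.eigenspace (K : F →ₗ[ℂ] F) μ := by
    intro α A v hv
    rw [Module.End.mem_eigenspace_iff] at hv ⊢
    have h1 := congrArg (fun T : F →L[ℂ] F => T v) (hK α A)
    simp only [mul_apply_eq_comp] at h1
    have hv' : K v = μ • v := hv
    change K (M.θ α A v) = μ • M.θ α A v
    rw [h1, hv', map_smul]
  rcases M.θ_irreducible _ hinv with h | h
  · exact absurd h hμ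
  · ext v
    have hv : v ∈ Module.End.eigenspace (K : F →ₗ[ℂ] F) μ := by rw [h]; trivial
    rw [Module.End.mem_eigenspace_iff] at hv
    exact hv

omit [CompleteSpace F] in
lemma S_mul_theta (C : Fin 3) (a : ℝ) (α : Fin 16) (A : Fin 3) :
    M.S (Wg M C a) * M.θ α A = Xg M C α A a * M.S (Wg M C a) := by
  rw [M.S_rotates]
  simp only [Xg, adCoeff_Wg, Finset.sum_mul, smul_mul_assoc]

lemma exists_lambda [FiniteDimensional ℂ F] (C : Fin 3) (a : ℝ) :
    ∃ μ : ℂ, M.S (Wg M C a) = μ • Eg M C a := by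
  obtain ⟨μ, hμ⟩ := schur M (Eg M C (-a) * M.S (Wg M C a)) (by
    intro α A
    rw [mul_assoc, S_mul_theta, ← mul_assoc]
    have h := Xg_Eg M C α A a
    have h2 : Eg M C (-a) * Xg M C α A a = M.θ α A * Eg M C (-a) := by
      calc Eg M C (-a) * Xg M C α A a = Eg M C (-a) * Xg M C α A a * (Eg M C a * Eg M C (-a)) := by
            rw [Eg_mul_neg, mul_one]
        _ = (Eg M C (-a) * Xg M C α A a * Eg M C a) * Eg M C (-a) := by
            simp only [mul_assoc]
        _ = _ := by rw [h]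
    rw [h2, mul_assoc])
  refine ⟨μ, ?_⟩
  calc M.S (Wg M C a) = (Eg M C a * Eg M C (-a)) * M.S (Wg M C a) := by
        rw [Eg_mul_neg, one_mul]
    _ = Eg M C a * (Eg M C (-a) * M.S (Wg M C a)) := by rw [mul_assoc]
    _ = μ • Eg M C a := by rw [hμ, mul_smul_comm, mul_one]

lemma Eg_ne_zero [Nontrivial F] (C : Fin 3) (a : ℝ) : Eg M C a ≠ 0 := by
  intro h
  have h1 := Eg_neg_mul M C a
  rw [h, mul_zero] at h1
  obtain ⟨v, hv⟩ := exists_ne (0 : F)
  have h2 := congrArg (fun T : F →L[ℂ] F => T v) h1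
  simp only [_root_.zero_apply, one_apply_eq_self] at h2
  exact hv h2.symm

/-- an operator that anticommutes with the generator -/
lemma Eg_anti (C : Fin 3) (K : F →L[ℂ] F) (hK : K * Zg M C = -(Zg M C * K)) (a : ℝ) :
    K * Eg M C a = Eg M C (-a) * K := by
  have hφ : ∀ s, HasDerivAt (fun s => Eg M C s * (K * Eg M C s)) 0 s := by
    intro s
    have h1 := hasDerivAt_Eg M C s
    have h2 : HasDerivAt (fun s => K * Eg M C s) (K * (((Real.sqrt 2 : ℂ) • Zg M C) * Eg M C s)) s := by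
      have := hasDerivAt_mul_op (hasDerivAt_const s K) h1
      simpa using this
    have h3 := hasDerivAt_mul_op h1 h2
    refine h3.congr_deriv ?_
    have e1 : K * ((Real.sqrt 2 : ℂ) • Zg M C) = -(((Real.sqrt 2 : ℂ) • Zg M C) * K) := by
      rw [mul_smul_comm, hK, smul_neg, smul_mul_assoc]
    have e2 : Eg M C s * (K * (((Real.sqrt 2 : ℂ) • Zg M C) * Eg M C s)) =
        -((Eg M C s * ((Real.sqrt 2 : ℂ) • Zg M C)) * (K * Eg M C s)) := by
      rw [← mul_assoc K, e1]
      noncomm_ring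
    rw [e2, ← Eg_comm]
    abel
  have hconst := is_const_of_deriv_eq_zero (fun s => (hφ s).differentiableAt)
    (fun s => (hφ s).deriv) a 0
  simp only [Eg_zero, mul_one, one_mul] at hconst
  calc K * Eg M C a = (Eg M C (-a) * Eg M C a) * (K * Eg M C a) := by rw [Eg_neg_mul, one_mul]
    _ = Eg M C (-a) * (Eg M C a * (K * Eg M C a)) := by rw [mul_assoc]
    _ = _ := by rw [hconst]

omit [CompleteSpace F] in
lemma S_Zg_anti {C A : Fin 3} (h : A ≠ C) :
    M.S (Wg M A (Real.pi / 2)) * Zg M C = -(Zg M C * M.S (Wg M A (Real.pi / 2))) := by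
  have ha : ∀ D B, aco M A B D (Real.pi / 2) = if D = B then (if D = A then 1 else -1) else 0 := by
    intro D B
    have : 2 * (Real.pi / 2) = Real.pi := by ring
    rw [aco, this, Real.cos_pi, Real.sin_pi]
    by_cases h1 : D = B
    · subst h1
      by_cases h2 : D = A
      · simp [h2]
      · simp [h2]
    · have : ¬ (D = A ∧ B = A) := fun h => h1 (h.1.trans h.2.symm)
      simp [h1, this]
  have hθ : ∀ α D, M.S (Wg M A (Real.pi / 2)) * M.θ α D =
      (if D = A then (1 : ℂ) else -1) • (M.θ α D * M.S (Wg M A (Real.pi / 2))) := by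
    intro α D
    rw [M.S_rotates]
    simp only [adCoeff_Wg, ha]
    rw [Finset.sum_eq_single D]
    · by_cases h2 : D = A <;> simp [h2]
    · intro B _ hB; simp [Ne.symm hB]
    · intro h; exact absurd (Finset.mem_univ _) h
  have hθθ : ∀ α D E, M.S (Wg M A (Real.pi / 2)) * (M.θ α D * M.θ α E) =
      ((if D = A then (1 : ℂ) else -1) * (if E = A then (1 : ℂ) else -1)) •
        ((M.θ α D * M.θ α E) * M.S (Wg M A (Real.pi / 2))) := by
    intro α D E
    rw [← mul_assoc, hθ, smul_mul_assoc, mul_assoc, hθ, mul_smul_comm, smul_smul, mul_assoc]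
  have hf : ∀ D E, (M.f C D E : ℂ) * ((if D = A then (1 : ℂ) else -1) * (if E = A then (1 : ℂ) else -1)) =
      -(M.f C D E : ℂ) := by
    intro D E
    rw [f_eq_eps M C D E]
    have hz : ∀ C A D E : Fin 3, A ≠ C → eps C D E * ((if D = A then 1 else -1) *
        (if E = A then 1 else -1)) = -eps C D E := by decide
    have h1 := hz C A D E h
    have h2 : ((eps C D E : ℤ) : ℂ) * ((if D = A then (1 : ℂ) else -1) * (if E = A then (1 : ℂ) else -1)) =
        -((eps C D E : ℤ) : ℂ) := by exact_mod_cast h1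
    push_cast
    linear_combination (M.f 0 1 2 : ℂ) * h2
  simp only [Zg, mul_smul_comm, smul_mul_assoc, Finset.mul_sum, Finset.sum_mul, hθθ, smul_smul, hf]
  simp only [neg_smul, Finset.sum_neg_distrib, smul_neg]

omit [CompleteSpace F] in
lemma U0_conj {C A : Fin 3} (h : A ≠ C) (a : ℝ) :
    Wg M A (Real.pi / 2) * Wg M C a = Wg M C (-a) * Wg M A (Real.pi / 2) := by
  apply Subtype.ext
  change Us M A (Real.pi / 2) * Us M C a = Us M C (-a) * Us M A (Real.pi / 2)
  simp only [Us, Real.cos_pi_div_two, Real.sin_pi_div_two, Real.cos_neg, Real.sin_neg, add_mul,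
    mul_add, Matrix.smul_mul, Matrix.mul_smul, one_mul, mul_one, T_swap M h, smul_neg]
  push_cast
  module

theorem S_Wg [FiniteDimensional ℂ F] (C : Fin 3) (a : ℝ) : M.S (Wg M C a) = Eg M C a := by
  have hnt : Nontrivial F := by
    obtain ⟨v, hv⟩ := M.nontrivial
    exact ⟨v, 0, hv⟩
  choose lam hlam using fun a => exists_lambda M C a
  have hcancel : ∀ (x y : ℂ) (b : ℝ), x • Eg M C b = y • Eg M C b → x = y := by
    intro x y b hxy
    have h1 : (x - y) • Eg M C b = 0 := by rw [sub_smul, hxy, sub_self]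
    rcases smul_eq_zero.mp h1 with h | h
    · exact sub_eq_zero.mp h
    · exact absurd h (Eg_ne_zero M C b)
  have hmul : ∀ a b, lam (a + b) = lam a * lam b := by
    intro a b
    apply hcancel _ _ (a + b)
    rw [← hlam, ← Wg_mul, map_mul, hlam, hlam, smul_mul_smul_comm, ← Eg_add]
  have h0 : lam 0 = 1 := by
    apply hcancel _ _ 0
    rw [← hlam, Wg_zero, map_one, Eg_zero, one_smul]
  obtain ⟨A, hA⟩ : ∃ A : Fin 3, A ≠ C := exists_ne C
  have hsym : ∀ a, lam a = lam (-a) := by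
    intro a
    have h1 : M.S (Wg M A (Real.pi / 2)) * M.S (Wg M C a) =
        M.S (Wg M C (-a)) * M.S (Wg M A (Real.pi / 2)) := by
      rw [← map_mul, U0_conj M hA, map_mul]
    rw [hlam a, hlam (-a), mul_smul_comm, smul_mul_assoc,
      Eg_anti M C _ (S_Zg_anti M hA)] at h1
    -- cancel the invertible operator on the right
    have h2 : M.S (Wg M A (Real.pi / 2)) * M.S (Wg M A (-(Real.pi / 2))) = 1 := by
      rw [← map_mul, Wg_mul, add_neg_cancel, Wg_zero, map_one]
    have h3 := congrArg (fun T => T * M.S (Wg M A (-(Real.pi / 2)))) h1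
    simp only [smul_mul_assoc, mul_assoc, h2, mul_one] at h3
    exact hcancel _ _ _ h3
  have hsq : ∀ a, lam a * lam a = 1 := by
    intro a
    nth_rewrite 2 [hsym a]
    rw [← hmul, add_neg_cancel, h0]
  have h1 : lam a = 1 := by
    have := hmul (a / 2) (a / 2)
    rw [add_halves] at this
    rw [this, hsq]
  rw [hlam, h1, one_smul]

end Fock

/-! ### the Gauss law -/

/-- the tangent vector of the gauge orbit -/
noncomputable def orb (C : Fin 3) (x : Cfg 3) : Cfg 3 :=
  WithLp.toLp 2 fun p => ∑ A, M.f C A p.2 * x (p.1, A)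

noncomputable def orb2 (C : Fin 3) (x : Cfg 3) : Cfg 3 :=
  WithLp.toLp 2 fun p => if p.2 = C then x (p.1, C) else 0

lemma act_Wg (C : Fin 3) (a : ℝ) (x : Cfg 3) : M.act (Wg M C a) x =
    Real.cos (2 * a) • x - (Real.sqrt 2 / 2 * Real.sin (2 * a)) • orb M C x +
      (1 - Real.cos (2 * a)) • orb2 C x := by
  ext ⟨i, B⟩
  simp only [Model.act, orb, orb2, adCoeff_Wg, aco, WithLp.ofLp_add, WithLp.ofLp_sub,
    WithLp.ofLp_smul, Pi.add_apply, Pi.sub_apply, Pi.smul_apply, smul_eq_mul, add_mul, sub_mul,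
    Finset.sum_add_distrib, Finset.sum_sub_distrib]
  have b1 : ∑ A, Real.cos (2 * a) * (if A = B then 1 else 0) * x (i, A) =
      Real.cos (2 * a) * x (i, B) := by
    rw [Finset.sum_eq_single B]
    · simp
    · intro D _ hD; simp [hD]
    · intro h; exact absurd (Finset.mem_univ _) h
  have b2 : ∀ c : ℝ, ∑ A, c * (if A = C ∧ B = C then 1 else 0) * x (i, A) =
      c * (if B = C then x (i, C) else 0) := by
    intro c
    rw [Finset.sum_eq_single C]
    · by_cases h : B = C <;> simp [h]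
    · intro D _ hD; simp [hD]
    · intro h; exact absurd (Finset.mem_univ _) h
  have b3 : ∑ A, Real.sqrt 2 / 2 * Real.sin (2 * a) * M.f C A B * x (i, A) =
      Real.sqrt 2 / 2 * Real.sin (2 * a) * ∑ A, M.f C A B * x (i, A) := by
    rw [Finset.mul_sum]
    refine Finset.sum_congr rfl fun D _ => ?_
    ring
  rw [b1, b2, b2, b3]

theorem gauss_law [FiniteDimensional ℂ F] (u : Cfg 3 → F) (hu : M.IsCore u)
    (C : Fin 3) (x : Cfg 3) :
    ∑ A, ∑ B, ∑ i, ((M.f C A B * x (i, A) : ℝ) : ℂ) • pd i B u x +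
      ∑ A, ∑ B, ∑ α, ((M.f C A B / 2 : ℝ) : ℂ) • M.θ α A (M.θ α B (u x)) = 0 := by
  have : CompleteSpace F := FiniteDimensional.complete ℂ F
  obtain ⟨hsm, -, hinv⟩ := hu
  have hud : HasFDerivAt u (fderiv ℝ u x) x := (hsm.differentiable (by simp) x).hasFDerivAt
  -- left side derivative
  have h1 : HasDerivAt (fun a : ℝ => 2 * a) 2 0 := by
    simpa using (hasDerivAt_id (0 : ℝ)).const_mul 2
  have hact : HasDerivAt (fun a => M.act (Wg M C a) x) (-(Real.sqrt 2) • orb M C x) 0 := by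
    have e : (fun a => M.act (Wg M C a) x) = fun a => Real.cos (2 * a) • x -
        (Real.sqrt 2 / 2 * Real.sin (2 * a)) • orb M C x + (1 - Real.cos (2 * a)) • orb2 C x := by
      funext a; exact act_Wg M C a x
    rw [e]
    have h2 := (((h1.cos).smul_const x).sub ((h1.sin.const_mul (Real.sqrt 2 / 2)).smul_const
      (orb M C x))).add (((hasDerivAt_const (0 : ℝ) (1 : ℝ)).sub h1.cos).smul_const (orb2 C x))
    refine h2.congr_deriv ?_
    simp
  have hx0 : M.act (Wg M C 0) x = x := by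
    rw [act_Wg]; simp
  have hL : HasDerivAt (fun a => u (M.act (Wg M C a) x))
      (fderiv ℝ u x (-(Real.sqrt 2) • orb M C x)) 0 := by
    have h2 : HasFDerivAt u (fderiv ℝ u x) (M.act (Wg M C 0) x) := by rw [hx0]; exact hud
    exact h2.comp_hasDerivAt (0 : ℝ) hact
  have hR : HasDerivAt (fun a => u (M.act (Wg M C a) x))
      (((Real.sqrt 2 : ℂ) • Zg M C) (u x)) 0 := by
    have e : (fun a => u (M.act (Wg M C a) x)) = fun a => Eg M C a (u x) := by
      funext a
      rw [hinv, S_Wg]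
    rw [e]
    have h2 := hasDerivAt_Eg M C 0
    rw [Eg_zero, mul_one] at h2
    exact ((ContinuousLinearMap.apply ℂ F (u x)).restrictScalars ℝ).hasFDerivAt.comp_hasDerivAt 0 h2
  have h3 := hL.unique hR
  have horb : orb M C x = ∑ i, ∑ B, (∑ A, M.f C A B * x (i, A)) •
      (EuclideanSpace.single (i, B) (1 : ℝ) : Cfg 3) := by
    ext ⟨i', B'⟩
    simp only [orb, WithLp.ofLp_sum, Finset.sum_apply, WithLp.ofLp_smul, Pi.smul_apply,
      PiLp.single_apply, Prod.mk.injEq, smul_eq_mul, mul_ite, mul_one, mul_zero]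
    symm
    rw [Finset.sum_eq_single i', Finset.sum_eq_single B']
    · simp
    · intro C _ hC; simp [Ne.symm hC]
    · intro h; exact absurd (Finset.mem_univ _) h
    · intro j _ hj
      refine Finset.sum_eq_zero fun C _ => ?_
      simp [Ne.symm hj]
    · intro h; exact absurd (Finset.mem_univ _) h
  have h4 : fderiv ℝ u x (orb M C x) =
      ∑ A, ∑ B, ∑ i, ((M.f C A B * x (i, A) : ℝ) : ℂ) • pd i B u x := by
    rw [horb]
    simp only [map_sum, map_smul, Finset.sum_smul, Complex.coe_smul]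
    calc _ = ∑ i, ∑ A, ∑ B, (M.f C A B * x (i, A)) • fderiv ℝ u x
          (EuclideanSpace.single (i, B) (1 : ℝ)) := by
          refine Finset.sum_congr rfl fun i _ => ?_
          rw [Finset.sum_comm]
      _ = ∑ A, ∑ i, ∑ B, (M.f C A B * x (i, A)) • fderiv ℝ u x
          (EuclideanSpace.single (i, B) (1 : ℝ)) := by rw [Finset.sum_comm]
      _ = _ := by
          refine Finset.sum_congr rfl fun A _ => ?_
          rw [Finset.sum_comm]
          rfl
  have h5 : Zg M C (u x) = ∑ A, ∑ B, ∑ α, ((M.f C A B / 2 : ℝ) : ℂ) • M.θ α A (M.θ α B (u x)) := by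
    simp only [Zg, _root_.smul_apply, _root_.sum_apply, mul_apply_eq_comp, Finset.smul_sum,
      smul_smul]
    calc _ = ∑ D, ∑ α, ∑ E, ((1 / 2 : ℂ) * (M.f C D E : ℂ)) • M.θ α D (M.θ α E (u x)) := by
          rw [Finset.sum_comm]
      _ = _ := by
          refine Finset.sum_congr rfl fun D _ => ?_
          rw [Finset.sum_comm]
          refine Finset.sum_congr rfl fun E _ => Finset.sum_congr rfl fun α _ => ?_
          congr 1
          push_cast
          ring
  rw [← h4, ← h5]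
  rw [map_smul, _root_.smul_apply, neg_smul, ← Complex.coe_smul] at h3
  have h6 : (Real.sqrt 2 : ℂ) • (fderiv ℝ u x (orb M C x) + Zg M C (u x)) = 0 := by
    rw [smul_add, ← h3]; abel
  rcases smul_eq_zero.mp h6 with h | h
  · exfalso
    have : (Real.sqrt 2 : ℝ) = 0 := by exact_mod_cast h
    have h7 : (0 : ℝ) < Real.sqrt 2 := Real.sqrt_pos.mpr (by norm_num)
    linarith
  · exact h

end Vale.Agent.P353
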