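import Vale.Agent.P353.Ident

open Matrix

namespace Vale.Agent.P353

lemma cyc16 {M : Type*} [AddCommMonoid M] (f : Fin 16 → Fin 16 → Fin 16 → M) :
    ∑ p, ∑ q, ∑ j, f p q j = ∑ p, ∑ q, ∑ j, f q j p := by
  have h : ∀ q, ∑ p, ∑ j, f q j p = ∑ j, ∑ p, f q j p := fun q => Finset.sum_comm
  conv_rhs => rw [Finset.sum_comm]
  simp only [h]

/-- swapping the roles of the two index sets -/
lemma sum_sq_swap {ι κ : Type*} [Fintype ι] [Fintype κ] (G : ι → κ → ℂ) :
    ∑ a, ∑ c, (∑ p, G p a * G p c) ^ 2 = ∑ p, ∑ q, (∑ a, G p a * G q a) ^ 2 := by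
  have h1 : ∑ a, ∑ c, (∑ p, G p a * G p c) ^ 2 =
      ∑ a, ∑ c, ∑ p, ∑ q, (G p a * G p c) * (G q a * G q c) := by
    refine Finset.sum_congr rfl fun a _ => Finset.sum_congr rfl fun c _ => ?_
    rw [sq, Finset.sum_mul_sum]
  have h2 : ∑ p, ∑ q, (∑ a, G p a * G q a) ^ 2 =
      ∑ p, ∑ q, ∑ a, ∑ c, (G p a * G q a) * (G p c * G q c) := by
    refine Finset.sum_congr rfl fun a _ => Finset.sum_congr rfl fun c _ => ?_
    rw [sq, Finset.sum_mul_sum]
  rw [h1, h2]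
  have e1 : ∀ a : κ, ∑ c : κ, ∑ p : ι, ∑ q : ι, (G p a * G p c) * (G q a * G q c) =
      ∑ p : ι, ∑ q : ι, ∑ c : κ, (G p a * G p c) * (G q a * G q c) := by
    intro a
    rw [Finset.sum_comm]
    refine Finset.sum_congr rfl fun p _ => ?_
    rw [Finset.sum_comm]
  simp only [e1]
  rw [Finset.sum_comm]
  refine Finset.sum_congr rfl fun p _ => ?_
  rw [Finset.sum_comm]
  refine Finset.sum_congr rfl fun q _ => Finset.sum_congr rfl fun a _ =>
    Finset.sum_congr rfl fun c _ => ?_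
  ring

namespace CS

variable {R : Type*} [Ring R] [Algebra ℂ R] (S : CS R)

/-- `∑ γ^{kl}_{αβ} γ^{kl}_{γδ}` -/
noncomputable def NN (α β γ δ : Fin 16) : ℂ := ∑ k, ∑ l, S.g2 k l α β * S.g2 k l γ δ

lemma trace_g2_g2F (i j k l : Fin 9) : (S.g2 i j * S.g2 k l).trace =
    16 * ((if i = l then 1 else 0) * (if j = k then 1 else 0) -
      (if i = k then 1 else 0) * (if j = l then 1 else 0)) := by
  rw [S.g2_eq i j, sub_mul, Matrix.trace_sub, S.trace_gg_g2, smul_mul_assoc, one_mul,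
    Matrix.trace_smul, trace_g2, smul_zero, sub_zero]

lemma trace_g2_sq (i j : Fin 9) : (S.g2 i j * S.g2 i j).trace =
    -16 + (if i = j then 16 else 0) := by
  rw [trace_g2_g2F]
  by_cases h : i = j
  · subst h; simp
  · simp [h]

lemma sum_trace_g2_sq : ∑ i, ∑ j, (S.g2 i j * S.g2 i j).trace = -1152 := by
  simp only [trace_g2_sq, Finset.sum_add_distrib, Finset.sum_ite_eq, Finset.mem_univ, if_true,
    Finset.sum_const, Finset.card_univ, Fintype.card_fin]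
  norm_num

lemma sum_entries (A B : Matrix (Fin 16) (Fin 16) ℂ) :
    ∑ α, ∑ β, A α β * B α β = (A * Bᵀ).trace := by
  simp only [Matrix.trace, Matrix.diag, Matrix.mul_apply, Matrix.transpose_apply]

lemma F1 : ∑ α, ∑ β, ∑ γ, ∑ δ, (S.NN α β γ δ) ^ 2 = 36864 := by
  let G : Fin 9 × Fin 9 → Fin 16 × Fin 16 → ℂ := fun p a => S.g2 p.1 p.2 a.1 a.2
  have h := sum_sq_swap G
  have h1 : ∑ a, ∑ c, (∑ p, G p a * G p c) ^ 2 = ∑ α, ∑ β, ∑ γ, ∑ δ, (S.NN α β γ δ) ^ 2 := by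
    simp only [Fintype.sum_prod_type, G, NN]
  have h2 : ∀ p q : Fin 9 × Fin 9, (∑ a, G p a * G q a) ^ 2 =
      256 * ((if p.1 = q.1 then 1 else 0) * (if p.2 = q.2 then 1 else 0) +
        (if p.1 = q.2 then 1 else 0) * (if p.2 = q.1 then 1 else 0) -
        2 * ((if p.1 = q.1 then 1 else 0) * (if p.2 = q.2 then 1 else 0) *
        (if p.1 = q.2 then 1 else 0) * (if p.2 = q.1 then 1 else 0))) := by
    intro p q
    have : ∑ a, G p a * G q a = ∑ α, ∑ β, S.g2 p.1 p.2 α β * S.g2 q.1 q.2 α β := by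
      simp only [Fintype.sum_prod_type, G]
    rw [this, sum_entries, g2_transpose, mul_neg, Matrix.trace_neg, trace_g2_g2F]
    split_ifs <;> norm_num
  rw [← h1, h]
  simp only [h2]
  simp only [Fintype.sum_prod_type, ← Finset.mul_sum, Finset.sum_add_distrib,
    Finset.sum_sub_distrib]
  simp
  norm_num

lemma sum_cross (A B : Matrix (Fin 16) (Fin 16) ℂ) :
    ∑ α, ∑ β, ∑ γ, ∑ δ, (A α β * A γ δ) * (B α γ * B δ β) = (B * A * B * Aᵀ).trace := by
  simp only [Matrix.trace, Matrix.diag, Matrix.mul_apply, Matrix.transpose_apply, Finset.sum_mul]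
  refine Finset.sum_congr rfl fun α _ => Finset.sum_congr rfl fun β _ => ?_
  rw [Finset.sum_comm]
  refine Finset.sum_congr rfl fun δ _ => Finset.sum_congr rfl fun γ _ => ?_
  ring

lemma F2 : ∑ α, ∑ β, ∑ γ, ∑ δ, S.NN α β γ δ * S.NN α γ δ β = -18432 := by
  let G : Fin 9 × Fin 9 → Matrix (Fin 16) (Fin 16) ℂ := fun p => S.g2 p.1 p.2
  have hN : ∀ α β γ δ, S.NN α β γ δ = ∑ p, G p α β * G p γ δ := by
    intro α β γ δ; simp only [NN, Fintype.sum_prod_type, G]
  have h1 : ∑ α, ∑ β, ∑ γ, ∑ δ, S.NN α β γ δ * S.NN α γ δ β =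
      ∑ α, ∑ β, ∑ γ, ∑ δ, ∑ p, ∑ q, (G p α β * G p γ δ) * (G q α γ * G q δ β) := by
    simp only [hN, Finset.sum_mul_sum]
  have h2 : ∑ α, ∑ β, ∑ γ, ∑ δ, ∑ p, ∑ q, (G p α β * G p γ δ) * (G q α γ * G q δ β) =
      ∑ p, ∑ q, ∑ α, ∑ β, ∑ γ, ∑ δ, (G p α β * G p γ δ) * (G q α γ * G q δ β) := by
    have s1 : ∀ (f : Fin 16 → Fin 9 × Fin 9 → Fin 9 × Fin 9 → ℂ),
        ∑ δ, ∑ p, ∑ q, f δ p q = ∑ p, ∑ q, ∑ δ, f δ p q := by
      intro f
      rw [Finset.sum_comm]
      refine Finset.sum_congr rfl fun p _ => ?_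
      rw [Finset.sum_comm]
    simp only [s1]
  rw [h1, h2]
  simp only [sum_cross]
  rw [Finset.sum_comm]
  have h3 : ∑ q, ∑ p, (G q * G p * G q * (G p)ᵀ).trace =
      ∑ p, -((∑ q, G q * G p * G q) * G p).trace := by
    rw [Finset.sum_comm]
    refine Finset.sum_congr rfl fun p _ => ?_
    rw [Finset.sum_mul, Matrix.trace_sum, ← Finset.sum_neg_distrib]
    refine Finset.sum_congr rfl fun q _ => ?_
    have : (G p)ᵀ = -G p := S.g2_transpose p.1 p.2
    rw [this, mul_neg, Matrix.trace_neg]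
  rw [h3]
  have h4 : ∀ p, ∑ q, G q * G p * G q = (-16 : ℂ) • G p := by
    intro p
    simp only [Fintype.sum_prod_type, G]
    exact S.sum_g2_g2_g2 p.1 p.2
  have h5 := S.sum_trace_g2_sq
  simp only [h4, smul_mul_assoc, Matrix.trace_smul, G, Fintype.sum_prod_type,
    Finset.sum_neg_distrib, ← Finset.smul_sum, h5]
  norm_num

/-- the Fierz identity -/
lemma fierz (hreal : ∀ i α β, (S.g i α β).im = 0) (α β γ δ : Fin 16) :
    S.NN α β γ δ + S.NN α γ δ β + S.NN α δ β γ = 0 := by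
  have him : ∀ α β γ δ, (S.NN α β γ δ).im = 0 := by
    intro α β γ δ
    have hm : ∀ i j α β, ((S.g i * S.g j) α β).im = 0 := by
      intro i j α β
      rw [Matrix.mul_apply, Complex.im_sum]
      refine Finset.sum_eq_zero fun γ _ => ?_
      rw [Complex.mul_im, hreal, hreal]; ring
    have hg : ∀ i j α β, (S.g2 i j α β).im = 0 := by
      intro i j α β
      simp only [CS.g2, Matrix.smul_apply, Matrix.sub_apply, smul_eq_mul]
      rw [Complex.mul_im, Complex.sub_im, hm, hm]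
      norm_num
    simp only [NN, Complex.im_sum]
    refine Finset.sum_eq_zero fun k _ => Finset.sum_eq_zero fun l _ => ?_
    rw [Complex.mul_im, hg, hg]; ring
  set T : Fin 16 → Fin 16 → Fin 16 → Fin 16 → ℂ := fun α β γ δ =>
    S.NN α β γ δ + S.NN α γ δ β + S.NN α δ β γ with hT
  have hsum : ∑ α, ∑ β, ∑ γ, ∑ δ, (T α β γ δ) ^ 2 = 0 := by
    have e1 : ∀ α, ∑ β, ∑ γ, ∑ δ, (T α β γ δ) ^ 2 =
        3 * ∑ β, ∑ γ, ∑ δ, (S.NN α β γ δ) ^ 2 +
        6 * ∑ β, ∑ γ, ∑ δ, S.NN α β γ δ * S.NN α γ δ β := by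
      intro α
      have a1 := cyc16 (fun β γ δ => (S.NN α β γ δ) ^ 2)
      have a2 := cyc16 (fun β γ δ => (S.NN α γ δ β) ^ 2)
      have a3 := cyc16 (fun β γ δ => S.NN α β γ δ * S.NN α γ δ β)
      have a4 := cyc16 (fun β γ δ => S.NN α γ δ β * S.NN α δ β γ)
      have : ∑ β, ∑ γ, ∑ δ, (T α β γ δ) ^ 2 =
          ∑ β, ∑ γ, ∑ δ, (S.NN α β γ δ) ^ 2 + ∑ β, ∑ γ, ∑ δ, (S.NN α γ δ β) ^ 2 +
          ∑ β, ∑ γ, ∑ δ, (S.NN α δ β γ) ^ 2 +
          2 * ∑ β, ∑ γ, ∑ δ, S.NN α β γ δ * S.NN α γ δ β +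
          2 * ∑ β, ∑ γ, ∑ δ, S.NN α γ δ β * S.NN α δ β γ +
          2 * ∑ β, ∑ γ, ∑ δ, S.NN α δ β γ * S.NN α β γ δ := by
        simp only [Finset.mul_sum, ← Finset.sum_add_distrib]
        refine Finset.sum_congr rfl fun β _ => Finset.sum_congr rfl fun γ _ =>
          Finset.sum_congr rfl fun δ _ => ?_
        simp only [hT]; ring
      rw [this, ← a2, ← a1, ← a4, ← a3]
      ring
    simp only [e1, Finset.sum_add_distrib, ← Finset.mul_sum]
    rw [F1, F2]; norm_num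
  have hTim : ∀ α β γ δ, (T α β γ δ).im = 0 := by
    intro α β γ δ
    simp only [hT, Complex.add_im, him, add_zero]
  have hre : ∑ α, ∑ β, ∑ γ, ∑ δ, ((T α β γ δ).re) ^ 2 = 0 := by
    have h2 : ∀ α β γ δ, (T α β γ δ) ^ 2 = (((T α β γ δ).re ^ 2 : ℝ) : ℂ) := by
      intro α β γ δ
      have : T α β γ δ = ((T α β γ δ).re : ℂ) := by
        apply Complex.ext <;> simp [hTim]
      conv_lhs => rw [this]
      push_cast; rfl
    simp only [h2] at hsum
    exact_mod_cast hsum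
  have hz : (T α β γ δ).re ^ 2 = 0 := by
    have n4 : ∀ α β γ δ, 0 ≤ ((T α β γ δ).re) ^ 2 := fun _ _ _ _ => sq_nonneg _
    have n3 : ∀ α β γ, 0 ≤ ∑ δ, ((T α β γ δ).re) ^ 2 := fun _ _ _ =>
      Finset.sum_nonneg fun _ _ => n4 _ _ _ _
    have n2 : ∀ α β, 0 ≤ ∑ γ, ∑ δ, ((T α β γ δ).re) ^ 2 := fun _ _ =>
      Finset.sum_nonneg fun _ _ => n3 _ _ _
    have n1 : ∀ α, 0 ≤ ∑ β, ∑ γ, ∑ δ, ((T α β γ δ).re) ^ 2 := fun _ =>
      Finset.sum_nonneg fun _ _ => n2 _ _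
    have z1 := (Finset.sum_eq_zero_iff_of_nonneg fun a _ => n1 a).mp hre α (Finset.mem_univ _)
    have z2 := (Finset.sum_eq_zero_iff_of_nonneg fun a _ => n2 α a).mp z1 β (Finset.mem_univ _)
    have z3 := (Finset.sum_eq_zero_iff_of_nonneg fun a _ => n3 α β a).mp z2 γ (Finset.mem_univ _)
    exact (Finset.sum_eq_zero_iff_of_nonneg fun a _ => n4 α β γ a).mp z3 δ (Finset.mem_univ _)
  have : T α β γ δ = 0 := by
    apply Complex.ext
    · simpa using hz
    · simpa using hTim α β γ δ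
  exact this

lemma th_sq_sum (A : Fin 3) : ∑ α, S.th α A * S.th α A = (8 : ℂ) • (1 : R) := by
  have h : ∀ α, S.th α A * S.th α A = (1 / 2 : ℂ) • (1 : R) := by
    intro α
    have := S.th_anti α A α A
    simp only [and_self, if_true] at this
    rw [← two_smul ℂ] at this
    rw [← this, smul_smul]; norm_num
  simp only [h]
  rw [Finset.sum_const, Finset.card_univ, Fintype.card_fin, ← Nat.cast_smul_eq_nsmul ℂ, smul_smul]
  norm_num

lemma sum_g2_g2_one : ∑ k, ∑ l, S.g2 k l * S.g2 k l = (-72 : ℂ) • 1 := by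
  have h := S.sum_g2_g2 1
  simp only [mul_one] at h
  rw [h, sand_one, sand_smul, sand_one, smul_smul, ← sub_smul]; norm_num

lemma cyc16' {M : Type*} [AddCommMonoid M] (f : Fin 16 → Fin 16 → Fin 16 → M) :
    ∑ p, ∑ q, ∑ j, f p q j = ∑ p, ∑ q, ∑ j, f j p q := by
  rw [cyc16, cyc16]

/-- cubic Fierz identity -/
lemma cubic (hreal : ∀ i α β, (S.g i α β).im = 0) (A : Fin 3) (α : Fin 16) :
    ∑ k, ∑ l, S.vec (S.g2 k l) A α * S.bil (S.g2 k l) A A = (-72 : ℂ) • S.th α A := by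
  have hP : ∑ k, ∑ l, S.vec (S.g2 k l) A α * S.bil (S.g2 k l) A A =
      ∑ β, ∑ γ, ∑ δ, S.NN α β γ δ • (S.th β A * S.th γ A * S.th δ A) := by
    have h1 : ∀ k l, S.vec (S.g2 k l) A α * S.bil (S.g2 k l) A A =
        ∑ β, ∑ γ, ∑ δ, (S.g2 k l α β * S.g2 k l γ δ) • (S.th β A * S.th γ A * S.th δ A) := by
      intro k l
      rw [bil]
      simp only [vec]
      rw [Finset.sum_mul]
      refine Finset.sum_congr rfl fun β _ => ?_
      rw [Finset.mul_sum]
      refine Finset.sum_congr rfl fun γ _ => ?_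
      rw [Finset.mul_sum, Finset.mul_sum]
      refine Finset.sum_congr rfl fun δ _ => ?_
      rw [mul_smul_comm, smul_mul_smul_comm, mul_assoc]
    simp only [h1, NN, Finset.sum_smul]
    have s1 : ∀ (f : Fin 9 → Fin 9 → Fin 16 → R),
        ∑ k, ∑ l, ∑ β, f k l β = ∑ β, ∑ k, ∑ l, f k l β := by
      intro f
      have : ∀ k, ∑ l, ∑ β, f k l β = ∑ β, ∑ l, f k l β := fun k => Finset.sum_comm
      simp only [this]
      rw [Finset.sum_comm]
    rw [s1]
    refine Finset.sum_congr rfl fun β _ => ?_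
    rw [s1]
    refine Finset.sum_congr rfl fun γ _ => ?_
    rw [s1]
  set P := ∑ β, ∑ γ, ∑ δ, S.NN α β γ δ • (S.th β A * S.th γ A * S.th δ A) with hPdef
  rw [hP]
  -- the three cyclic orderings
  have hA : ∀ β γ, S.th β A * S.th γ A = (if β = γ then (1 : R) else 0) - S.th γ A * S.th β A := by
    intro β γ
    have := S.th_anti β A γ A
    simp only [and_true] at this
    rw [← this]; abel
  have r1 : ∀ β γ δ, S.th δ A * S.th β A * S.th γ A = S.th β A * S.th γ A * S.th δ A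
      + (if δ = β then (1 : R) else 0) * S.th γ A - S.th β A * (if δ = γ then (1 : R) else 0) := by
    intro β γ δ
    rw [hA δ β, sub_mul, mul_assoc (S.th β A), hA δ γ]
    noncomm_ring
  have r2 : ∀ β γ δ, S.th γ A * S.th δ A * S.th β A = S.th β A * S.th γ A * S.th δ A
      + S.th γ A * (if δ = β then (1 : R) else 0) - (if γ = β then (1 : R) else 0) * S.th δ A := by
    intro β γ δ
    rw [mul_assoc, hA δ β, mul_sub, ← mul_assoc, hA γ β]
    noncomm_ring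
  have c1 : ∑ β, ∑ γ, ∑ δ, S.NN α γ δ β • (S.th β A * S.th γ A * S.th δ A) =
      ∑ β, ∑ γ, ∑ δ, S.NN α β γ δ • (S.th δ A * S.th β A * S.th γ A) :=
    cyc16' (fun β γ δ => S.NN α γ δ β • (S.th β A * S.th γ A * S.th δ A))
  have c2 : ∑ β, ∑ γ, ∑ δ, S.NN α δ β γ • (S.th β A * S.th γ A * S.th δ A) =
      ∑ β, ∑ γ, ∑ δ, S.NN α β γ δ • (S.th γ A * S.th δ A * S.th β A) :=
    cyc16 (fun β γ δ => S.NN α δ β γ • (S.th β A * S.th γ A * S.th δ A))
  have hsum : P + ∑ β, ∑ γ, ∑ δ, S.NN α γ δ β • (S.th β A * S.th γ A * S.th δ A) +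
      ∑ β, ∑ γ, ∑ δ, S.NN α δ β γ • (S.th β A * S.th γ A * S.th δ A) = 0 := by
    simp only [hPdef, ← Finset.sum_add_distrib, ← add_smul, S.fierz hreal, zero_smul,
      Finset.sum_const_zero]
  have c1' : ∑ β, ∑ γ, ∑ δ, S.NN α β γ δ • (S.th δ A * S.th β A * S.th γ A) =
      P + ∑ β, ∑ γ, ∑ δ, S.NN α β γ δ • ((if δ = β then (1 : R) else 0) * S.th γ A) -
      ∑ β, ∑ γ, ∑ δ, S.NN α β γ δ • (S.th β A * (if δ = γ then (1 : R) else 0)) := by
    simp only [hPdef, ← Finset.sum_add_distrib, ← Finset.sum_sub_distrib]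
    refine Finset.sum_congr rfl fun β _ => Finset.sum_congr rfl fun γ _ =>
        Finset.sum_congr rfl fun δ _ => ?_
    rw [r1, smul_sub, smul_add]
  have c2' : ∑ β, ∑ γ, ∑ δ, S.NN α β γ δ • (S.th γ A * S.th δ A * S.th β A) =
      P + ∑ β, ∑ γ, ∑ δ, S.NN α β γ δ • (S.th γ A * (if δ = β then (1 : R) else 0)) -
      ∑ β, ∑ γ, ∑ δ, S.NN α β γ δ • ((if γ = β then (1 : R) else 0) * S.th δ A) := by
    simp only [hPdef, ← Finset.sum_add_distrib, ← Finset.sum_sub_distrib]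
    refine Finset.sum_congr rfl fun β _ => Finset.sum_congr rfl fun γ _ =>
        Finset.sum_congr rfl fun δ _ => ?_
    rw [r2, smul_sub, smul_add]
  rw [c1, c2, c1', c2'] at hsum
  have hsumN : ∀ (f g : Fin 9 → Fin 9 → Fin 16 → ℂ), ∑ β, ∑ k, ∑ l, f k l β * g k l β =
      ∑ k, ∑ l, ∑ β, f k l β * g k l β := by
    intro f g
    rw [Finset.sum_comm]
    refine Finset.sum_congr rfl fun k _ => ?_
    rw [Finset.sum_comm]
  have hg2 : ∀ γ, ∑ k, ∑ l, (S.g2 k l * S.g2 k l) α γ = -72 * (1 : Matrix (Fin 16) (Fin 16) ℂ) α γ := by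
    intro γ
    have h := congrArg (fun M : Matrix (Fin 16) (Fin 16) ℂ => M α γ) S.sum_g2_g2_one
    simp only [Matrix.sum_apply, Matrix.smul_apply, smul_eq_mul] at h
    exact h
  have k1 : ∀ γ, ∑ β, S.NN α β γ β = 72 * (1 : Matrix (Fin 16) (Fin 16) ℂ) α γ := by
    intro γ
    simp only [NN]
    rw [hsumN (fun k l β => S.g2 k l α β) (fun k l β => S.g2 k l γ β)]
    have : ∀ k l, ∑ β, S.g2 k l α β * S.g2 k l γ β = -(S.g2 k l * S.g2 k l) α γ := by
      intro k l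
      rw [Matrix.mul_apply, ← Finset.sum_neg_distrib]
      refine Finset.sum_congr rfl fun β _ => ?_
      have ht := congrFun (congrFun (S.g2_transpose k l) β) γ
      rw [Matrix.transpose_apply] at ht
      rw [ht, Matrix.neg_apply]; ring
    simp only [this, Finset.sum_neg_distrib, hg2]
    ring
  have k2 : ∀ β, ∑ γ, S.NN α β γ γ = 0 := by
    intro β
    simp only [NN]
    rw [hsumN (fun k l _ => S.g2 k l α β) (fun k l γ => S.g2 k l γ γ)]
    have : ∀ k l, ∑ γ, S.g2 k l α β * S.g2 k l γ γ = 0 := by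
      intro k l
      rw [← Finset.mul_sum]
      have : ∑ γ, S.g2 k l γ γ = (S.g2 k l).trace := rfl
      rw [this, trace_g2, mul_zero]
    simp only [this, Finset.sum_const_zero]
  have k3 : ∀ δ, ∑ β, S.NN α β β δ = -72 * (1 : Matrix (Fin 16) (Fin 16) ℂ) α δ := by
    intro δ
    simp only [NN]
    rw [hsumN (fun k l β => S.g2 k l α β) (fun k l β => S.g2 k l β δ)]
    have : ∀ k l, ∑ β, S.g2 k l α β * S.g2 k l β δ = (S.g2 k l * S.g2 k l) α δ := by
      intro k l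
      rw [Matrix.mul_apply]
    simp only [this, hg2]
  have d1 : ∑ β, ∑ γ, ∑ δ, S.NN α β γ δ • ((if δ = β then (1 : R) else 0) * S.th γ A) =
      (72 : ℂ) • S.th α A := by
    have e1 : ∀ β γ, ∑ δ, S.NN α β γ δ • ((if δ = β then (1 : R) else 0) * S.th γ A) =
        S.NN α β γ β • S.th γ A := by
      intro β γ
      simp only [ite_mul, one_mul, zero_mul, smul_ite, smul_zero, Finset.sum_ite_eq',
        Finset.mem_univ, if_true]
    simp only [e1]
    rw [Finset.sum_comm]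
    simp only [← Finset.sum_smul, k1]
    simp [Matrix.one_apply]
  have d1' : ∑ β, ∑ γ, ∑ δ, S.NN α β γ δ • (S.th γ A * (if δ = β then (1 : R) else 0)) =
      (72 : ℂ) • S.th α A := by
    rw [← d1]
    simp
  have d2 : ∑ β, ∑ γ, ∑ δ, S.NN α β γ δ • (S.th β A * (if δ = γ then (1 : R) else 0)) = 0 := by
    have e1 : ∀ β γ, ∑ δ, S.NN α β γ δ • (S.th β A * (if δ = γ then (1 : R) else 0)) =
        S.NN α β γ γ • S.th β A := by
      intro β γ
      simp only [mul_ite, mul_one, mul_zero, smul_ite, smul_zero, Finset.sum_ite_eq',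
        Finset.mem_univ, if_true]
    simp only [e1, ← Finset.sum_smul, k2, zero_smul, Finset.sum_const_zero]
  have d3 : ∑ β, ∑ γ, ∑ δ, S.NN α β γ δ • ((if γ = β then (1 : R) else 0) * S.th δ A) =
      (-72 : ℂ) • S.th α A := by
    have e1 : ∀ β, ∑ γ, ∑ δ, S.NN α β γ δ • ((if γ = β then (1 : R) else 0) * S.th δ A) =
        ∑ δ, S.NN α β β δ • S.th δ A := by
      intro β
      rw [Finset.sum_comm]
      simp only [ite_mul, one_mul, zero_mul, smul_ite, smul_zero, Finset.sum_ite_eq',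
        Finset.mem_univ, if_true]
    simp only [e1]
    rw [Finset.sum_comm]
    simp only [← Finset.sum_smul, k3]
    simp [Matrix.one_apply]
  rw [d1, d1', d2, d3] at hsum
  have h3 : (3 : ℂ) • P = (-216 : ℂ) • S.th α A := by
    have : (3 : ℂ) • P = (P + (P + (72 : ℂ) • S.th α A - 0) +
      (P + (72 : ℂ) • S.th α A - (-72 : ℂ) • S.th α A)) + (-216 : ℂ) • S.th α A := by module
    rw [this, hsum, zero_add]
  calc P = (1 / 3 : ℂ) • ((3 : ℂ) • P) := by rw [smul_smul]; norm_num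
    _ = _ := by rw [h3, smul_smul]; norm_num

/-- the Casimir of one species -/
lemma casimir_one (hreal : ∀ i α β, (S.g i α β).im = 0) (A : Fin 3) :
    ∑ k, ∑ l, S.bil (S.g2 k l) A A * S.bil (S.g2 k l) A A = (-576 : ℂ) • (1 : R) := by
  have h : ∑ k, ∑ l, S.bil (S.g2 k l) A A * S.bil (S.g2 k l) A A =
      ∑ α, S.th α A * ∑ k, ∑ l, S.vec (S.g2 k l) A α * S.bil (S.g2 k l) A A := by
    have h1 : ∀ k l, S.bil (S.g2 k l) A A * S.bil (S.g2 k l) A A =
        ∑ α, S.th α A * (S.vec (S.g2 k l) A α * S.bil (S.g2 k l) A A) := by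
      intro k l
      conv_lhs => rw [bil]
      rw [Finset.sum_mul]
      refine Finset.sum_congr rfl fun α _ => ?_
      rw [mul_assoc]; rfl
    simp only [h1, Finset.mul_sum]
    have : ∀ k, ∑ l, ∑ α, S.th α A * (S.vec (S.g2 k l) A α * S.bil (S.g2 k l) A A) =
        ∑ α, ∑ l, S.th α A * (S.vec (S.g2 k l) A α * S.bil (S.g2 k l) A A) := fun k =>
      Finset.sum_comm
    simp only [this]
    rw [Finset.sum_comm]
  rw [h]
  simp only [S.cubic hreal, mul_smul_comm, ← Finset.smul_sum, th_sq_sum, smul_smul]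
  norm_num

end CS
end Vale.Agent.P353
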