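import Vale.Agent.P353.Alg

open Matrix

namespace Vale.Agent.P353
namespace CS

variable {R : Type*} [Ring R] [Algebra ℂ R] (S : CS R)

lemma g_sq (i : Fin 9) : S.g i * S.g i = 1 := by
  have h := S.g_anti i i
  simp only [if_true] at h
  have h2 : (2 : ℂ) • (S.g i * S.g i) = (2 : ℂ) • (1 : Matrix (Fin 16) (Fin 16) ℂ) := by
    rw [two_smul, h, two_smul]; norm_num
  calc S.g i * S.g i = (1 / 2 : ℂ) • ((2 : ℂ) • (S.g i * S.g i)) := by
        rw [smul_smul]; norm_num
    _ = 1 := by rw [h2, smul_smul]; norm_num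

lemma g_swap (i j : Fin 9) :
    S.g i * S.g j = (if i = j then (2 : ℂ) else 0) • (1 : Matrix (Fin 16) (Fin 16) ℂ)
      - S.g j * S.g i := by
  rw [eq_sub_iff_add_eq, S.g_anti i j]
  split_ifs
  · ext a b; simp [Matrix.ofNat_apply, Matrix.one_apply]
  · simp

lemma g_swap_ne {i j : Fin 9} (h : i ≠ j) : S.g i * S.g j = -(S.g j * S.g i) := by
  rw [S.g_swap i j, if_neg h]; simp

lemma g2_eq (i j : Fin 9) :
    S.g2 i j = S.g i * S.g j - (if i = j then (1 : ℂ) else 0) • 1 := by
  rw [g2, S.g_swap j i]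
  by_cases h : i = j
  · subst h; simp [g_sq, two_smul]
  · rw [if_neg (Ne.symm h), if_neg h]; simp [← two_smul ℂ, smul_smul]

lemma g2_transpose (i j : Fin 9) : (S.g2 i j)ᵀ = -S.g2 i j := by
  simp only [g2, Matrix.transpose_smul, Matrix.transpose_sub, Matrix.transpose_mul, S.g_symm]
  rw [← smul_neg, neg_sub]

lemma g2_antisymm (i j : Fin 9) : S.g2 i j = -S.g2 j i := by
  simp only [g2]; rw [← smul_neg, neg_sub]

/-- the sandwich `∑_k γ_k X γ_k` -/
noncomputable def sand (X : Matrix (Fin 16) (Fin 16) ℂ) : Matrix (Fin 16) (Fin 16) ℂ :=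
  ∑ k, S.g k * X * S.g k

lemma sand_add (X Y : Matrix (Fin 16) (Fin 16) ℂ) : S.sand (X + Y) = S.sand X + S.sand Y := by
  simp [sand, mul_add, add_mul, Finset.sum_add_distrib]

lemma sand_sub (X Y : Matrix (Fin 16) (Fin 16) ℂ) : S.sand (X - Y) = S.sand X - S.sand Y := by
  simp [sand, mul_sub, sub_mul, Finset.sum_sub_distrib]

lemma sand_smul (c : ℂ) (X : Matrix (Fin 16) (Fin 16) ℂ) : S.sand (c • X) = c • S.sand X := by
  simp [sand, Finset.smul_sum]

lemma sand_one : S.sand 1 = (9 : ℂ) • 1 := by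
  simp only [sand, mul_one, g_sq]
  rw [Finset.sum_const, Finset.card_univ, Fintype.card_fin, ← Nat.cast_smul_eq_nsmul ℂ]
  norm_num

lemma sand_g_mul (i : Fin 9) (X : Matrix (Fin 16) (Fin 16) ℂ) :
    S.sand (S.g i * X) = (2 : ℂ) • (X * S.g i) - S.g i * S.sand X := by
  simp only [sand]
  have h : ∀ k, S.g k * (S.g i * X) * S.g k =
      (if k = i then (2 : ℂ) else 0) • (X * S.g k) - S.g i * (S.g k * X * S.g k) := by
    intro k
    rw [← mul_assoc (S.g k), S.g_swap k i, sub_mul, sub_mul, smul_mul_assoc, one_mul,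
      smul_mul_assoc]
    simp only [mul_assoc]
  rw [Finset.sum_congr rfl fun k _ => h k, Finset.sum_sub_distrib, ← Finset.mul_sum]
  congr 1
  simp

lemma sand_g (i : Fin 9) : S.sand (S.g i) = (-7 : ℂ) • S.g i := by
  have h := S.sand_g_mul i 1
  rw [mul_one, sand_one] at h
  rw [h, one_mul, mul_smul_comm, mul_one, ← sub_smul]; norm_num

lemma sand_gg (i j : Fin 9) :
    S.sand (S.g i * S.g j) = (2 : ℂ) • (S.g j * S.g i) + (7 : ℂ) • (S.g i * S.g j) := by
  rw [sand_g_mul, sand_g, mul_smul_comm, sub_eq_add_neg, ← neg_smul]; norm_num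

lemma sand_g2 (i j : Fin 9) : S.sand (S.g2 i j) = (5 : ℂ) • S.g2 i j := by
  simp only [g2]
  rw [sand_smul, sand_sub, sand_gg, sand_gg]
  module

/-- `∑_{kl} γ_{kl} X γ_{kl} = 9 X - sand (sand X)` -/
lemma sum_g2_g2 (X : Matrix (Fin 16) (Fin 16) ℂ) :
    ∑ k, ∑ l, S.g2 k l * X * S.g2 k l = (9 : ℂ) • X - S.sand (S.sand X) := by
  have h1 : ∀ k l, S.g2 k l * X * S.g2 k l = S.g k * S.g l * X * (S.g k * S.g l)
      - (if k = l then (1:ℂ) else 0) • (S.g k * S.g l * X + X * (S.g k * S.g l) - X) := by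
    intro k l
    rw [g2_eq]
    split_ifs
    · simp only [one_smul]; noncomm_ring
    · simp
  have h2 : ∀ k l, S.g k * S.g l * X * (S.g k * S.g l) =
      (if k = l then (2:ℂ) else 0) • (S.g k * S.g l * X) - S.g k * (S.g l * X * S.g l) * S.g k := by
    intro k l
    rw [S.g_swap k l, mul_sub, ← S.g_swap k l, mul_smul_comm, mul_one]
    congr 1
    noncomm_ring
  simp only [h1, h2, Finset.sum_sub_distrib, ite_smul, zero_smul, Finset.sum_ite_eq,
    Finset.mem_univ, if_true, one_smul, g_sq, one_mul, mul_one, add_sub_cancel_right]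
  have h3 : ∑ x, ∑ x_1, S.g x * (S.g x_1 * X * S.g x_1) * S.g x = S.sand (S.sand X) := by
    simp only [sand, Finset.mul_sum, Finset.sum_mul]
  rw [h3]
  simp only [Finset.sum_const, Finset.card_univ, Fintype.card_fin, ← Nat.cast_smul_eq_nsmul ℂ]
  rw [sub_right_comm]
  congr 1
  rw [smul_smul, ← sub_smul]
  norm_num

lemma sum_g2_g_g2 (i : Fin 9) :
    ∑ k, ∑ l, S.g2 k l * S.g i * S.g2 k l = (-40 : ℂ) • S.g i := by
  rw [sum_g2_g2, sand_g, sand_smul, sand_g, smul_smul, ← sub_smul]; norm_num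

lemma sum_g2_g2_g2 (p q : Fin 9) :
    ∑ k, ∑ l, S.g2 k l * S.g2 p q * S.g2 k l = (-16 : ℂ) • S.g2 p q := by
  rw [sum_g2_g2, sand_g2, sand_smul, sand_g2, smul_smul, ← sub_smul]; norm_num

/-! traces -/

lemma trace_eq_zero_of_anti (m : Fin 9) (X : Matrix (Fin 16) (Fin 16) ℂ)
    (h : S.g m * X = -(X * S.g m)) : X.trace = 0 := by
  have h1 : (S.g m * X * S.g m).trace = X.trace := by
    rw [Matrix.trace_mul_comm, ← mul_assoc, g_sq, one_mul]
  have h2 : (S.g m * X * S.g m).trace = -X.trace := by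
    rw [h, neg_mul, mul_assoc, g_sq, mul_one, Matrix.trace_neg]
  rw [h1] at h2
  have h3 : (2 : ℂ) * X.trace = 0 := by linear_combination h2
  simpa using h3

lemma trace_g (i : Fin 9) : (S.g i).trace = 0 := by
  obtain ⟨m, hm⟩ : ∃ m : Fin 9, m ≠ i := exists_ne i
  exact S.trace_eq_zero_of_anti m _ (S.g_swap_ne hm)

lemma trace_gg (i j : Fin 9) : (S.g i * S.g j).trace = if i = j then 16 else 0 := by
  by_cases h : i = j
  · subst h; simp [g_sq, Matrix.trace_one]
  · rw [if_neg h]
    have h1 := S.g_swap_ne h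
    have h2 : (S.g i * S.g j).trace = -(S.g i * S.g j).trace := by
      conv_lhs => rw [h1, Matrix.trace_neg, Matrix.trace_mul_comm]
    have h3 : (2 : ℂ) * (S.g i * S.g j).trace = 0 := by linear_combination h2
    simpa using h3

lemma trace_ggg (i j k : Fin 9) : (S.g i * S.g j * S.g k).trace = 0 := by
  obtain ⟨m, hm⟩ : ∃ m : Fin 9, m ∉ ({i, j, k} : Finset (Fin 9)) := by
    by_contra h
    push Not at h
    have : (Finset.univ : Finset (Fin 9)).card ≤ ({i, j, k} : Finset (Fin 9)).card :=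
      Finset.card_le_card (fun x _ => h x)
    have h3 : ({i, j, k} : Finset (Fin 9)).card ≤ 3 := Finset.card_le_three
    simp at this
    omega
  simp only [Finset.mem_insert, Finset.mem_singleton, not_or] at hm
  obtain ⟨h1, h2, h3⟩ := hm
  refine S.trace_eq_zero_of_anti m _ ?_
  rw [← mul_assoc, ← mul_assoc, S.g_swap_ne h1, neg_mul, neg_mul, mul_assoc (S.g i),
    S.g_swap_ne h2, mul_neg, neg_mul, neg_neg, mul_assoc, mul_assoc, mul_assoc,
    S.g_swap_ne h3]
  noncomm_ring

lemma trace_ggggg (i j k l n : Fin 9) :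
    (S.g i * S.g j * S.g k * S.g l * S.g n).trace = 0 := by
  obtain ⟨m, hm⟩ : ∃ m : Fin 9, m ∉ ({i, j, k, l, n} : Finset (Fin 9)) := by
    by_contra h
    push Not at h
    have : (Finset.univ : Finset (Fin 9)).card ≤ ({i, j, k, l, n} : Finset (Fin 9)).card :=
      Finset.card_le_card (fun x _ => h x)
    have h3 : ({i, j, k, l, n} : Finset (Fin 9)).card ≤ 5 := Finset.card_le_five
    simp at this
    omega
  simp only [Finset.mem_insert, Finset.mem_singleton, not_or] at hm
  obtain ⟨h1, h2, h3, h4, h5⟩ := hm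
  refine S.trace_eq_zero_of_anti m _ ?_
  have e1 := S.g_swap_ne h1
  have e2 := S.g_swap_ne h2
  have e3 := S.g_swap_ne h3
  have e4 := S.g_swap_ne h4
  have e5 := S.g_swap_ne h5
  calc S.g m * (S.g i * S.g j * S.g k * S.g l * S.g n)
      = (S.g m * S.g i) * (S.g j * S.g k * S.g l * S.g n) := by noncomm_ring
    _ = -(S.g i * (S.g m * S.g j) * (S.g k * S.g l * S.g n)) := by rw [e1]; noncomm_ring
    _ = (S.g i * S.g j * (S.g m * S.g k) * (S.g l * S.g n)) := by rw [e2]; noncomm_ring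
    _ = -(S.g i * S.g j * S.g k * (S.g m * S.g l) * (S.g n)) := by rw [e3]; noncomm_ring
    _ = (S.g i * S.g j * S.g k * S.g l * (S.g m * S.g n)) := by rw [e4]; noncomm_ring
    _ = -(S.g i * S.g j * S.g k * S.g l * S.g n * S.g m) := by rw [e5]; noncomm_ring

lemma trace_g2 (i j : Fin 9) : (S.g2 i j).trace = 0 := by
  rw [g2, Matrix.trace_smul, Matrix.trace_sub, Matrix.trace_mul_comm (S.g j)]; simp

lemma trace_g_g2 (i k l : Fin 9) : (S.g i * S.g2 k l).trace = 0 := by
  rw [g2_eq, mul_sub, Matrix.trace_sub, ← mul_assoc, trace_ggg, mul_smul_comm, mul_one,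
    Matrix.trace_smul, trace_g]
  simp

lemma trace_g2_g_g2 (p q j k l : Fin 9) : (S.g2 p q * S.g j * S.g2 k l).trace = 0 := by
  rw [g2_eq, g2_eq]
  have : (S.g p * S.g q - (if p = q then (1:ℂ) else 0) • 1) * S.g j *
      (S.g k * S.g l - (if k = l then (1:ℂ) else 0) • 1) =
      S.g p * S.g q * S.g j * S.g k * S.g l - (if k = l then (1:ℂ) else 0) • (S.g p * S.g q * S.g j)
      - (if p = q then (1:ℂ) else 0) • (S.g j * S.g k * S.g l)
      + ((if p = q then (1:ℂ) else 0) * (if k = l then (1:ℂ) else 0)) • S.g j := by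
    simp only [sub_mul, mul_sub, smul_mul_assoc, mul_smul_comm, one_mul, mul_one, smul_sub,
      smul_smul, ← mul_assoc]
    rw [mul_comm (if k = l then (1:ℂ) else 0)]
    abel
  rw [this, Matrix.trace_add, Matrix.trace_sub, Matrix.trace_sub, Matrix.trace_smul,
    Matrix.trace_smul, Matrix.trace_smul, trace_ggggg, trace_ggg, trace_ggg, trace_g]
  simp

lemma trace_gg_g2 (i j k l : Fin 9) : (S.g i * S.g j * S.g2 k l).trace =
    16 * ((if i = l then 1 else 0) * (if j = k then 1 else 0) -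
      (if i = k then 1 else 0) * (if j = l then 1 else 0)) := by
  have h4 : ∀ a b c d, (S.g a * S.g b * S.g c * S.g d).trace =
      (if a = b then 2 else 0) * (S.g c * S.g d).trace
      - (if a = c then 2 else 0) * (S.g b * S.g d).trace
      + (if a = d then 2 else 0) * (S.g b * S.g c).trace
      - (S.g a * S.g b * S.g c * S.g d).trace := by
    intro a b c d
    have e : S.g a * S.g b * S.g c * S.g d =
        (if a = b then (2:ℂ) else 0) • (S.g c * S.g d)
        - (if a = c then (2:ℂ) else 0) • (S.g b * S.g d)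
        + (if a = d then (2:ℂ) else 0) • (S.g b * S.g c)
        - S.g b * S.g c * S.g d * S.g a := by
      rw [S.g_swap a b, sub_mul, sub_mul, smul_mul_assoc, smul_mul_assoc, one_mul,
        mul_assoc (S.g b) (S.g a), S.g_swap a c, mul_sub, mul_smul_comm, mul_one, sub_mul,
        smul_mul_assoc, ← mul_assoc (S.g b), mul_assoc (S.g b * S.g c) (S.g a), S.g_swap a d,
        mul_sub, mul_smul_comm, mul_one, ← mul_assoc]
      abel
    conv_lhs => rw [e]
    rw [Matrix.trace_sub, Matrix.trace_add, Matrix.trace_sub, Matrix.trace_smul,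
      Matrix.trace_smul, Matrix.trace_smul, smul_eq_mul, smul_eq_mul, smul_eq_mul,
      Matrix.trace_mul_comm (S.g b * S.g c * S.g d) (S.g a), ← mul_assoc, ← mul_assoc]
  rw [g2_eq, mul_sub, Matrix.trace_sub, mul_smul_comm, mul_one, Matrix.trace_smul, smul_eq_mul,
    ← mul_assoc]
  have h5 := h4 i j k l
  have h6 : (S.g i * S.g j * S.g k * S.g l).trace =
      (if i = j then 1 else 0) * (S.g k * S.g l).trace
      - (if i = k then 1 else 0) * (S.g j * S.g l).trace
      + (if i = l then 1 else 0) * (S.g j * S.g k).trace := by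
    have : ∀ (p : Prop) [Decidable p], (if p then (2:ℂ) else 0) = 2 * (if p then 1 else 0) := by
      intro p _; split_ifs <;> simp
    simp only [this] at h5
    linear_combination (1/2) * h5
  have h7 : ∀ (p : Prop) [Decidable p], (if p then (16:ℂ) else 0) = 16 * (if p then 1 else 0) := by
    intro p _; split_ifs <;> simp
  rw [h6]
  simp only [trace_gg, h7]
  ring

end CS
end Vale.Agent.P353
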