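import Vale.Agent.P353.Ident2

open Matrix

namespace Vale.Agent.P353

namespace CS

variable {R : Type*} [Ring R] [Algebra ℂ R] (S : CS R)

/-- unit vector in direction `(i, A)` -/
def E1 (i : Fin 9) (A : Fin 3) (j : Fin 9) (B : Fin 3) : ℂ := if j = i ∧ B = A then 1 else 0

lemma E1_sum (i : Fin 9) (A : Fin 3) (j : Fin 9) {M : Type*} [AddCommGroup M] [Module ℂ M]
    (f : Fin 3 → M) : ∑ B, E1 i A j B • f B = if j = i then f A else 0 := by
  by_cases h : j = i <;> simp [E1, h]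

lemma MS_E1 (i : Fin 9) (A : Fin 3) (β : Fin 16) :
    S.MS (E1 i A) β = ∑ l, S.vec (S.g l) A β * S.Sk i l := by
  simp only [MS, E1_sum, ite_mul, zero_mul, Finset.sum_ite_irrel, Finset.sum_const_zero,
    Finset.sum_ite_eq', Finset.mem_univ, if_true]

lemma MI_E1 (i : Fin 9) (A : Fin 3) (β : Fin 16) :
    S.MI (E1 i A) β = ∑ k, ∑ l, S.vec (S.g2 k l * S.g i) A β * S.Sk k l := by
  simp only [MI, E1_sum, Finset.sum_ite_eq', Finset.mem_univ, if_true]

lemma Bv_E1 (i : Fin 9) (A : Fin 3) (β : Fin 16) :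
    S.Bv (E1 i A) β = S.vec (S.g i) A β := by
  simp only [Bv, E1_sum, Finset.sum_ite_eq', Finset.mem_univ, if_true]

lemma MG_E1 (i : Fin 9) (A : Fin 3) (β : Fin 16) :
    S.MG (E1 i A) β = ∑ C, (∑ A', (eps A A' C : ℂ) • S.vec (S.g i) A' β) * S.sG C := by
  have h : ∀ C j, ∑ B, ∑ A', ((eps B A' C : ℂ) * E1 i A j B) • S.vec (S.g j) A' β =
      if j = i then ∑ A', (eps A A' C : ℂ) • S.vec (S.g i) A' β else 0 := by
    intro C j
    have : ∀ B, ∑ A', ((eps B A' C : ℂ) * E1 i A j B) • S.vec (S.g j) A' β =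
        E1 i A j B • ∑ A', (eps B A' C : ℂ) • S.vec (S.g j) A' β := by
      intro B
      rw [Finset.smul_sum]
      refine Finset.sum_congr rfl fun A' _ => ?_
      rw [smul_smul, mul_comm]
    simp only [this]
    rw [E1_sum]
    by_cases hj : j = i
    · subst hj; rfl
    · simp [hj]
  simp only [MG, h, Finset.sum_ite_eq', Finset.mem_univ, if_true]

lemma DS : ∑ i, ∑ A, ∑ β, S.vec (S.g i) A β * S.MS (E1 i A) β =
    (4 * Complex.I) • ∑ k, ∑ l, S.Sk k l * S.Sk k l := by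
  rw [Finset.smul_sum]
  refine Finset.sum_congr rfl fun i _ => ?_
  simp only [MS_E1, Finset.mul_sum]
  have h1 : ∑ A, ∑ β, ∑ l, S.vec (S.g i) A β * (S.vec (S.g l) A β * S.Sk i l) =
      ∑ l, S.tot (S.g i * S.g l) * S.Sk i l := by
    have : ∀ A, ∑ β, ∑ l, S.vec (S.g i) A β * (S.vec (S.g l) A β * S.Sk i l) =
        ∑ l, S.bil (S.g i * S.g l) A A * S.Sk i l := by
      intro A
      rw [Finset.sum_comm]
      refine Finset.sum_congr rfl fun l _ => ?_
      simp only [← mul_assoc]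
      rw [← Finset.sum_mul, S.sum_vec_mul_vec, S.g_symm]
    simp only [this]
    rw [Finset.sum_comm]
    refine Finset.sum_congr rfl fun l _ => ?_
    rw [← Finset.sum_mul]; rfl
  rw [h1, Finset.smul_sum]
  refine Finset.sum_congr rfl fun l _ => ?_
  rw [tot_gg, add_mul, smul_mul_assoc, smul_mul_assoc, one_mul]
  by_cases h : i = l
  · subst h; simp [Sk_self]
  · simp [h]

lemma DI : ∑ i, ∑ A, ∑ β, S.vec (S.g i) A β * S.MI (E1 i A) β =
    (20 * Complex.I) • ∑ k, ∑ l, S.Sk k l * S.Sk k l := by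
  have h1 : ∀ i A, ∑ β, S.vec (S.g i) A β * S.MI (E1 i A) β =
      ∑ k, ∑ l, S.bil (S.g i * S.g2 k l * S.g i) A A * S.Sk k l := by
    intro i A
    simp only [MI_E1, Finset.mul_sum]
    rw [Finset.sum_comm]
    refine Finset.sum_congr rfl fun k _ => ?_
    rw [Finset.sum_comm]
    refine Finset.sum_congr rfl fun l _ => ?_
    simp only [← mul_assoc]
    rw [← Finset.sum_mul, S.sum_vec_mul_vec, S.g_symm, mul_assoc (S.g i)]
  have h2 : ∀ i, ∑ A, ∑ β, S.vec (S.g i) A β * S.MI (E1 i A) β =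
      ∑ k, ∑ l, S.tot (S.g i * S.g2 k l * S.g i) * S.Sk k l := by
    intro i
    simp only [h1]
    rw [Finset.sum_comm]
    refine Finset.sum_congr rfl fun k _ => ?_
    rw [Finset.sum_comm]
    refine Finset.sum_congr rfl fun l _ => ?_
    rw [← Finset.sum_mul]; rfl
  simp only [h2]
  rw [Finset.sum_comm, Finset.smul_sum]
  refine Finset.sum_congr rfl fun k _ => ?_
  rw [Finset.sum_comm, Finset.smul_sum]
  refine Finset.sum_congr rfl fun l _ => ?_
  rw [← Finset.sum_mul, ← S.tot_sum]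
  have : ∑ i, S.g i * S.g2 k l * S.g i = S.sand (S.g2 k l) := rfl
  rw [this, sand_g2, tot_smul, tot_g2, smul_smul, smul_mul_assoc]
  congr 1; ring

lemma DB : ∑ i, ∑ A, ∑ β, S.vec (S.g i) A β * S.Bv (E1 i A) β = (216 : ℂ) • (1 : R) := by
  have h : ∀ i, ∑ A, ∑ β, S.vec (S.g i) A β * S.Bv (E1 i A) β = (24 : ℂ) • (1 : R) := by
    intro i
    simp only [Bv_E1, S.sum_vec_mul_vec, S.g_symm, S.g_sq]
    exact S.tot_one
  simp only [h]
  rw [Finset.sum_const, Finset.card_univ, Fintype.card_fin, ← Nat.cast_smul_eq_nsmul ℂ, smul_smul]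
  norm_num

lemma DG : ∑ i, ∑ A, ∑ β, S.vec (S.g i) A β * S.MG (E1 i A) β =
    (18 * Complex.I) • ∑ C, S.sG C * S.sG C := by
  have h : ∀ i, ∑ A, ∑ β, S.vec (S.g i) A β * S.MG (E1 i A) β =
      (2 * Complex.I) • ∑ C, S.sG C * S.sG C := by
    intro i
    have h1 : ∀ A, ∑ β, S.vec (S.g i) A β * S.MG (E1 i A) β =
        ∑ C, (∑ A', (eps A A' C : ℂ) • S.bil 1 A A') * S.sG C := by
      intro A
      simp only [MG_E1, Finset.mul_sum]
      rw [Finset.sum_comm]
      refine Finset.sum_congr rfl fun C _ => ?_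
      simp only [← mul_assoc]
      rw [← Finset.sum_mul]
      congr 1
      simp only [Finset.mul_sum, mul_smul_comm]
      rw [Finset.sum_comm]
      refine Finset.sum_congr rfl fun A' _ => ?_
      rw [← Finset.smul_sum, S.sum_vec_mul_vec, S.g_symm, S.g_sq]
    simp only [h1]
    rw [Finset.sum_comm, Finset.smul_sum]
    refine Finset.sum_congr rfl fun C _ => ?_
    rw [← Finset.sum_mul, ← smul_mul_assoc]
    congr 1
    rw [sG, smul_smul]
    have : 2 * Complex.I * (-Complex.I / 2) = 1 := by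
      have := Complex.I_mul_I
      linear_combination -this
    rw [this, one_smul]
    refine Finset.sum_congr rfl fun A _ => Finset.sum_congr rfl fun A' _ => ?_
    rw [eps_cyc A A' C]
  simp only [h]
  rw [Finset.sum_const, Finset.card_univ, Fintype.card_fin, ← Nat.cast_smul_eq_nsmul ℂ, smul_smul]
  congr 1
  push_cast; ring

/-- (P2) total -/
lemma P2 (κ : ℂ) (X : Fin 9 → Fin 3 → ℂ) :
    (-Complex.I) • ∑ i, ∑ A, ∑ β, S.vec (S.g i) A β * S.Mv (E1 i A) β +
      ∑ β, S.Wv κ X β * S.Mv X β =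
    ((2 : ℂ) • ∑ k, ∑ l, S.Sk k l * S.Sk k l + ∑ C, S.sG C * S.sG C - (88 : ℂ) • 1) +
    ∑ β, (-S.Mv X β + (56 / 81 * Complex.I) • S.Bv X β) * S.Wv κ X β
    + ((-70 / 81 : ℂ) • ∑ k, ∑ l, S.Sk k l * S.Sk k l + (7 / 3 : ℂ) • ∑ C, S.sG C * S.sG C) := by
  have e1 : ∑ i, ∑ A, ∑ β, S.vec (S.g i) A β * S.Mv (E1 i A) β = (1 / 27 : ℂ) •
      (∑ i, ∑ A, ∑ β, S.vec (S.g i) A β * S.MS (E1 i A) β
      + (5 : ℂ) • ∑ i, ∑ A, ∑ β, S.vec (S.g i) A β * S.MG (E1 i A) β
      + (4 / 3 : ℂ) • ∑ i, ∑ A, ∑ β, S.vec (S.g i) A β * S.MI (E1 i A) β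
      - (11 * Complex.I) • ∑ i, ∑ A, ∑ β, S.vec (S.g i) A β * S.Bv (E1 i A) β) := by
    simp only [Mv, mul_smul_comm, mul_add, mul_sub, Finset.smul_sum,
      Finset.sum_add_distrib, Finset.sum_sub_distrib, smul_add, smul_sub]
  have e2 : ∑ β, S.Wv κ X β * S.Mv X β = (1 / 27 : ℂ) •
      (∑ β, S.Wv κ X β * S.MS X β
      + (5 : ℂ) • ∑ β, S.Wv κ X β * S.MG X β
      + (4 / 3 : ℂ) • ∑ β, S.Wv κ X β * S.MI X β
      - (11 * Complex.I) • ∑ β, S.Wv κ X β * S.Bv X β) := by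
    simp only [Mv, mul_smul_comm, mul_add, mul_sub, Finset.smul_sum,
      Finset.sum_add_distrib, Finset.sum_sub_distrib, smul_add, smul_sub]
  have e3 : ∑ β, S.Mv X β * S.Wv κ X β = (1 / 27 : ℂ) •
      (∑ β, S.MS X β * S.Wv κ X β
      + (5 : ℂ) • ∑ β, S.MG X β * S.Wv κ X β
      + (4 / 3 : ℂ) • ∑ β, S.MI X β * S.Wv κ X β
      - (11 * Complex.I) • ∑ β, S.Bv X β * S.Wv κ X β) := by
    simp only [Mv, smul_mul_assoc, add_mul, sub_mul, Finset.smul_sum,
      Finset.sum_add_distrib, Finset.sum_sub_distrib, smul_add, smul_sub]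
  have e4 : ∑ β, (-S.Mv X β + (56 / 81 * Complex.I) • S.Bv X β) * S.Wv κ X β =
      -∑ β, S.Mv X β * S.Wv κ X β + (56 / 81 : ℂ) • S.bb κ X := by
    simp only [add_mul, neg_mul, Finset.sum_add_distrib, Finset.sum_neg_distrib, bb,
      smul_mul_assoc, Finset.smul_sum, smul_smul]
  rw [e1, e2, e4, e3, DS, DG, DI, DB, WS, WG, WI, WB]
  have hI : (Complex.I) * Complex.I = -1 := Complex.I_mul_I
  generalize ∑ β, S.MS X β * S.Wv κ X β = a1
  generalize ∑ β, S.MG X β * S.Wv κ X β = a2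
  generalize ∑ β, S.MI X β * S.Wv κ X β = a3
  generalize ∑ β, S.Bv X β * S.Wv κ X β = a4
  generalize ∑ k, ∑ l, S.Sk k l * S.Sk k l = a5
  generalize ∑ C, S.sG C * S.sG C = a6
  generalize S.bb κ X = a7
  generalize S.ee κ X = a8
  have h5 : (-Complex.I) • (1 / 27 : ℂ) • ((4 * Complex.I) • a5 + (5:ℂ) • (18 * Complex.I) • a6
      + (4 / 3 : ℂ) • (20 * Complex.I) • a5 - (11 * Complex.I) • (216 : ℂ) • (1 : R)) =
      (92/81 : ℂ) • a5 + (10 / 3 : ℂ) • a6 - (88 : ℂ) • (1 : R) := by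
    have c1 : (-Complex.I) • (1 / 27 : ℂ) • ((4 * Complex.I) • a5 + (5:ℂ) • (18 * Complex.I) • a6
      + (4 / 3 : ℂ) • (20 * Complex.I) • a5 - (11 * Complex.I) • (216 : ℂ) • (1 : R)) =
      (-(Complex.I * Complex.I)) • ((92/81 : ℂ) • a5 + (10 / 3 : ℂ) • a6 - (88 : ℂ) • (1 : R)) := by
      module
    rw [c1, hI]; module
  rw [h5]
  module

/-- (P1) total -/
lemma P1 (X : Fin 9 → Fin 3 → ℂ) (i : Fin 9) (A : Fin 3) :
    ∑ β, S.vec (S.g i) A β * S.Mv X β =
      ∑ β, (-S.Mv X β + (56 / 81 * Complex.I) • S.Bv X β) * S.vec (S.g i) A β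
      - (140 / 81 : ℂ) • ∑ j, X j A • S.Sk j i
      + (7 / 3 : ℂ) • ∑ B, ∑ C, ((eps C B A : ℂ) * X i B) • S.sG C := by
  have e2 : ∑ β, S.vec (S.g i) A β * S.Mv X β = (1 / 27 : ℂ) •
      (∑ β, S.vec (S.g i) A β * S.MS X β
      + (5 : ℂ) • ∑ β, S.vec (S.g i) A β * S.MG X β
      + (4 / 3 : ℂ) • ∑ β, S.vec (S.g i) A β * S.MI X β
      - (11 * Complex.I) • ∑ β, S.vec (S.g i) A β * S.Bv X β) := by
    simp only [Mv, mul_smul_comm, mul_add, mul_sub, Finset.smul_sum,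
      Finset.sum_add_distrib, Finset.sum_sub_distrib, smul_add, smul_sub]
  have e3 : ∑ β, S.Mv X β * S.vec (S.g i) A β = (1 / 27 : ℂ) •
      (∑ β, S.MS X β * S.vec (S.g i) A β
      + (5 : ℂ) • ∑ β, S.MG X β * S.vec (S.g i) A β
      + (4 / 3 : ℂ) • ∑ β, S.MI X β * S.vec (S.g i) A β
      - (11 * Complex.I) • ∑ β, S.Bv X β * S.vec (S.g i) A β) := by
    simp only [Mv, smul_mul_assoc, add_mul, sub_mul, Finset.smul_sum,
      Finset.sum_add_distrib, Finset.sum_sub_distrib, smul_add, smul_sub]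
  have e4 : ∑ β, (-S.Mv X β + (56 / 81 * Complex.I) • S.Bv X β) * S.vec (S.g i) A β =
      -∑ β, S.Mv X β * S.vec (S.g i) A β + (56 / 81 * Complex.I) •
        ∑ β, S.Bv X β * S.vec (S.g i) A β := by
    simp only [add_mul, neg_mul, Finset.sum_add_distrib, Finset.sum_neg_distrib,
      smul_mul_assoc, Finset.smul_sum]
  rw [e2, e4, e3, P1S, P1G, P1I, P1B]
  module

lemma P2' (κ : ℂ) (X : Fin 9 → Fin 3 → ℂ) :
    (-Complex.I) • ∑ i, ∑ A, ∑ β, S.vec (S.g i) A β * S.Mv (E1 i A) β +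
      ∑ β, S.Wv κ X β * S.Mv X β =
    ((2 : ℂ) • ∑ k, ∑ l, S.Sk k l * S.Sk k l + ∑ C, S.sG C * S.sG C - (88 : ℂ) • 1) +
    ∑ β, (-(S.Mv X β * S.Wv κ X β) + (56 / 81 * Complex.I) • (S.Bv X β * S.Wv κ X β))
    + ((-70 / 81 : ℂ) • ∑ k, ∑ l, S.Sk k l * S.Sk k l + (7 / 3 : ℂ) • ∑ C, S.sG C * S.sG C) := by
  rw [P2]
  simp only [add_mul, neg_mul, smul_mul_assoc]

lemma P1' (X : Fin 9 → Fin 3 → ℂ) (i : Fin 9) (A : Fin 3) :
    ∑ β, S.vec (S.g i) A β * S.Mv X β =
      ∑ β, (-(S.Mv X β * S.vec (S.g i) A β) +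
        (56 / 81 * Complex.I) • (S.Bv X β * S.vec (S.g i) A β))
      - (140 / 81 : ℂ) • ∑ j, X j A • S.Sk j i
      + (7 / 3 : ℂ) • ∑ B, ∑ C, ((eps C B A : ℂ) * X i B) • S.sG C := by
  rw [P1]
  simp only [add_mul, neg_mul, smul_mul_assoc]

/-! ### the rotation identity -/

lemma sum_vec_anti (P N : Matrix (Fin 16) (Fin 16) ℂ) (A B : Fin 3) :
    ∑ β, S.vec P A β * S.vec N B β + ∑ β, S.vec N B β * S.vec P A β =
      (if A = B then (P * Nᵀ).trace else 0) • (1 : R) := by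
  rw [← Finset.sum_add_distrib]
  simp only [vec_anti]
  by_cases h : A = B
  · simp [h, Matrix.trace, Finset.sum_smul]
  · simp [h]

/-- the multiplier for `J_{kl}` -/
noncomputable def MJv (k l : Fin 9) (X : Fin 9 → Fin 3 → ℂ) (β : Fin 16) : R :=
  (9 : ℂ) • (∑ A, (X k A • S.vec (S.g l) A β - X l A • S.vec (S.g k) A β))
    + (2 : ℂ) • ∑ j, ∑ A, X j A • S.vec (S.g2 k l * S.g j) A β

lemma sum_mul_MJv (k l : Fin 9) (X : Fin 9 → Fin 3 → ℂ) (P : Matrix (Fin 16) (Fin 16) ℂ)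
    (A : Fin 3) :
    ∑ β, S.vec P A β * S.MJv k l X β + ∑ β, S.MJv k l X β * S.vec P A β =
      (9 * (X k A * (P * S.g l).trace - X l A * (P * S.g k).trace) -
        2 * ∑ j, X j A * (P * S.g j * S.g2 k l).trace) • (1 : R) := by
  have h1 : ∑ β, S.vec P A β * S.MJv k l X β = (9 : ℂ) • ∑ B,
      (X k B • ∑ β, S.vec P A β * S.vec (S.g l) B β -
        X l B • ∑ β, S.vec P A β * S.vec (S.g k) B β) +
      (2 : ℂ) • ∑ j, ∑ B, X j B • ∑ β, S.vec P A β * S.vec (S.g2 k l * S.g j) B β := by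
    simp only [MJv, mul_add, mul_smul_comm, Finset.mul_sum, mul_sub, Finset.sum_add_distrib,
      ← Finset.smul_sum]
    congr 2
    · rw [Finset.sum_comm]
      refine Finset.sum_congr rfl fun B _ => ?_
      rw [Finset.sum_sub_distrib, Finset.smul_sum, Finset.smul_sum]
    · rw [Finset.sum_comm]
      refine Finset.sum_congr rfl fun j _ => ?_
      rw [Finset.sum_comm]
      refine Finset.sum_congr rfl fun B _ => ?_
      rw [Finset.smul_sum]
  have h2 : ∑ β, S.MJv k l X β * S.vec P A β = (9 : ℂ) • ∑ B,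
      (X k B • ∑ β, S.vec (S.g l) B β * S.vec P A β -
        X l B • ∑ β, S.vec (S.g k) B β * S.vec P A β) +
      (2 : ℂ) • ∑ j, ∑ B, X j B • ∑ β, S.vec (S.g2 k l * S.g j) B β * S.vec P A β := by
    simp only [MJv, add_mul, smul_mul_assoc, Finset.sum_mul, sub_mul, Finset.sum_add_distrib,
      ← Finset.smul_sum]
    congr 2
    · rw [Finset.sum_comm]
      refine Finset.sum_congr rfl fun B _ => ?_
      rw [Finset.sum_sub_distrib, Finset.smul_sum, Finset.smul_sum]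
    · rw [Finset.sum_comm]
      refine Finset.sum_congr rfl fun j _ => ?_
      rw [Finset.sum_comm]
      refine Finset.sum_congr rfl fun B _ => ?_
      rw [Finset.smul_sum]
  have ht : ∀ j, (P * (S.g2 k l * S.g j)ᵀ).trace = -(P * S.g j * S.g2 k l).trace := by
    intro j
    rw [Matrix.transpose_mul, g2_transpose, S.g_symm, mul_neg, mul_neg, Matrix.trace_neg,
      ← mul_assoc]
  rw [h1, h2]
  have h3 : ∀ a b c d : R, ((9 : ℂ) • a + (2 : ℂ) • b) + ((9 : ℂ) • c + (2 : ℂ) • d) =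
      (9 : ℂ) • (a + c) + (2 : ℂ) • (b + d) := by intros; module
  rw [h3]
  simp only [← Finset.sum_add_distrib]
  have h4 : ∀ B, X k B • ∑ β, S.vec P A β * S.vec (S.g l) B β -
        X l B • ∑ β, S.vec P A β * S.vec (S.g k) B β +
      (X k B • ∑ β, S.vec (S.g l) B β * S.vec P A β -
        X l B • ∑ β, S.vec (S.g k) B β * S.vec P A β) =
      if A = B then (X k A * (P * S.g l).trace - X l A * (P * S.g k).trace) • (1 : R) else 0 := by
    intro B
    have : X k B • ∑ β, S.vec P A β * S.vec (S.g l) B β -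
        X l B • ∑ β, S.vec P A β * S.vec (S.g k) B β +
      (X k B • ∑ β, S.vec (S.g l) B β * S.vec P A β -
        X l B • ∑ β, S.vec (S.g k) B β * S.vec P A β) =
        X k B • (∑ β, S.vec P A β * S.vec (S.g l) B β + ∑ β, S.vec (S.g l) B β * S.vec P A β) -
        X l B • (∑ β, S.vec P A β * S.vec (S.g k) B β + ∑ β, S.vec (S.g k) B β * S.vec P A β) := by
      module
    rw [this, sum_vec_anti, sum_vec_anti, S.g_symm, S.g_symm]
    by_cases h : A = B
    · subst h; simp only [if_true]; module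
    · simp [h]
  have h5 : ∀ j B, X j B • ∑ β, S.vec P A β * S.vec (S.g2 k l * S.g j) B β +
      X j B • ∑ β, S.vec (S.g2 k l * S.g j) B β * S.vec P A β =
      if A = B then (-(X j A * (P * S.g j * S.g2 k l).trace)) • (1 : R) else 0 := by
    intro j B
    rw [← smul_add, sum_vec_anti, ht]
    by_cases h : A = B
    · subst h; simp only [if_true]; module
    · simp [h]
  simp only [h4, h5, Finset.sum_ite_eq, Finset.mem_univ, if_true]
  rw [← Finset.sum_smul, Finset.sum_neg_distrib]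
  module

lemma PJ1 (k l : Fin 9) (X : Fin 9 → Fin 3 → ℂ) (i : Fin 9) (A : Fin 3) :
    ∑ β, S.vec (S.g i) A β * S.MJv k l X β =
      - ∑ β, S.MJv k l X β * S.vec (S.g i) A β +
      (112 * (X k A * (if i = l then 1 else 0) - X l A * (if i = k then 1 else 0))) • (1 : R) := by
  rw [eq_neg_add_iff_add_eq, add_comm, sum_mul_MJv]
  congr 1
  have h : ∀ j, X j A * (S.g i * S.g j * S.g2 k l).trace =
      (if j = k then (16 * X k A * (if i = l then 1 else 0)) else 0) -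
      (if j = l then (16 * X l A * (if i = k then 1 else 0)) else 0) := by
    intro j
    rw [S.trace_gg_g2]
    by_cases h1 : j = k
    · subst h1
      by_cases h2 : j = l
      · subst h2; simp
      · simp only [h2, if_true, if_false]; ring
    · by_cases h2 : j = l
      · subst h2; simp only [h1, if_true, if_false]; ring
      · simp [h1, h2]
  simp only [h, Finset.sum_sub_distrib, Finset.sum_ite_eq', Finset.mem_univ, if_true, trace_gg]
  have a4 : ∀ (P : Prop) [Decidable P], (if P then (16:ℂ) else 0) = 16 * (if P then (1:ℂ) else 0) := by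
    intro P _; split_ifs <;> simp
  rw [a4, a4]
  ring

lemma PJ2 (κ : ℂ) (k l : Fin 9) (hkl : k ≠ l) (X : Fin 9 → Fin 3 → ℂ) :
    (-Complex.I) • ∑ i, ∑ A, ∑ β, S.vec (S.g i) A β * S.MJv k l (E1 i A) β +
      ∑ β, S.Wv κ X β * S.MJv k l X β + ∑ β, S.MJv k l X β * S.Wv κ X β =
    (112 : ℂ) • S.Sk k l := by
  have h1 : ∑ β, S.Wv κ X β * S.MJv k l X β + ∑ β, S.MJv k l X β * S.Wv κ X β = 0 := by
    rw [sum_Wv_mul, sum_mul_Wv, ← smul_add]
    have a1 : ∀ p q j, (S.g2 p q * S.g j).trace = 0 := by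
      intro p q j; rw [Matrix.trace_mul_comm, trace_g_g2]
    have a2 : ∀ p q j, (S.g2 p q * S.g j * S.g2 k l).trace = 0 := by
      intro p q j; rw [trace_g2_g_g2]
    have a3 : ∀ p q A, ∑ β, S.vec (S.g2 p q) A β * S.MJv k l X β +
        ∑ β, S.MJv k l X β * S.vec (S.g2 p q) A β = 0 := by
      intro p q A
      rw [sum_mul_MJv]
      simp [a1, a2]
    have a4 : ∀ (f g : Fin 3 → Fin 9 → Fin 9 → R), ∑ A, ∑ p, ∑ q, FFc κ X A p q • f A p q +
        ∑ A, ∑ p, ∑ q, FFc κ X A p q • g A p q =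
        ∑ A, ∑ p, ∑ q, FFc κ X A p q • (f A p q + g A p q) := by
      intro f g
      simp only [← Finset.sum_add_distrib, ← smul_add]
    rw [a4]
    simp [a3]
  have h2 : ∀ i A β, S.MJv k l (E1 i A) β =
      (9 : ℂ) • ((if k = i then S.vec (S.g l) A β else 0) - (if l = i then S.vec (S.g k) A β else 0))
      + (2 : ℂ) • S.vec (S.g2 k l * S.g i) A β := by
    intro i A β
    simp only [MJv, E1_sum, Finset.sum_sub_distrib, Finset.sum_ite_eq', Finset.mem_univ, if_true]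
  have h3 : ∑ i, ∑ A, ∑ β, S.vec (S.g i) A β * S.MJv k l (E1 i A) β =
      (112 * Complex.I) • S.Sk k l := by
    have b1 : ∀ i, ∑ A, ∑ β, S.vec (S.g i) A β * S.MJv k l (E1 i A) β =
        (9 : ℂ) • ((if k = i then S.tot (S.g i * S.g l) else 0) -
          (if l = i then S.tot (S.g i * S.g k) else 0)) +
          (2 : ℂ) • S.tot (S.g i * S.g2 k l * S.g i) := by
      intro i
      simp only [h2, mul_add, mul_smul_comm, Finset.sum_add_distrib, mul_sub, mul_ite, mul_zero,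
        ← Finset.smul_sum, Finset.sum_sub_distrib, Finset.sum_ite_irrel, Finset.sum_const_zero,
        S.sum_vec_mul_vec, S.g_symm, tot, mul_assoc]
    simp only [b1, Finset.sum_add_distrib, ← Finset.smul_sum, Finset.sum_sub_distrib,
      Finset.sum_ite_eq, Finset.mem_univ, if_true]
    rw [← S.tot_sum]
    have : ∑ i, S.g i * S.g2 k l * S.g i = S.sand (S.g2 k l) := rfl
    rw [this, sand_g2, tot_smul, tot_gg, tot_gg, tot_g2, S.Sk_antisymm l k]
    simp only [hkl, Ne.symm hkl, if_false]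
    module
  rw [add_assoc, h1, h3, add_zero, smul_smul]
  congr 1
  linear_combination (-112) * Complex.I_mul_I

end CS
end Vale.Agent.P353
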