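import Vale.Agent.P353.Loc

open MeasureTheory Filter Topology
open scoped ContDiff

namespace Vale.Agent.P353

variable {F : Type*} [NormedAddCommGroup F] [InnerProductSpace ℂ F]

namespace Setup

variable (S : Setup F)

lemma J_congr {u v : X3 → F} {x : X3} (h : u =ᶠ[𝓝 x] v) (k l : Fin 9) :
    S.J k l u x = S.J k l v x := by
  have h1 : ∀ i A, _root_.Vale.Agent.P353.pd i A u x = _root_.Vale.Agent.P353.pd i A v x := by
    intro i A
    rw [_root_.Vale.Agent.P353.pd, _root_.Vale.Agent.P353.pd, h.fderiv_eq]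
  simp only [J, h1, h.eq_of_nhds]

variable {S}

/-- a cutoff that is `1` on the support of a radial function -/
lemma exists_cut_rad {g : ℝ → ℝ} (hgc : HasCompactSupport g) :
    ∃ χ : X3 → ℝ, ContDiff ℝ ∞ χ ∧ HasCompactSupport χ ∧
      ∀ x, rad g x ≠ 0 → (χ =ᶠ[𝓝 x] fun _ => 1) := by
  obtain ⟨r, hr⟩ := (hcs_rad' hgc).isCompact.isBounded.subset_closedBall (0 : X3)
  obtain ⟨K, _, hcut⟩ := exists_cut
  have hR : 0 < max r 0 + 1 := by positivity
  obtain ⟨χ, hsm, hcs, -, -, hin, -, -, -⟩ := hcut (max r 0 + 1) hR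
  refine ⟨χ, hsm, hcs, fun x hx => ?_⟩
  have h1 : x ∈ tsupport (rad g) := subset_tsupport _ hx
  have h2 := hr h1
  rw [Metric.mem_closedBall, dist_zero_right] at h2
  have h3 : ‖x‖ < max r 0 + 1 := by
    have := le_max_left r 0
    linarith
  have h4 : Metric.ball (0 : X3) (max r 0 + 1) ∈ 𝓝 x :=
    Metric.isOpen_ball.mem_nhds (by simpa using h3)
  filter_upwards [h4] with y hy
  exact hin y (le_of_lt (by simpa using hy))

lemma rad_J_cut {g : ℝ → ℝ} {χ : X3 → ℝ} (hχ : ∀ x, rad g x ≠ 0 → (χ =ᶠ[𝓝 x] fun _ => 1))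
    (k l : Fin 9) (u : X3 → F) (x : X3) :
    ((rad g x : ℝ) : ℂ) • S.J k l u x =
      ((rad g x : ℝ) : ℂ) • S.J k l (fun y => ((χ y : ℝ) : ℂ) • u y) x := by
  by_cases h : rad g x = 0
  · simp [h]
  · congr 1
    refine S.J_congr ?_ k l
    filter_upwards [hχ x h] with y hy
    rw [hy]; simp

lemma pair_lim [CompleteSpace F] {Ψ : Lp F 2 (volume : Measure X3)} {u : ℕ → X3 → F}
    (h : S.Apx Ψ u) {g : ℝ → ℝ} (hg : ContDiff ℝ ∞ g) {χ : X3 → ℝ}
    (hsm : ContDiff ℝ ∞ χ) (hχ : ∀ x, rad g x ≠ 0 → (χ =ᶠ[𝓝 x] fun _ => 1))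
    (k l : Fin 9) (hkl : k ≠ l) {ζ : X3 → F} (hζ : Tst ζ) :
    Tendsto (fun n => ∫ x, inner ℂ (((rad g x : ℝ) : ℂ) • S.Skl k l (ζ x))
      (S.J k l (fun y => ((χ y : ℝ) : ℂ) • u n y) x)) atTop (𝓝 0) := by
  have hw0 : Tst (fun x => S.Skl k l (ζ x)) := Tst.clm (T := fun _ => S.Skl k l) contDiff_const hζ
  have hw : Tst (fun x => ((rad g x : ℝ) : ℂ) • S.Skl k l (ζ x)) := Tst.rsmul (contDiff_rad hg) hw0
  have h1 : ∀ n, ∫ x, inner ℂ (((rad g x : ℝ) : ℂ) • S.Skl k l (ζ x))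
      (S.J k l (fun y => ((χ y : ℝ) : ℂ) • u n y) x) =
      ∫ x, inner ℂ (S.J k l (fun x => ((rad g x : ℝ) : ℂ) • S.Skl k l (ζ x)) x) (u n x) := by
    intro n
    rw [← J_symm S k l _ _ hw (Tst.rsmul hsm (h.1 n)).1]
    refine integral_congr_ae (Filter.Eventually.of_forall fun x => ?_)
    simp only
    rw [S.J_rad hg k l _ x (hw0.diff x)]
    by_cases h0 : rad g x = 0
    · simp [h0]
    · have : χ x = 1 := (hχ x h0).eq_of_nhds
      rw [this]; simp
  simp only [h1]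
  have h2 := ((hw.J S k l).L2t_const).lim_inner h.L2t
  rw [weak_J S Ψ u h k l hkl _ hw] at h2
  exact h2

/-- the rotation term tends to zero -/
lemma J_term [CompleteSpace F] {Ψ : Lp F 2 (volume : Measure X3)} {u : ℕ → X3 → F}
    (h : S.Apx Ψ u) {g : ℝ → ℝ} (hg : ContDiff ℝ ∞ g) (hgc : HasCompactSupport g)
    (k l : Fin 9) (hkl : k ≠ l) :
    Tendsto (fun n => ∫ x, inner ℂ (S.Skl k l (u n x))
      (((rad g x : ℝ) : ℂ) • S.J k l (u n) x)) atTop (𝓝 0) := by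
  obtain ⟨χ, hsm, hcs, hχ⟩ := exists_cut_rad hgc
  obtain ⟨C1, hC1, hJ⟩ := S.nsq_J_cut hsm hcs k l
  obtain ⟨B, hB0, hB⟩ := h.bdd
  obtain ⟨C2, hC2, hA⟩ := bdd_rsmul_op (φ := rad g) (continuous_rad hg.continuous) (hcs_rad' hgc)
    (A := fun _ => S.Skl k l) continuous_const
  have hAc : Continuous (fun x => ((rad g x : ℝ) : ℂ) • S.Skl k l) :=
    continuous_rsmul_op (continuous_rad hg.continuous) continuous_const
  -- the functions
  set z : ℕ → X3 → F := fun n => S.J k l (fun y => ((χ y : ℝ) : ℂ) • u n y) with hz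
  have hzT : ∀ n, Tst (z n) := fun n => (Tst.rsmul hsm (h.1 n)).J S k l
  have hzb : ∀ n, nsq (z n) ≤ C1 * B := fun n =>
    (hJ _ (h.1 n)).trans (mul_le_mul_of_nonneg_left (hB n) hC1)
  have hT : ∀ n m, ∫ x, inner ℂ (S.Skl k l (u n x)) (((rad g x : ℝ) : ℂ) • S.J k l (u n) x) =
      (∫ x, inner ℂ ((((rad g x : ℝ) : ℂ) • S.Skl k l) (u n x - u m x)) (z n x)) +
      ∫ x, inner ℂ (((rad g x : ℝ) : ℂ) • S.Skl k l (u m x)) (z n x) := by
    intro n m
    have m1 : MemLp (fun x => (((rad g x : ℝ) : ℂ) • S.Skl k l) (u n x - u m x)) 2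
        (volume : Measure X3) := memLp_op hAc hA ((h.1 n).sub (h.1 m)).memLp
    have m2 : MemLp (fun x => ((rad g x : ℝ) : ℂ) • S.Skl k l (u m x)) 2
        (volume : Measure X3) := memLp_op hAc hA (h.1 m).memLp
    rw [← integral_add (integrable_inner_memLp m1 (hzT n).memLp)
      (integrable_inner_memLp m2 (hzT n).memLp)]
    refine integral_congr_ae (Filter.Eventually.of_forall fun x => ?_)
    simp only
    rw [rad_J_cut hχ, ← inner_add_left]
    have e : (((rad g x : ℝ) : ℂ) • S.Skl k l) (u n x - u m x) +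
        ((rad g x : ℝ) : ℂ) • S.Skl k l (u m x) = ((rad g x : ℝ) : ℂ) • S.Skl k l (u n x) := by
      rw [_root_.smul_apply, map_sub, smul_sub, sub_add_cancel]
    rw [e, inner_smul_left, inner_smul_right, Complex.conj_ofReal]
  rw [Metric.tendsto_atTop]
  intro ε hε
  -- choose η
  set M : ℝ := C2 * Real.sqrt (C1 * B) + 1 with hM
  have hMpos : 0 < M := by positivity
  set η : ℝ := (ε / (8 * M)) ^ 2 with hη
  have hηpos : 0 < η := by positivity
  have hlim := h.L2t.lim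
  rw [Metric.tendsto_atTop] at hlim
  obtain ⟨m, hm⟩ := hlim η hηpos
  have hm' : ∀ n ≥ m, nsq (fun x => u n x - Ψ x) < η := by
    intro n hn
    have := hm n hn
    rwa [Real.dist_eq, sub_zero, abs_of_nonneg (nsq_nonneg _)] at this
  have hP := pair_lim h hg hsm hχ k l hkl (h.1 m)
  rw [Metric.tendsto_atTop] at hP
  obtain ⟨N, hN⟩ := hP (ε / 2) (by positivity)
  refine ⟨max m N, fun n hn => ?_⟩
  have hnm : m ≤ n := (le_max_left _ _).trans hn
  have hnN : N ≤ n := (le_max_right _ _).trans hn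
  rw [dist_zero_right, hT n m]
  have h1 : ‖∫ x, inner ℂ (((rad g x : ℝ) : ℂ) • S.Skl k l (u m x)) (z n x)‖ < ε / 2 := by
    have := hN n hnN
    rwa [dist_zero_right] at this
  have h2 : ‖∫ x, inner ℂ ((((rad g x : ℝ) : ℂ) • S.Skl k l) (u n x - u m x)) (z n x)‖ ≤
      ε / 2 := by
    have hd : Tst (fun x => u n x - u m x) := (h.1 n).sub (h.1 m)
    have m1 : MemLp (fun x => (((rad g x : ℝ) : ℂ) • S.Skl k l) (u n x - u m x)) 2
        (volume : Measure X3) := memLp_op hAc hA hd.memLp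
    refine (cs_inner m1 (hzT n).memLp).trans ?_
    have e1 : ∫ x, ‖(((rad g x : ℝ) : ℂ) • S.Skl k l) (u n x - u m x)‖ ^ 2 ≤
        C2 ^ 2 * nsq (fun x => u n x - u m x) := nsq_op_le hA hd.memLp
    have e2 : nsq (fun x => u n x - u m x) ≤ 4 * η := by
      have e3 : nsq (fun x => u n x - u m x) =
          nsq (fun x => (u n x - Ψ x) + (-(u m x - Ψ x))) := by
        congr 1; funext x; abel
      rw [e3]
      refine (nsq_add_le ((h.1 n).memLp.sub (Lp.memLp Ψ))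
        (((h.1 m).memLp.sub (Lp.memLp Ψ))).neg).trans ?_
      have e4 : nsq (-fun x => u m x - Ψ x) = nsq (fun x => u m x - Ψ x) := by
        rw [nsq, nsq]; simp only [Pi.neg_apply, norm_neg]
      have e5 : nsq (-(u m - ⇑Ψ)) = nsq (fun x => u m x - Ψ x) := e4
      have e6 := hm' n hnm
      have e7 := hm' m le_rfl
      have e8 : nsq (u n - ⇑Ψ) = nsq (fun x => u n x - Ψ x) := rfl
      rw [e5, e8]
      linarith
    have e9 : Real.sqrt (∫ x, ‖(((rad g x : ℝ) : ℂ) • S.Skl k l) (u n x - u m x)‖ ^ 2) ≤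
        C2 * (2 * (ε / (8 * M))) := by
      rw [← Real.sqrt_sq (by positivity : 0 ≤ C2 * (2 * (ε / (8 * M))))]
      refine Real.sqrt_le_sqrt (e1.trans ?_)
      calc C2 ^ 2 * nsq (fun x => u n x - u m x) ≤ C2 ^ 2 * (4 * η) :=
            mul_le_mul_of_nonneg_left e2 (by positivity)
        _ = (C2 * (2 * (ε / (8 * M)))) ^ 2 := by rw [hη]; ring
    have e10 : Real.sqrt (∫ x, ‖z n x‖ ^ 2) ≤ Real.sqrt (C1 * B) := Real.sqrt_le_sqrt (hzb n)
    calc Real.sqrt (∫ x, ‖(((rad g x : ℝ) : ℂ) • S.Skl k l) (u n x - u m x)‖ ^ 2) *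
          Real.sqrt (∫ x, ‖z n x‖ ^ 2) ≤ C2 * (2 * (ε / (8 * M))) * Real.sqrt (C1 * B) :=
          mul_le_mul e9 e10 (Real.sqrt_nonneg _) (by positivity)
      _ = (C2 * Real.sqrt (C1 * B)) * (ε / (4 * M)) := by field_simp; ring
      _ ≤ M * (ε / (4 * M)) := by
          refine mul_le_mul_of_nonneg_right ?_ (by positivity)
          rw [hM]; linarith
      _ = ε / 4 := by field_simp
      _ ≤ ε / 2 := by linarith
  calc ‖(∫ x, inner ℂ ((((rad g x : ℝ) : ℂ) • S.Skl k l) (u n x - u m x)) (z n x)) +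
        ∫ x, inner ℂ (((rad g x : ℝ) : ℂ) • S.Skl k l (u m x)) (z n x)‖ ≤ _ := norm_add_le _ _
    _ < ε := by linarith

end Setup
end Vale.Agent.P353
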