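import Vale.Agent.P353.Tools

open MeasureTheory Filter Topology
open scoped ContDiff

namespace Vale.Agent.P353

variable {F : Type*} [NormedAddCommGroup F] [InnerProductSpace ℂ F]

/-- square of the `L²` norm -/
noncomputable def nsq (f : X3 → F) : ℝ := ∫ x, ‖f x‖ ^ 2

omit [InnerProductSpace ℂ F] in
lemma nsq_nonneg (f : X3 → F) : 0 ≤ nsq f := integral_nonneg fun _ => by positivity

lemma norm_toLp {f : X3 → F} (hf : MemLp f 2 (volume : Measure X3)) :
    ‖hf.toLp f‖ = Real.sqrt (nsq f) := by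
  have h1 : ‖hf.toLp f‖ ^ 2 = nsq f := by
    have h2 := inner_self_eq_norm_sq_to_K (𝕜 := ℂ) (hf.toLp f)
    rw [MeasureTheory.L2.inner_def] at h2
    have h3 : ∫ x, inner ℂ ((hf.toLp f) x) ((hf.toLp f) x) = ((∫ x, ‖f x‖ ^ 2 : ℝ) : ℂ) := by
      rw [← integral_complex_ofReal]
      refine integral_congr_ae ?_
      filter_upwards [hf.coeFn_toLp] with x hx
      rw [hx, inner_self_eq_norm_sq_to_K]
      norm_cast
    rw [h3] at h2
    have h4 : ((‖hf.toLp f‖ ^ 2 : ℝ) : ℂ) = ((∫ x, ‖f x‖ ^ 2 : ℝ) : ℂ) := by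
      rw [h2, Complex.ofReal_pow]
      rfl
    exact Complex.ofReal_injective h4
  rw [← h1, Real.sqrt_sq (norm_nonneg _)]

/-- `L²` convergence -/
structure L2t (f : ℕ → X3 → F) (g : X3 → F) : Prop where
  mem : ∀ n, MemLp (f n) 2 (volume : Measure X3)
  mem' : MemLp g 2 (volume : Measure X3)
  lim : Tendsto (fun n => nsq (fun x => f n x - g x)) atTop (𝓝 0)

namespace L2t

variable {f f' : ℕ → X3 → F} {g g' : X3 → F}

lemma lim_toLp (h : L2t f g) : Tendsto (fun n => (h.mem n).toLp (f n)) atTop (𝓝 (h.mem'.toLp g)) := by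
  rw [tendsto_iff_norm_sub_tendsto_zero]
  have h1 : ∀ n, ‖(h.mem n).toLp (f n) - h.mem'.toLp g‖ =
      Real.sqrt (nsq (fun x => f n x - g x)) := by
    intro n
    rw [← MemLp.toLp_sub, norm_toLp]
    rfl
  simp only [h1]
  have := (Real.continuous_sqrt.tendsto 0).comp h.lim
  rw [Real.sqrt_zero] at this
  exact this

lemma lim_inner (h : L2t f g) (h' : L2t f' g') :
    Tendsto (fun n => ∫ x, inner ℂ (f n x) (f' n x)) atTop (𝓝 (∫ x, inner ℂ (g x) (g' x))) := by
  have h1 : ∀ {a b : X3 → F} (ha : MemLp a 2 (volume : Measure X3))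
      (hb : MemLp b 2 (volume : Measure X3)),
      ∫ x, inner ℂ (a x) (b x) = inner ℂ (ha.toLp a) (hb.toLp b) := by
    intro a b ha hb
    rw [MeasureTheory.L2.inner_def]
    refine integral_congr_ae ?_
    filter_upwards [ha.coeFn_toLp, hb.coeFn_toLp] with x hx hy
    rw [hx, hy]
  have h2 := h.lim_toLp.inner h'.lim_toLp (𝕜 := ℂ)
  rw [h1 h.mem' h'.mem']
  refine h2.congr fun n => ?_
  rw [← h1]

lemma lim_nsq (h : L2t f g) : Tendsto (fun n => nsq (f n)) atTop (𝓝 (nsq g)) := by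
  have h1 := (Complex.continuous_re.tendsto _).comp (h.lim_inner h)
  have h2 : ∀ {a : X3 → F}, (∫ x, inner ℂ (a x) (a x)).re = nsq a := by
    intro a
    have : ∫ x, inner ℂ (a x) (a x) = ((∫ x, ‖a x‖ ^ 2 : ℝ) : ℂ) := by
      rw [← integral_complex_ofReal]
      refine integral_congr_ae (Filter.Eventually.of_forall fun x => ?_)
      simp only [inner_self_eq_norm_sq_to_K]
      norm_cast
    rw [this, Complex.ofReal_re]; rfl
  rw [h2] at h1
  refine h1.congr fun n => ?_
  simp only [Function.comp, h2]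

end L2t

/-! bounded multipliers -/

lemma continuous_apply_clm {A : X3 → F →L[ℂ] F} (hA : Continuous A) {f : X3 → F}
    (hf : AEStronglyMeasurable f (volume : Measure X3)) :
    AEStronglyMeasurable (fun x => A x (f x)) (volume : Measure X3) := by
  have hc : Continuous (fun p : (F →L[ℂ] F) × F => p.1 p.2) :=
    (isBoundedBilinearMap_apply (𝕜 := ℂ) (E := F) (F := F)).continuous
  exact hc.comp_aestronglyMeasurable (hA.aestronglyMeasurable.prodMk hf)

lemma memLp_op {A : X3 → F →L[ℂ] F} (hA : Continuous A) {C : ℝ} (hC : ∀ x, ‖A x‖ ≤ C)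
    {f : X3 → F} (hf : MemLp f 2 (volume : Measure X3)) :
    MemLp (fun x => A x (f x)) 2 (volume : Measure X3) := by
  refine MemLp.of_le_mul (c := C) hf (continuous_apply_clm hA hf.1) ?_
  refine Filter.Eventually.of_forall fun x => ?_
  exact ((A x).le_opNorm _).trans (mul_le_mul_of_nonneg_right (hC x) (norm_nonneg _))

lemma nsq_op_le {A : X3 → F →L[ℂ] F} {C : ℝ} (hC : ∀ x, ‖A x‖ ≤ C)
    {f : X3 → F} (hf : MemLp f 2 (volume : Measure X3)) :
    nsq (fun x => A x (f x)) ≤ C ^ 2 * nsq f := by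
  rw [nsq, nsq, ← integral_const_mul]
  refine integral_mono_of_nonneg (Filter.Eventually.of_forall fun x => by positivity)
    ((memLp_norm_sq_int hf).const_mul _) (Filter.Eventually.of_forall fun x => ?_)
  have h1 := ((A x).le_opNorm (f x)).trans (mul_le_mul_of_nonneg_right (hC x) (norm_nonneg _))
  have := pow_le_pow_left₀ (norm_nonneg _) h1 2
  simpa [mul_pow] using this

lemma L2t.op {f : ℕ → X3 → F} {g : X3 → F} (h : L2t f g) {A : X3 → F →L[ℂ] F}
    (hA : Continuous A) {C : ℝ} (hC : ∀ x, ‖A x‖ ≤ C) :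
    L2t (fun n x => A x (f n x)) (fun x => A x (g x)) := by
  refine ⟨fun n => memLp_op hA hC (h.mem n), memLp_op hA hC h.mem', ?_⟩
  have h1 : ∀ n, nsq (fun x => A x (f n x) - A x (g x)) ≤
      C ^ 2 * nsq (fun x => f n x - g x) := by
    intro n
    have := nsq_op_le hC ((h.mem n).sub h.mem')
    simp only [map_sub, Pi.sub_apply] at this
    exact this
  refine squeeze_zero (fun n => nsq_nonneg _) h1 ?_
  simpa using h.lim.const_mul (C ^ 2)

omit [InnerProductSpace ℂ F] in
lemma nsq_add_le {f g : X3 → F} (hf : MemLp f 2 (volume : Measure X3))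
    (hg : MemLp g 2 (volume : Measure X3)) :
    nsq (fun x => f x + g x) ≤ 2 * nsq f + 2 * nsq g := by
  rw [nsq, nsq, nsq, ← integral_const_mul, ← integral_const_mul, ← integral_add
    ((memLp_norm_sq_int hf).const_mul _) ((memLp_norm_sq_int hg).const_mul _)]
  refine integral_mono_of_nonneg (Filter.Eventually.of_forall fun x => by positivity)
    (((memLp_norm_sq_int hf).const_mul _).add ((memLp_norm_sq_int hg).const_mul _))
    (Filter.Eventually.of_forall fun x => ?_)
  have h1 := norm_add_le (f x) (g x)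
  have h2 := norm_nonneg (f x + g x)
  simp only
  nlinarith [sq_nonneg (‖f x‖ - ‖g x‖)]

lemma L2t.add {f f' : ℕ → X3 → F} {g g' : X3 → F} (h : L2t f g) (h' : L2t f' g') :
    L2t (fun n x => f n x + f' n x) (fun x => g x + g' x) := by
  refine ⟨fun n => (h.mem n).add (h'.mem n), h.mem'.add h'.mem', ?_⟩
  have h1 : ∀ n, nsq (fun x => f n x + f' n x - (g x + g' x)) ≤
      2 * nsq (fun x => f n x - g x) + 2 * nsq (fun x => f' n x - g' x) := by
    intro n
    have := nsq_add_le ((h.mem n).sub h.mem') ((h'.mem n).sub h'.mem')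
    refine le_trans (le_of_eq ?_) this
    congr 1; funext x
    simp only [Pi.sub_apply]; abel
  refine squeeze_zero (fun n => nsq_nonneg _) h1 ?_
  simpa using (h.lim.const_mul 2).add (h'.lim.const_mul 2)

lemma Lp_L2t {Ψ : Lp F 2 (volume : Measure X3)} {u : ℕ → X3 → F} (hu : ∀ n, Setup.Tst (u n))
    (h : Tendsto (fun n => ∫ x, ‖u n x - Ψ x‖ ^ 2) atTop (𝓝 0)) : L2t u Ψ :=
  ⟨fun n => (hu n).memLp, Lp.memLp Ψ, h⟩

lemma zero_L2t {f : ℕ → X3 → F} (hf : ∀ n, Setup.Tst (f n))
    (h : Tendsto (fun n => ∫ x, ‖f n x‖ ^ 2) atTop (𝓝 0)) : L2t f (fun _ => 0) :=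
  ⟨fun n => (hf n).memLp, MemLp.zero, by simpa [nsq] using h⟩

/-- continuous compactly supported functions are bounded -/
lemma bdd_of_cs {G : Type*} [NormedAddCommGroup G] {A : X3 → G} (hA : Continuous A)
    (hc : HasCompactSupport A) : ∃ C, ∀ x, ‖A x‖ ≤ C := hc.exists_bound_of_continuous hA

end Vale.Agent.P353
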