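import Vale.Agent.P353.Rad
import Vale.Agent.P353.RotF

open MeasureTheory Filter Topology
open scoped ContDiff

namespace Vale.Agent.P353

variable {F : Type*} [NormedAddCommGroup F] [InnerProductSpace ℂ F]

/-! ### more `L²` inequalities -/

omit [InnerProductSpace ℂ F] in
lemma nsq_sum_le {ι : Type*} (s : Finset ι) (f : ι → X3 → F)
    (hf : ∀ i ∈ s, MemLp (f i) 2 (volume : Measure X3)) :
    nsq (fun x => ∑ i ∈ s, f i x) ≤ s.card * ∑ i ∈ s, nsq (f i) := by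
  have h1 : ∑ i ∈ s, nsq (f i) = ∫ x, ∑ i ∈ s, ‖f i x‖ ^ 2 := by
    rw [integral_finsetSum]
    · rfl
    · intro i hi; exact memLp_norm_sq_int (hf i hi)
  rw [h1, nsq, ← integral_const_mul]
  refine integral_mono_of_nonneg (Filter.Eventually.of_forall fun x => by positivity)
    ((integrable_finsetSum _ fun i hi => memLp_norm_sq_int (hf i hi)).const_mul _)
    (Filter.Eventually.of_forall fun x => ?_)
  have h2 := norm_sum_le s (fun i => f i x)
  have h3 := sq_sum_le_card_mul_sum_sq (s := s) (f := fun i => ‖f i x‖)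
  exact (pow_le_pow_left₀ (norm_nonneg _) h2 2).trans h3

omit [InnerProductSpace ℂ F] in
/-- `‖f‖ ≤ c ‖g‖` pointwise -/
lemma nsq_le_of {f g : X3 → F} {c : ℝ} (hg : MemLp g 2 (volume : Measure X3))
    (h : ∀ x, ‖f x‖ ≤ c * ‖g x‖) : nsq f ≤ c ^ 2 * nsq g := by
  rw [nsq, nsq, ← integral_const_mul]
  refine integral_mono_of_nonneg (Filter.Eventually.of_forall fun x => by positivity)
    ((memLp_norm_sq_int hg).const_mul _) (Filter.Eventually.of_forall fun x => ?_)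
  have := pow_le_pow_left₀ (norm_nonneg _) (h x) 2
  simpa [mul_pow] using this

namespace Setup

variable (S : Setup F)

/-- multiplication of an operator field by a real function -/
lemma continuous_rsmul_op {φ : X3 → ℝ} (hφ : Continuous φ) {A : X3 → F →L[ℂ] F}
    (hA : Continuous A) : Continuous (fun x => ((φ x : ℝ) : ℂ) • A x) :=
  (Complex.continuous_ofReal.comp hφ).smul hA

lemma bdd_rsmul_op {φ : X3 → ℝ} (hφ : Continuous φ) (hc : HasCompactSupport φ)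
    {A : X3 → F →L[ℂ] F} (hA : Continuous A) : ∃ C, 0 ≤ C ∧ ∀ x, ‖((φ x : ℝ) : ℂ) • A x‖ ≤ C := by
  have h1 : HasCompactSupport (fun x => ((φ x : ℝ) : ℂ) • A x) := by
    refine hc.mono ?_
    intro x hx
    simp only [Function.mem_support] at hx ⊢
    intro h0
    exact hx (by simp [h0])
  obtain ⟨C, hC⟩ := h1.exists_bound_of_continuous (continuous_rsmul_op hφ hA)
  exact ⟨max C 0, le_max_right _ _, fun x => (hC x).trans (le_max_left _ _)⟩

/-- gradient part of `Q (χ u)` -/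
noncomputable def gradOp (χ : X3 → ℝ) (β : Fin 16) (x : X3) : F →L[ℂ] F :=
  (-Complex.I) • ∑ i, ∑ A, ((pdr i A χ x : ℝ) : ℂ) • S.vec (S.g i) A β

lemma Q_cut (χ : X3 → ℝ) (β : Fin 16) (u : X3 → F) (x : X3) (hχ : DifferentiableAt ℝ χ x)
    (hu : DifferentiableAt ℝ u x) :
    S.Q β (fun y => ((χ y : ℝ) : ℂ) • u y) x = ((χ x : ℝ) : ℂ) • S.Q β u x +
      S.gradOp χ β x (u x) := by
  rw [Q_smul S β χ u x hχ hu, gradOp, sub_eq_add_neg]
  congr 1
  rw [_root_.smul_apply, neg_smul]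
  simp only [_root_.smul_apply, _root_.sum_apply]

lemma gradOp_bound {χ : X3 → ℝ} (hχ : ContDiff ℝ ∞ χ) (hc : HasCompactSupport χ) (β : Fin 16) :
    ∃ C, 0 ≤ C ∧ ∀ x, ‖S.gradOp χ β x‖ ≤ C := by
  have h1 : ∀ i A, ∃ C, ∀ x, ‖pdr i A χ x‖ ≤ C := by
    intro i A
    refine HasCompactSupport.exists_bound_of_continuous ?_ (contDiff_pdr hχ i A).continuous
    exact hc.fderiv_apply (𝕜 := ℝ) (EuclideanSpace.single (i, A) (1 : ℝ) : X3)
  choose C hC using h1
  have hC0 : ∀ i A, 0 ≤ C i A := fun i A => (norm_nonneg _).trans (hC i A 0)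
  refine ⟨∑ i, ∑ A, C i A * ‖S.vec (S.g i) A β‖, Finset.sum_nonneg fun i _ =>
    Finset.sum_nonneg fun A _ => mul_nonneg (hC0 i A) (norm_nonneg _), fun x => ?_⟩
  rw [gradOp, norm_smul, norm_neg, Complex.norm_I, one_mul]
  refine (norm_sum_le _ _).trans (Finset.sum_le_sum fun i _ => ?_)
  refine (norm_sum_le _ _).trans (Finset.sum_le_sum fun A _ => ?_)
  rw [norm_smul, Complex.norm_real]
  exact mul_le_mul_of_nonneg_right (hC i A x) (norm_nonneg _)

/-- local bound for `Q (χ u)` -/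
lemma nsq_Q_cut {χ : X3 → ℝ} (hχ : ContDiff ℝ ∞ χ) (hc : HasCompactSupport χ) (β : Fin 16) :
    ∃ C, 0 ≤ C ∧ ∀ u, Tst u → nsq (S.Q β (fun y => ((χ y : ℝ) : ℂ) • u y)) ≤
      C * (nsq (S.Q β u) + nsq u) := by
  obtain ⟨C1, h1, hC1⟩ := S.gradOp_bound hχ hc β
  obtain ⟨C2, hC2⟩ := hc.exists_bound_of_continuous hχ.continuous
  refine ⟨2 * C2 ^ 2 + 2 * C1 ^ 2, by positivity, fun u hu => ?_⟩
  have hv : nsq (S.Q β (fun y => ((χ y : ℝ) : ℂ) • u y)) =
      nsq (fun x => ((χ x : ℝ) : ℂ) • S.Q β u x + S.gradOp χ β x (u x)) := by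
    congr 1; funext x
    exact S.Q_cut χ β u x (hχ.differentiable (by simp) x) (hu.diff x)
  have m1 : MemLp (fun x => ((χ x : ℝ) : ℂ) • S.Q β u x) 2 (volume : Measure X3) :=
    (Tst.rsmul hχ (hu.Q S β)).memLp
  have m2 : MemLp (fun x => S.gradOp χ β x (u x)) 2 (volume : Measure X3) := by
    have hc' : ContDiff ℝ ∞ (S.gradOp χ β) := by
      have : ContDiff ℝ ∞ (fun x => ∑ i, ∑ A, ((pdr i A χ x : ℝ) : ℂ) • S.vec (S.g i) A β) := by
        refine ContDiff.sum fun i _ => ContDiff.sum fun A _ => ?_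
        exact (contDiff_ofReal (contDiff_pdr hχ i A)).smul contDiff_const
      exact this.const_smul (-Complex.I)
    exact (Tst.clm hc' hu).memLp
  rw [hv]
  refine (nsq_add_le m1 m2).trans ?_
  have e1 : nsq (fun x => ((χ x : ℝ) : ℂ) • S.Q β u x) ≤ C2 ^ 2 * nsq (S.Q β u) := by
    refine nsq_le_of (hu.Q S β).memLp fun x => ?_
    rw [norm_smul, Complex.norm_real]
    exact mul_le_mul_of_nonneg_right (hC2 x) (norm_nonneg _)
  have e2 : nsq (fun x => S.gradOp χ β x (u x)) ≤ C1 ^ 2 * nsq u := by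
    refine nsq_le_of hu.memLp fun x => ?_
    exact ((S.gradOp χ β x).le_opNorm _).trans
      (mul_le_mul_of_nonneg_right (hC1 x) (norm_nonneg _))
  have n1 := nsq_nonneg (S.Q β u)
  have n2 := nsq_nonneg u
  nlinarith [sq_nonneg C1, sq_nonneg C2, mul_nonneg (sq_nonneg C2) n2,
    mul_nonneg (sq_nonneg C1) n1]

/-- local `H¹` bound -/
lemma loc_H1 {χ : X3 → ℝ} (hχ : ContDiff ℝ ∞ χ) (hc : HasCompactSupport χ) :
    ∃ C, 0 ≤ C ∧ ∀ u, Tst u → ∑ i, ∑ A, nsq (pd i A (fun y => ((χ y : ℝ) : ℂ) • u y)) ≤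
      C * (∑ β, nsq (S.Q β u) + nsq u) := by
  choose C1 h1 hC1 using S.nsq_Q_cut hχ hc
  -- bound for the fermionic potential
  obtain ⟨C2, h2, hC2⟩ := bdd_rsmul_op (φ := fun x => χ x ^ 2) (hχ.continuous.pow 2)
    (hc.comp_left (g := fun t : ℝ => t ^ 2) (by simp)) (contDiff_Fx S).continuous
  set C3 : ℝ := ∑ β, C1 β with hC3
  have h3 : 0 ≤ C3 := Finset.sum_nonneg fun β _ => h1 β
  refine ⟨(1 / 8) * C3 + (16 / 8 * C3 + 2 * C2), by positivity, fun u hu => ?_⟩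
  have hv : Tst (fun y => ((χ y : ℝ) : ℂ) • u y) := Tst.rsmul hχ hu
  have hE := energy_formula S _ hv
  have hVn : 0 ≤ ∫ x, S.V x * ‖((χ x : ℝ) : ℂ) • u x‖ ^ 2 :=
    integral_nonneg fun x => mul_nonneg (S.V_nonneg x) (by positivity)
  have hF : -(∫ x, (inner ℂ (((χ x : ℝ) : ℂ) • u x) (S.Fx x (((χ x : ℝ) : ℂ) • u x))).re) ≤
      C2 * nsq u := by
    rw [← integral_neg, nsq, ← integral_const_mul]
    refine integral_mono_ae ?_ ((hu.norm_sq_int).const_mul _)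
      (Filter.Eventually.of_forall fun x => ?_)
    · have hcl : Tst (fun x => S.Fx x (((χ x : ℝ) : ℂ) • u x)) := Tst.clm (contDiff_Fx S) hv
      exact (hv.inner_int hcl.1.continuous).re.neg
    · have e : inner ℂ (((χ x : ℝ) : ℂ) • u x) (S.Fx x (((χ x : ℝ) : ℂ) • u x)) =
          inner ℂ (u x) ((((χ x ^ 2 : ℝ) : ℂ) • S.Fx x) (u x)) := by
        rw [inner_smul_left, map_smul, inner_smul_right, _root_.smul_apply, inner_smul_right,
          Complex.conj_ofReal]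
        push_cast; ring
      simp only
      rw [e]
      have h4 := norm_inner_le_norm (𝕜 := ℂ) (u x) ((((χ x ^ 2 : ℝ) : ℂ) • S.Fx x) (u x))
      have h5 := ((((χ x ^ 2 : ℝ) : ℂ) • S.Fx x)).le_opNorm (u x)
      have h6 := hC2 x
      have h7 := Complex.abs_re_le_norm (inner ℂ (u x) ((((χ x ^ 2 : ℝ) : ℂ) • S.Fx x) (u x)))
      have h8 := neg_abs_le (inner ℂ (u x) ((((χ x ^ 2 : ℝ) : ℂ) • S.Fx x) (u x))).re
      have h9 : ‖((((χ x ^ 2 : ℝ) : ℂ) • S.Fx x)) (u x)‖ ≤ C2 * ‖u x‖ :=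
        h5.trans (mul_le_mul_of_nonneg_right h6 (norm_nonneg _))
      have h10 : ‖u x‖ * ‖((((χ x ^ 2 : ℝ) : ℂ) • S.Fx x)) (u x)‖ ≤ C2 * ‖u x‖ ^ 2 := by
        calc ‖u x‖ * ‖((((χ x ^ 2 : ℝ) : ℂ) • S.Fx x)) (u x)‖ ≤ ‖u x‖ * (C2 * ‖u x‖) :=
              mul_le_mul_of_nonneg_left h9 (norm_nonneg _)
          _ = C2 * ‖u x‖ ^ 2 := by ring
      linarith
  have hQ : ∑ β, ∫ x, ‖S.Q β (fun y => ((χ y : ℝ) : ℂ) • u y) x‖ ^ 2 ≤
      C3 * (∑ β, nsq (S.Q β u)) + C3 * nsq u := by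
    have a1 : ∀ β, ∫ x, ‖S.Q β (fun y => ((χ y : ℝ) : ℂ) • u y) x‖ ^ 2 ≤
        C1 β * (∑ β, nsq (S.Q β u)) + C1 β * nsq u := by
      intro β
      have a2 : nsq (S.Q β u) ≤ ∑ β, nsq (S.Q β u) :=
        Finset.single_le_sum (f := fun β => nsq (S.Q β u)) (fun β _ => nsq_nonneg _)
          (Finset.mem_univ β)
      calc ∫ x, ‖S.Q β (fun y => ((χ y : ℝ) : ℂ) • u y) x‖ ^ 2 ≤
            C1 β * (nsq (S.Q β u) + nsq u) := hC1 β u hu
        _ ≤ C1 β * (∑ β, nsq (S.Q β u) + nsq u) :=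
            mul_le_mul_of_nonneg_left (by linarith) (h1 β)
        _ = _ := by ring
    refine (Finset.sum_le_sum fun β _ => a1 β).trans (le_of_eq ?_)
    rw [Finset.sum_add_distrib, ← Finset.sum_mul, ← Finset.sum_mul]
  have n1 : 0 ≤ ∑ β, nsq (S.Q β u) := Finset.sum_nonneg fun β _ => nsq_nonneg _
  have n2 := nsq_nonneg u
  have hsum : ∑ i, ∑ A, nsq (pd i A (fun y => ((χ y : ℝ) : ℂ) • u y)) =
      ∑ i, ∑ A, ∫ x, ‖pd i A (fun y => ((χ y : ℝ) : ℂ) • u y) x‖ ^ 2 := rfl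
  rw [hsum]
  nlinarith [mul_nonneg h3 n1, mul_nonneg h3 n2, mul_nonneg h2 n1, mul_nonneg h2 n2]

/-- bound for `J (χ u)` -/
lemma nsq_J_cut {χ : X3 → ℝ} (hχ : ContDiff ℝ ∞ χ) (hc : HasCompactSupport χ) (k l : Fin 9) :
    ∃ C, 0 ≤ C ∧ ∀ u, Tst u → nsq (S.J k l (fun y => ((χ y : ℝ) : ℂ) • u y)) ≤
      C * (∑ β, nsq (S.Q β u) + nsq u) := by
  obtain ⟨C1, h1, hC1⟩ := S.loc_H1 hχ hc
  obtain ⟨C2, hC2⟩ := hc.exists_bound_of_continuous hχ.continuous
  obtain ⟨M, hM⟩ := hc.isCompact.isBounded.subset_closedBall (0 : X3)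
  set N := ‖S.Skl k l‖ with hN
  refine ⟨24 * M ^ 2 * C1 + 2 * N ^ 2 * C2 ^ 2, by positivity, fun u hu => ?_⟩
  have hv : Tst (fun y => ((χ y : ℝ) : ℂ) • u y) := Tst.rsmul hχ hu
  set v : X3 → F := fun y => ((χ y : ℝ) : ℂ) • u y with hvdef
  -- coordinates are bounded on the support
  have hb : ∀ (i j : Fin 9) (A : Fin 3) (x : X3), ‖((x (j, A) : ℝ) : ℂ) • pd i A v x‖ ≤
      M * ‖pd i A v x‖ := by
    intro i j A x
    by_cases hx : pd i A v x = 0
    · simp [hx]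
    · have h2 : x ∈ tsupport v := by
        have h3 := (tsupport_fderiv_subset ℝ (f := v))
        apply h3
        apply subset_tsupport
        intro h0
        apply hx
        rw [_root_.Vale.Agent.P353.pd, h0]; simp
      have h4 : x ∈ tsupport χ := by
        have : Function.support v ⊆ Function.support χ := by
          intro y hy
          simp only [Function.mem_support, hvdef] at hy ⊢
          intro h0; exact hy (by simp [h0])
        exact closure_mono this h2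
      have h5 := hM h4
      rw [Metric.mem_closedBall, dist_zero_right] at h5
      rw [norm_smul, Complex.norm_real]
      exact mul_le_mul_of_nonneg_right ((PiLp.norm_apply_le x (j, A)).trans h5) (norm_nonneg _)
  have hJ : nsq (S.J k l v) ≤ 2 * nsq (fun x => (-Complex.I) • ∑ A, ((x (k, A) : ℂ) • pd l A v x -
      (x (l, A) : ℂ) • pd k A v x)) + 2 * nsq (fun x => S.Skl k l (v x)) := by
    refine nsq_add_le ?_ ?_
    · have : Tst (fun x => (-Complex.I) • ∑ A, ((x (k, A) : ℂ) • pd l A v x -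
          (x (l, A) : ℂ) • pd k A v x)) := by
        have e : (fun x => (-Complex.I) • ∑ A, ((x (k, A) : ℂ) • pd l A v x -
          (x (l, A) : ℂ) • pd k A v x)) = fun x => S.J k l v x - S.Skl k l (v x) := by
          funext x; rw [J]; abel
        rw [e]
        exact (hv.J S k l).sub (Tst.clm (T := fun _ => S.Skl k l) contDiff_const hv)
      exact this.memLp
    · exact (Tst.clm (T := fun _ => S.Skl k l) contDiff_const hv).memLp
  have hS : nsq (fun x => S.Skl k l (v x)) ≤ N ^ 2 * (C2 ^ 2 * nsq u) := by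
    refine (nsq_le_of hv.memLp fun x => (S.Skl k l).le_opNorm (v x)).trans ?_
    refine mul_le_mul_of_nonneg_left ?_ (by positivity)
    refine nsq_le_of hu.memLp fun x => ?_
    rw [hvdef]
    simp only
    rw [norm_smul, Complex.norm_real]
    exact mul_le_mul_of_nonneg_right (hC2 x) (norm_nonneg _)
  have hP : nsq (fun x => (-Complex.I) • ∑ A, ((x (k, A) : ℂ) • pd l A v x -
      (x (l, A) : ℂ) • pd k A v x)) ≤ 12 * M ^ 2 * ∑ i, ∑ A, nsq (pd i A v) := by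
    have e0 : nsq (fun x => (-Complex.I) • ∑ A, ((x (k, A) : ℂ) • pd l A v x -
        (x (l, A) : ℂ) • pd k A v x)) = nsq (fun x => ∑ A, ((x (k, A) : ℂ) • pd l A v x -
        (x (l, A) : ℂ) • pd k A v x)) := by
      rw [nsq, nsq]
      congr 1; funext x
      rw [norm_smul, norm_neg, Complex.norm_I, one_mul]
    have m0 : ∀ i j A, MemLp (fun x : X3 => (x (j, A) : ℂ) • pd i A v x) 2
        (volume : Measure X3) := by
      intro i j A
      exact (Tst.rsmul (contDiff_coord (j, A)) (hv.pd i A)).memLp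
    have e1 : ∀ i j A, nsq (fun x : X3 => (x (j, A) : ℂ) • pd i A v x) ≤ M ^ 2 * nsq (pd i A v) :=
      fun i j A => nsq_le_of (hv.pd i A).memLp (hb i j A)
    have e2 : ∀ A, nsq (fun x : X3 => (x (k, A) : ℂ) • pd l A v x - (x (l, A) : ℂ) • pd k A v x) ≤
        2 * M ^ 2 * nsq (pd l A v) + 2 * M ^ 2 * nsq (pd k A v) := by
      intro A
      have e3 : nsq (fun x : X3 => (x (k, A) : ℂ) • pd l A v x - (x (l, A) : ℂ) • pd k A v x) =
          nsq (fun x : X3 => (x (k, A) : ℂ) • pd l A v x + (-((x (l, A) : ℂ) • pd k A v x))) := by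
        congr 1; funext x; abel
      rw [e3]
      refine (nsq_add_le (m0 l k A) (m0 k l A).neg).trans ?_
      have e4 : nsq (fun x : X3 => -((x (l, A) : ℂ) • pd k A v x)) =
          nsq (fun x : X3 => (x (l, A) : ℂ) • pd k A v x) := by
        rw [nsq, nsq]; simp only [norm_neg]
      have e5 : nsq (-fun x : X3 => (x (l, A) : ℂ) • pd k A v x) =
          nsq (fun x : X3 => -((x (l, A) : ℂ) • pd k A v x)) := rfl
      rw [e5, e4]
      have := e1 l k A
      have := e1 k l A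
      linarith
    rw [e0]
    refine (nsq_sum_le Finset.univ (fun (A : Fin 3) (x : X3) => (x (k, A) : ℂ) • pd l A v x -
      (x (l, A) : ℂ) • pd k A v x) fun A _ => (m0 l k A).sub (m0 k l A)).trans ?_
    rw [Finset.card_univ, Fintype.card_fin]
    have e6 : ∑ A, nsq (fun x : X3 => (x (k, A) : ℂ) • pd l A v x - (x (l, A) : ℂ) • pd k A v x) ≤
        2 * M ^ 2 * ∑ A, nsq (pd l A v) + 2 * M ^ 2 * ∑ A, nsq (pd k A v) := by
      refine (Finset.sum_le_sum fun A _ => e2 A).trans (le_of_eq ?_)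
      rw [Finset.sum_add_distrib, Finset.mul_sum, Finset.mul_sum]
    have e7 : ∀ i, ∑ A, nsq (pd i A v) ≤ ∑ i, ∑ A, nsq (pd i A v) := fun i =>
      Finset.single_le_sum (f := fun i => ∑ A, nsq (pd i A v))
        (fun i _ => Finset.sum_nonneg fun A _ => nsq_nonneg _) (Finset.mem_univ i)
    have e8 := e7 k
    have e9 := e7 l
    have hM2 : 0 ≤ M ^ 2 := sq_nonneg M
    have e10 := mul_le_mul_of_nonneg_left e8 hM2
    have e11 := mul_le_mul_of_nonneg_left e9 hM2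
    push_cast
    linarith
  have h6 := hC1 u hu
  have n1 : 0 ≤ ∑ β, nsq (S.Q β u) := Finset.sum_nonneg fun β _ => nsq_nonneg _
  have n2 := nsq_nonneg u
  have hM2 : 0 ≤ M ^ 2 := sq_nonneg M
  have h7 := mul_le_mul_of_nonneg_left h6 hM2
  have h8 : 0 ≤ N ^ 2 * C2 ^ 2 * ∑ β, nsq (S.Q β u) := by positivity
  calc nsq (S.J k l v) ≤ 2 * (12 * M ^ 2 * ∑ i, ∑ A, nsq (pd i A v)) +
        2 * (N ^ 2 * (C2 ^ 2 * nsq u)) := by linarith
    _ ≤ 24 * (M ^ 2 * (C1 * (∑ β, nsq (S.Q β u) + nsq u))) +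
        2 * (N ^ 2 * (C2 ^ 2 * nsq u)) := by linarith
    _ ≤ _ := by nlinarith

/-! ### the rotation term -/

lemma Tst.L2t_const {ζ : X3 → F} (hζ : Tst ζ) : L2t (fun _ : ℕ => ζ) ζ :=
  ⟨fun _ => hζ.memLp, hζ.memLp, by simp [nsq]⟩

variable {S} in
lemma Apx.L2t {Ψ : Lp F 2 (volume : Measure X3)} {u : ℕ → X3 → F} (h : S.Apx Ψ u) : L2t u Ψ :=
  Lp_L2t h.1 h.2.2.1

variable {S} in
lemma Apx.Q0 {Ψ : Lp F 2 (volume : Measure X3)} {u : ℕ → X3 → F} (h : S.Apx Ψ u) (β : Fin 16) :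
    P353.L2t (fun n => S.Q β (u n)) (fun _ => 0) :=
  zero_L2t (fun n => (h.1 n).Q S β) (h.2.2.2 β)

variable {S} in
/-- the local quantities are bounded along the sequence -/
lemma Apx.bdd {Ψ : Lp F 2 (volume : Measure X3)} {u : ℕ → X3 → F} (h : S.Apx Ψ u) :
    ∃ B, 0 ≤ B ∧ ∀ n, ∑ β, nsq (S.Q β (u n)) + nsq (u n) ≤ B := by
  have h1 : Tendsto (fun n => ∑ β, nsq (S.Q β (u n)) + nsq (u n)) atTop
      (𝓝 (∑ _β : Fin 16, 0 + nsq Ψ)) := by
    refine Tendsto.add (tendsto_finsetSum _ fun β _ => ?_) h.L2t.lim_nsq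
    have := (h.Q0 β).lim_nsq
    simpa [nsq] using this
  obtain ⟨B, hB⟩ := h1.bddAbove_range
  exact ⟨max B 0, le_max_right _ _, fun n => (hB ⟨n, rfl⟩).trans (le_max_left _ _)⟩

end Setup
end Vale.Agent.P353
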