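import Vale.Agent.P353.BdDef
import Vale.Agent.P353.Energy
import Vale.Agent.P353.Exact

open MeasureTheory Filter Topology
open scoped ContDiff

namespace Vale.Agent.P353

variable {F : Type*} [NormedAddCommGroup F] [InnerProductSpace ℂ F]

/-- the soft compactness lemma -/
lemma soft_compact {E : Type*} [TopologicalSpace E] {K : Set E} (hK : IsCompact K) {f h : E → ℝ}
    (hf : Continuous f) (hh : Continuous h) (hf0 : ∀ x ∈ K, 0 ≤ f x)
    (hpos : ∀ x ∈ K, f x = 0 → 0 < h x) : ∃ L : ℝ, 0 ≤ L ∧ ∀ x ∈ K, 0 < L * f x + h x := by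
  obtain ⟨t, ht⟩ := hK.elim_finite_subcover (fun n : ℕ => {x | 0 < (n : ℝ) * f x + h x})
    (fun n => isOpen_lt continuous_const ((continuous_const.mul hf).add hh)) (by
      intro x hx
      rw [Set.mem_iUnion]
      by_cases h0 : f x = 0
      · exact ⟨0, by simpa [h0] using hpos x hx h0⟩
      · have hfx : 0 < f x := lt_of_le_of_ne (hf0 x hx) (Ne.symm h0)
        obtain ⟨n, hn⟩ := exists_nat_gt (-h x / f x)
        refine ⟨n, ?_⟩
        rw [div_lt_iff₀ hfx] at hn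
        simp only [Set.mem_ofPred_eq]
        linarith)
  refine ⟨(t.sup id : ℕ), Nat.cast_nonneg _, fun x hx => ?_⟩
  have h1 := ht hx
  simp only [Set.mem_iUnion, Set.mem_ofPred_eq] at h1
  obtain ⟨n, hn, hlt⟩ := h1
  have h2 : (n : ℝ) ≤ (t.sup id : ℕ) := by
    exact_mod_cast Finset.le_sup (f := id) hn
  have := mul_le_mul_of_nonneg_right h2 (hf0 x hx)
  linarith

/-! ### scaling -/

namespace Setup

variable (S : Setup F)

lemma FF_smul (A : Fin 3) (i j : Fin 9) (ρ : ℝ) (x : X3) :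
    S.FF A i j (ρ • x) = ρ ^ 2 * S.FF A i j x := by
  simp only [FF, PiLp.smul_apply, smul_eq_mul, Finset.mul_sum]
  refine Finset.sum_congr rfl fun B _ => Finset.sum_congr rfl fun C _ => ?_
  ring

lemma V_smul (ρ : ℝ) (x : X3) : S.V (ρ • x) = ρ ^ 4 * S.V x := by
  simp only [V, FF_smul, Finset.mul_sum]
  refine Finset.sum_congr rfl fun A _ => Finset.sum_congr rfl fun i _ =>
    Finset.sum_congr rfl fun j _ => ?_
  ring

lemma V_nonneg (x : X3) : 0 ≤ S.V x := by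
  unfold V; positivity

lemma Fx_smul (ρ : ℝ) (x : X3) (v : F) : S.Fx (ρ • x) v = (ρ : ℂ) • S.Fx x v := by
  simp only [Fx, _root_.smul_apply, _root_.sum_apply, PiLp.smul_apply, smul_eq_mul,
    Finset.smul_sum, smul_smul]
  refine Finset.sum_congr rfl fun q _ => Finset.sum_congr rfl fun A _ =>
    Finset.sum_congr rfl fun B _ => Finset.sum_congr rfl fun C _ => ?_
  congr 1
  push_cast
  ring

lemma B_smul (b : Fin 16) (ρ : ℝ) (x : X3) (v : F) : S.B b (ρ • x) v = (ρ : ℂ) • S.B b x v := by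
  simp only [B, _root_.smul_apply, _root_.sum_apply, PiLp.smul_apply, smul_eq_mul,
    Finset.smul_sum, smul_smul]
  refine Finset.sum_congr rfl fun q _ => Finset.sum_congr rfl fun A _ => ?_
  congr 1
  push_cast
  ring

lemma Mult_smul (b : Fin 16) (ρ : ℝ) (x : X3) (v : F) :
    S.Mult b (ρ • x) v = (ρ : ℂ) • S.Mult b x v := by
  have h1 : ∀ p : Fin 9 × Fin 3, (((ρ • x) p : ℝ) : ℂ) = (ρ : ℂ) * ((x p : ℝ) : ℂ) := by
    intro p
    rw [PiLp.smul_apply, smul_eq_mul]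
    push_cast
    rfl
  simp only [Mult, _root_.smul_apply, _root_.sum_apply, _root_.add_apply, _root_.sub_apply,
    mul_apply_eq_comp, B_smul, h1]
  have a1 : ∑ j, ∑ l, ∑ A, ((ρ : ℂ) * ((x (j, A) : ℝ) : ℂ)) • S.vec (S.g l) A b (S.Skl j l v) =
      (ρ : ℂ) • ∑ j, ∑ l, ∑ A, ((x (j, A) : ℝ) : ℂ) • S.vec (S.g l) A b (S.Skl j l v) := by
    simp only [Finset.smul_sum, smul_smul]
  have a2 : ∑ C, ∑ j, ∑ A, ∑ A', ((eps A A' C : ℂ) * ((ρ : ℂ) * ((x (j, A) : ℝ) : ℂ))) •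
      S.vec (S.g j) A' b (S.cS C v) =
      (ρ : ℂ) • ∑ C, ∑ j, ∑ A, ∑ A', ((eps A A' C : ℂ) * ((x (j, A) : ℝ) : ℂ)) •
      S.vec (S.g j) A' b (S.cS C v) := by
    simp only [Finset.smul_sum, smul_smul]
    refine Finset.sum_congr rfl fun C _ => Finset.sum_congr rfl fun j _ =>
      Finset.sum_congr rfl fun A _ => Finset.sum_congr rfl fun A' _ => ?_
    congr 1
    ring
  have a3 : ∑ k, ∑ l, ∑ j, ∑ A, ((ρ : ℂ) * ((x (j, A) : ℝ) : ℂ)) •
      S.vec (S.g2 k l * S.g j) A b (S.Skl k l v) =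
      (ρ : ℂ) • ∑ k, ∑ l, ∑ j, ∑ A, ((x (j, A) : ℝ) : ℂ) •
      S.vec (S.g2 k l * S.g j) A b (S.Skl k l v) := by
    simp only [Finset.smul_sum, smul_smul]
  rw [a1, a2, a3]
  module

lemma Bd_smul (ρ : ℝ) (x : X3) (v : F) : Bd S (ρ • x) v = ((ρ ^ 2 : ℝ) : ℂ) • Bd S x v := by
  simp only [Bd, _root_.smul_apply, _root_.sum_apply, mul_apply_eq_comp, B_smul, Mult_smul,
    map_smul, Finset.smul_sum, smul_smul]
  refine Finset.sum_congr rfl fun b _ => ?_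
  congr 1
  push_cast
  ring

end Setup

/-! ### joint continuity -/

lemma continuous_Mult_apply (S : Setup F) (b : Fin 16) :
    Continuous (fun p : X3 × F => S.Mult b p.1 p.2) := by
  have e : (fun p : X3 × F => S.Mult b p.1 p.2) = fun p : X3 × F =>
      ∑ i, ∑ A, ((p.1 (i, A) : ℝ) : ℂ) • S.toCS.Mv (CS.E1 i A) b p.2 := by
    funext p
    rw [S.Mult_eq]
    have h := congrArg (fun T : F →L[ℂ] F => T p.2) (S.toCS.Mv_eq_sum (Xc p.1) b)
    simp only [_root_.sum_apply, _root_.smul_apply] at h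
    exact h
  rw [e]
  refine continuous_finsetSum _ fun i _ => continuous_finsetSum _ fun A _ => ?_
  exact ((Setup.contDiff_ofReal (Setup.contDiff_coord (i, A))).continuous.comp
    continuous_fst).smul ((S.toCS.Mv (CS.E1 i A) b).continuous.comp continuous_snd)

lemma continuous_B_apply (S : Setup F) (b : Fin 16) :
    Continuous (fun p : X3 × F => S.B b p.1 p.2) := by
  have e : (fun p : X3 × F => S.B b p.1 p.2) = fun p : X3 × F =>
      ∑ i, ∑ A, ((p.1 (i, A) : ℝ) : ℂ) • S.vec (S.g i) A b p.2 := by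
    funext p
    simp only [Setup.B, _root_.sum_apply, _root_.smul_apply]
  rw [e]
  refine continuous_finsetSum _ fun i _ => continuous_finsetSum _ fun A _ => ?_
  exact ((Setup.contDiff_ofReal (Setup.contDiff_coord (i, A))).continuous.comp
    continuous_fst).smul ((S.vec (S.g i) A b).continuous.comp continuous_snd)

lemma Bd_apply (S : Setup F) (x : X3) (v : F) :
    Bd S x v = Complex.I • ∑ b, S.B b x (S.Mult b x v) := by
  simp only [Bd, _root_.smul_apply, _root_.sum_apply, mul_apply_eq_comp]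

lemma continuous_Bd_apply (S : Setup F) : Continuous (fun p : X3 × F => Bd S p.1 p.2) := by
  simp only [Bd_apply]
  refine Continuous.const_smul (continuous_finsetSum _ fun b _ => ?_) _
  exact (continuous_B_apply S b).comp (continuous_fst.prodMk (continuous_Mult_apply S b))

lemma continuous_Fx_apply (S : Setup F) : Continuous (fun p : X3 × F => S.Fx p.1 p.2) := by
  have e : (fun p : X3 × F => S.Fx p.1 p.2) = fun p : X3 × F =>
      (Complex.I / 2 * (S.κ : ℂ)) • ∑ q, ∑ A, ∑ B, ∑ C,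
        ((eps A B C : ℂ) * ((p.1 (q, C) : ℝ) : ℂ)) • S.bil (S.g q) A B p.2 := by
    funext p
    simp only [Setup.Fx, _root_.sum_apply, _root_.smul_apply]
  rw [e]
  refine Continuous.const_smul (continuous_finsetSum _ fun q _ => continuous_finsetSum _ fun A _ =>
    continuous_finsetSum _ fun B _ => continuous_finsetSum _ fun C _ => ?_) _
  exact (continuous_const.mul ((Setup.contDiff_ofReal (Setup.contDiff_coord (q, C))).continuous.comp
    continuous_fst)).smul ((S.bil (S.g q) A B).continuous.comp continuous_snd)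

omit [InnerProductSpace ℂ F] in
/-- abstract form of the two-step compactness argument -/
lemma two_step [ProperSpace F] {V : X3 → ℝ} (hV : Continuous V) (hV0 : ∀ x, 0 ≤ V x)
    {Fr Or Br : X3 → F → ℝ} (hF : Continuous (fun p : X3 × F => Fr p.1 p.2))
    (hO : Continuous (fun p : X3 × F => Or p.1 p.2))
    (hB : Continuous (fun p : X3 × F => Br p.1 p.2)) {κ s : ℝ} (hκ : 0 < κ)
    (hs : s < 9)
    (hvac : ∀ x : X3, ‖x‖ = 1 → V x = 0 → ∀ v : F, ‖v‖ = 1 → 0 ≤ Fr x v + 8 * κ ∧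
      (Fr x v + 8 * κ = 0 → 56 ≤ Or x v ∧ Br x v ≤ 56 / 9)) :
    ∃ ε ε' δ L : ℝ, 0 < ε ∧ ε < 1 ∧ 0 < ε' ∧ 0 < δ ∧ 0 ≤ L ∧
      ∀ x : X3, ‖x‖ = 1 → ∀ v : F, ‖v‖ = 1 → ∀ σ, 0 ≤ σ → σ ≤ s →
        0 < L * V x + (Fr x v + (1 - ε) * (8 * κ - 16 / κ * V x) +
          ε' * (Or x v - σ * Br x v - δ)) := by
  let K2 : Set (X3 × F × ℝ) := Metric.sphere (0 : X3) 1 ×ˢ (Metric.sphere (0 : F) 1 ×ˢ Set.Icc 0 s)
  have hK2 : IsCompact K2 :=
    (isCompact_sphere _ _).prod ((isCompact_sphere _ _).prod isCompact_Icc)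
  have hK2mem : ∀ p : X3 × F × ℝ, p ∈ K2 ↔ ‖p.1‖ = 1 ∧ ‖p.2.1‖ = 1 ∧ 0 ≤ p.2.2 ∧ p.2.2 ≤ s := by
    intro p
    simp only [K2, Set.mem_prod, mem_sphere_zero_iff_norm, Set.mem_Icc]
  have hVc : Continuous (fun p : X3 × F × ℝ => V p.1) := hV.comp continuous_fst
  have hpr : Continuous (fun p : X3 × F × ℝ => ((p.1, p.2.1) : X3 × F)) :=
    continuous_fst.prodMk (continuous_fst.comp continuous_snd)
  have hFc : Continuous (fun p : X3 × F × ℝ => Fr p.1 p.2.1) := hF.comp hpr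
  have hOc : Continuous (fun p : X3 × F × ℝ => Or p.1 p.2.1) := hO.comp hpr
  have hBc : Continuous (fun p : X3 × F × ℝ => Br p.1 p.2.1) := hB.comp hpr
  have hσc : Continuous (fun p : X3 × F × ℝ => p.2.2) := continuous_snd.comp continuous_snd
  let K1 : Set (X3 × F × ℝ) := K2 ∩ {p | V p.1 = 0}
  have hK1 : IsCompact K1 := hK2.inter_right (isClosed_eq hVc continuous_const)
  have hK1mem : ∀ p : X3 × F × ℝ, p ∈ K1 →
      ‖p.1‖ = 1 ∧ ‖p.2.1‖ = 1 ∧ 0 ≤ p.2.2 ∧ p.2.2 ≤ s ∧ V p.1 = 0 := by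
    intro p hp
    obtain ⟨a, b, c, d⟩ := (hK2mem p).mp hp.1
    exact ⟨a, b, c, d, hp.2⟩
  obtain ⟨δ, hδ, hδ0⟩ : ∃ δ : ℝ, δ = (56 - 56 * s / 9) / 2 ∧ 0 < δ := ⟨_, rfl, by linarith⟩
  have hf1c : Continuous (fun p : X3 × F × ℝ => Fr p.1 p.2.1 + 8 * κ) :=
    hFc.add continuous_const
  have hh1c : Continuous (fun p : X3 × F × ℝ => Or p.1 p.2.1 - p.2.2 * Br p.1 p.2.1 - δ) :=
    (hOc.sub (hσc.mul hBc)).sub continuous_const
  have hnn : ∀ p ∈ K1, 0 ≤ Fr p.1 p.2.1 + 8 * κ := by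
    intro p hp
    obtain ⟨a, b, c, d, e⟩ := hK1mem p hp
    exact (hvac p.1 a e p.2.1 b).1
  obtain ⟨L1, hL1, hK1pos⟩ := soft_compact hK1 hf1c hh1c hnn (by
      intro p hp h0
      obtain ⟨a, b, c, d, e⟩ := hK1mem p hp
      obtain ⟨ho, hb⟩ := (hvac p.1 a e p.2.1 b).2 h0
      have h3 : p.2.2 * Br p.1 p.2.1 ≤ p.2.2 * (56 / 9) := mul_le_mul_of_nonneg_left hb c
      have h4 : p.2.2 * (56 / 9) ≤ s * (56 / 9) := mul_le_mul_of_nonneg_right d (by norm_num)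
      linarith)
  obtain ⟨ε', hε', hε'0⟩ : ∃ ε' : ℝ, ε' = 1 / (L1 + 1) ∧ 0 < ε' := ⟨_, rfl, by positivity⟩
  have hpos1 : ∀ p ∈ K1, 0 < (Fr p.1 p.2.1 + 8 * κ) +
      ε' * (Or p.1 p.2.1 - p.2.2 * Br p.1 p.2.1 - δ) := by
    intro p hp
    have h2 := hK1pos p hp
    have h3 := hnn p hp
    have h4 : (Fr p.1 p.2.1 + 8 * κ) + ε' * (Or p.1 p.2.1 - p.2.2 * Br p.1 p.2.1 - δ) =
        ε' * ((L1 + 1) * (Fr p.1 p.2.1 + 8 * κ) + (Or p.1 p.2.1 - p.2.2 * Br p.1 p.2.1 - δ)) := by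
      rw [hε']; field_simp
    rw [h4]
    refine mul_pos hε'0 ?_
    linarith
  have hgc : Continuous (fun p : X3 × F × ℝ => (Fr p.1 p.2.1 + 8 * κ) +
      ε' * (Or p.1 p.2.1 - p.2.2 * Br p.1 p.2.1 - δ)) :=
    hf1c.add (continuous_const.mul hh1c)
  obtain ⟨ε, hε0, hε1, hεpos⟩ : ∃ ε : ℝ, 0 < ε ∧ ε < 1 ∧
      ∀ p ∈ K1, 0 < (Fr p.1 p.2.1 + 8 * κ) + ε' * (Or p.1 p.2.1 - p.2.2 * Br p.1 p.2.1 - δ)
        - 8 * κ * ε := by
    by_cases hne : K1.Nonempty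
    · obtain ⟨p0, hp0, hmin⟩ := hK1.exists_isMinOn hne hgc.continuousOn
      have hc := hpos1 p0 hp0
      obtain ⟨c, hcdef⟩ : ∃ c : ℝ, c = (Fr p0.1 p0.2.1 + 8 * κ) +
        ε' * (Or p0.1 p0.2.1 - p0.2.2 * Br p0.1 p0.2.1 - δ) := ⟨_, rfl⟩
      rw [← hcdef] at hc
      refine ⟨min (1 / 2) (c / (16 * κ)), by positivity,
        lt_of_le_of_lt (min_le_left _ _) (by norm_num), fun p hp => ?_⟩
      have h2 : c ≤ (Fr p.1 p.2.1 + 8 * κ) +
        ε' * (Or p.1 p.2.1 - p.2.2 * Br p.1 p.2.1 - δ) := by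
        rw [hcdef]; exact hmin hp
      have h3 : 8 * κ * min (1 / 2) (c / (16 * κ)) ≤ 8 * κ * (c / (16 * κ)) :=
        mul_le_mul_of_nonneg_left (min_le_right _ _) (by positivity)
      have h4 : 8 * κ * (c / (16 * κ)) = c / 2 := by field_simp; ring
      linarith
    · refine ⟨1 / 2, by norm_num, by norm_num, fun p hp => ?_⟩
      exact absurd ⟨p, hp⟩ hne
  have hh2c : Continuous (fun p : X3 × F × ℝ => Fr p.1 p.2.1 +
      (1 - ε) * (8 * κ - 16 / κ * V p.1) + ε' * (Or p.1 p.2.1 - p.2.2 * Br p.1 p.2.1 - δ)) :=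
    (hFc.add (continuous_const.mul (continuous_const.sub (continuous_const.mul hVc)))).add
      (continuous_const.mul hh1c)
  obtain ⟨L2, hL2, hK2pos⟩ := soft_compact hK2 hVc hh2c (fun p _ => hV0 p.1) (by
    intro p hp hVp
    have h3 := hεpos p ⟨hp, hVp⟩
    rw [hVp]
    linarith)
  refine ⟨ε, ε', δ, L2, hε0, hε1, hε'0, hδ0, hL2, fun x hx v hv σ h0 h1 => ?_⟩
  exact hK2pos (x, v, σ) ((hK2mem _).mpr ⟨hx, hv, h0, h1⟩)

/-- real arithmetic of the rescaling -/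
lemma rescale_arith {n ρ ε ε' δ κ σ f V o b L : ℝ} (hρ1 : 1 ≤ ρ) (hε0 : 0 < ε)
    (hε1 : ε < 1) (hV : 0 ≤ V) (hR : L / (2 * ε - ε ^ 2) ≤ ρ)
    (hn : 0 ≤ n)
    (hkey : 0 < L * V + (f + (1 - ε) * (8 * κ - 16 / κ * V) + ε' * (o - σ * b - δ))) :
    0 ≤ n * (ρ * f) + ((1 - ε) * (8 * κ * ρ - 16 / κ * (ρ ^ 4 * V) / ρ ^ 3) +
        (2 * ε - ε ^ 2) * (ρ ^ 4 * V)) * n +
      ε' * ρ * (n * o - σ / ρ ^ 2 * (n * (ρ ^ 2 * b)) - δ * n) := by
  have hρ : 0 < ρ := lt_of_lt_of_le one_pos hρ1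
  have hc0 : 0 < 2 * ε - ε ^ 2 := by nlinarith
  have hR3 : L ≤ (2 * ε - ε ^ 2) * ρ ^ 3 := by
    rw [div_le_iff₀ hc0] at hR
    have h4 : ρ ≤ ρ ^ 3 := by nlinarith [mul_pos hρ hρ]
    nlinarith
  have hgoal : n * (ρ * f) + ((1 - ε) * (8 * κ * ρ - 16 / κ * (ρ ^ 4 * V) / ρ ^ 3) +
        (2 * ε - ε ^ 2) * (ρ ^ 4 * V)) * n +
      ε' * ρ * (n * o - σ / ρ ^ 2 * (n * (ρ ^ 2 * b)) - δ * n) =
      n * ρ * ((2 * ε - ε ^ 2) * ρ ^ 3 * V + (f +
        (1 - ε) * (8 * κ - 16 / κ * V) + ε' * (o - σ * b - δ))) := by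
    have e1 : 16 / κ * (ρ ^ 4 * V) / ρ ^ 3 = 16 / κ * V * ρ := by
      rw [mul_div_assoc, show ρ ^ 4 * V / ρ ^ 3 = V * ρ by field_simp]
      ring
    have e2 : σ / ρ ^ 2 * (n * (ρ ^ 2 * b)) = σ * n * b := by
      field_simp
    rw [e1, e2]
    ring
  rw [hgoal]
  have h5 := mul_le_mul_of_nonneg_right hR3 hV
  refine mul_nonneg (by positivity) ?_
  linarith

theorem pointwise_bound_of [FiniteDimensional ℂ F] (S : Setup F) (hvac : VacuumStmt S) (s : ℝ)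
    (hs : s < 9) :
    ∃ R ε ε' δ : ℝ, 0 < R ∧ 0 < ε ∧ ε < 1 ∧ 0 < ε' ∧ 0 < δ ∧
      ∀ x : X3, R ≤ ‖x‖ → ∀ σ : ℝ, 0 ≤ σ → σ ≤ s → ∀ v : F,
        0 ≤ (inner ℂ v (S.Fx x v)).re +
          ((1 - ε) * (8 * S.κ * ‖x‖ - 16 / S.κ * S.V x / ‖x‖ ^ 3) +
            (2 * ε - ε ^ 2) * S.V x) * ‖v‖ ^ 2 +
          ε' * ‖x‖ * ((inner ℂ v (S.O1 v)).re - σ / ‖x‖ ^ 2 * (inner ℂ v (Bd S x v)).re
            - δ * ‖v‖ ^ 2) := by
  have : ProperSpace F := FiniteDimensional.proper_rclike ℂ F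
  have hre : ∀ {T : X3 → F → F}, Continuous (fun p : X3 × F => T p.1 p.2) →
      Continuous (fun p : X3 × F => (inner ℂ p.2 (T p.1 p.2)).re) := fun hT =>
    Complex.continuous_re.comp (continuous_snd.inner hT)
  obtain ⟨ε, ε', δ, L, hε0, hε1, hε'0, hδ0, hL, hkey⟩ := two_step (V := S.V)
    (Fr := fun x v => (inner ℂ v (S.Fx x v)).re) (Or := fun _ v => (inner ℂ v (S.O1 v)).re)
    (Br := fun x v => (inner ℂ v (Bd S x v)).re)
    (contDiff_V S).continuous S.V_nonneg (hre (T := fun x v => S.Fx x v) (continuous_Fx_apply S))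
    (hre (T := fun _ v => S.O1 v) (S.O1.continuous.comp continuous_snd))
    (hre (T := fun x v => Bd S x v) (continuous_Bd_apply S)) S.κ_pos hs (by
      intro x hx hV v hv
      have h := hvac x hx hV v
      rw [hv] at h
      simpa using h)
  refine ⟨max 1 (L / (2 * ε - ε ^ 2)), ε, ε', δ, lt_of_lt_of_le one_pos (le_max_left _ _),
    hε0, hε1, hε'0, hδ0, ?_⟩
  intro x hx σ hσ0 hσs v
  by_cases hv0 : v = 0
  · subst hv0; simp
  have hρ1 : 1 ≤ ‖x‖ := (le_max_left _ _).trans hx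
  have hρ : 0 < ‖x‖ := lt_of_lt_of_le one_pos hρ1
  have hn : 0 < ‖v‖ := norm_pos_iff.mpr hv0
  obtain ⟨ρ, hρdef⟩ : ∃ ρ, ρ = ‖x‖ := ⟨_, rfl⟩
  rw [← hρdef] at hρ hρ1 hx ⊢
  obtain ⟨ξ, hξ⟩ : ∃ ξ : X3, ξ = ρ⁻¹ • x := ⟨_, rfl⟩
  obtain ⟨w, hw⟩ : ∃ w : F, w = ((‖v‖⁻¹ : ℝ) : ℂ) • v := ⟨_, rfl⟩
  have hξn : ‖ξ‖ = 1 := by
    rw [hξ, norm_smul, Real.norm_of_nonneg (by positivity), ← hρdef, inv_mul_cancel₀ hρ.ne']
  have hwn : ‖w‖ = 1 := by
    rw [hw, norm_smul, Complex.norm_real, Real.norm_of_nonneg (by positivity),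
      inv_mul_cancel₀ hn.ne']
  have hxξ : x = ρ • ξ := by rw [hξ, smul_smul, mul_inv_cancel₀ hρ.ne', one_smul]
  have hvw : v = ((‖v‖ : ℝ) : ℂ) • w := by
    rw [hw, smul_smul, ← Complex.ofReal_mul, mul_inv_cancel₀ hn.ne', Complex.ofReal_one, one_smul]
  have hk := hkey ξ hξn w hwn σ hσ0 hσs
  -- quadratic scaling
  have hquad : ∀ T : F →L[ℂ] F, (inner ℂ v (T v)).re = ‖v‖ ^ 2 * (inner ℂ w (T w)).re := by
    intro T
    conv_lhs => rw [hvw]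
    rw [map_smul, inner_smul_left, inner_smul_right, Complex.conj_ofReal, Complex.re_ofReal_mul,
      Complex.re_ofReal_mul]
    ring
  have e1 : (inner ℂ v (S.Fx x v)).re = ‖v‖ ^ 2 * (ρ * (inner ℂ w (S.Fx ξ w)).re) := by
    rw [hquad, hxξ, S.Fx_smul, inner_smul_right, Complex.re_ofReal_mul]
  have e2 : (inner ℂ v (Bd S x v)).re = ‖v‖ ^ 2 * (ρ ^ 2 * (inner ℂ w (Bd S ξ w)).re) := by
    rw [hquad, hxξ, S.Bd_smul, inner_smul_right, Complex.re_ofReal_mul]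
  have e3 : S.V x = ρ ^ 4 * S.V ξ := by rw [hxξ, S.V_smul]
  rw [e1, e2, e3, hquad S.O1]
  exact rescale_arith hρ1 hε0 hε1 (S.V_nonneg ξ) ((le_max_right _ _).trans hx) (by positivity) hk

end Vale.Agent.P353
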