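import Vale.Agent.P353.Energy

open MeasureTheory Filter Topology
open scoped ContDiff

namespace Vale.Agent.P353

variable {F : Type*} [NormedAddCommGroup F] [InnerProductSpace ℂ F]

/-- `|x|^2` -/
noncomputable def e1 (x : X3) : ℝ := ∑ i : Fin 9, ∑ A : Fin 3, x (i, A) ^ 2

/-- the 3 x 3 Gram matrix -/
noncomputable def Sm (A B : Fin 3) (x : X3) : ℝ := ∑ i : Fin 9, x (i, A) * x (i, B)

lemma e1_eq (x : X3) : e1 x = ‖x‖ ^ 2 := by
  rw [EuclideanSpace.norm_sq_eq, Fintype.sum_prod_type]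
  simp [e1]

lemma e1_eq_Sm (x : X3) : e1 x = ∑ A, Sm A A x := by
  simp only [e1, Sm]
  rw [Finset.sum_comm]
  refine Finset.sum_congr rfl fun A _ => Finset.sum_congr rfl fun i _ => ?_
  ring

lemma Sm_symm (A B : Fin 3) (x : X3) : Sm A B x = Sm B A x := by
  simp only [Sm]
  refine Finset.sum_congr rfl fun i _ => ?_
  ring

lemma V_eq (S : Setup F) (x : X3) :
    S.V x = S.κ ^ 2 / 4 * (e1 x ^ 2 - ∑ A, ∑ B, Sm A B x ^ 2) := by
  have h1 : ∀ i j : Fin 9, ∑ A, S.FF A i j x ^ 2 = S.κ ^ 2 * ((∑ A, x (i, A) ^ 2) *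
      (∑ A, x (j, A) ^ 2) - ∑ A, ∑ B, (x (i, A) * x (i, B)) * (x (j, A) * x (j, B))) := by
    intro i j
    simp only [Setup.FF, Fin.sum_univ_three]
    have e : ∀ A B C : Fin 3, (eps A B C : ℝ) = ((eps A B C : ℤ) : ℝ) := fun _ _ _ => rfl
    have v000 : eps 0 0 0 = 0 := by decide
    have v001 : eps 0 0 1 = 0 := by decide
    have v002 : eps 0 0 2 = 0 := by decide
    have v010 : eps 0 1 0 = 0 := by decide
    have v011 : eps 0 1 1 = 0 := by decide
    have v012 : eps 0 1 2 = 1 := by decide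
    have v020 : eps 0 2 0 = 0 := by decide
    have v021 : eps 0 2 1 = -1 := by decide
    have v022 : eps 0 2 2 = 0 := by decide
    have v100 : eps 1 0 0 = 0 := by decide
    have v101 : eps 1 0 1 = 0 := by decide
    have v102 : eps 1 0 2 = -1 := by decide
    have v110 : eps 1 1 0 = 0 := by decide
    have v111 : eps 1 1 1 = 0 := by decide
    have v112 : eps 1 1 2 = 0 := by decide
    have v120 : eps 1 2 0 = 1 := by decide
    have v121 : eps 1 2 1 = 0 := by decide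
    have v122 : eps 1 2 2 = 0 := by decide
    have v200 : eps 2 0 0 = 0 := by decide
    have v201 : eps 2 0 1 = 1 := by decide
    have v202 : eps 2 0 2 = 0 := by decide
    have v210 : eps 2 1 0 = -1 := by decide
    have v211 : eps 2 1 1 = 0 := by decide
    have v212 : eps 2 1 2 = 0 := by decide
    have v220 : eps 2 2 0 = 0 := by decide
    have v221 : eps 2 2 1 = 0 := by decide
    have v222 : eps 2 2 2 = 0 := by decide
    simp only [v000, v001, v002, v010, v011, v012, v020, v021, v022, v100, v101, v102, v110, v111,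
      v112, v120, v121, v122, v200, v201, v202, v210, v211, v212, v220, v221, v222]
    push_cast
    ring
  have h2 : ∑ A, ∑ i, ∑ j, S.FF A i j x ^ 2 = ∑ i, ∑ j, ∑ A, S.FF A i j x ^ 2 := by
    rw [Finset.sum_comm]
    refine Finset.sum_congr rfl fun i _ => ?_
    rw [Finset.sum_comm]
  rw [Setup.V, h2]
  simp only [h1]
  have h3 : ∑ i : Fin 9, ∑ j : Fin 9, (∑ A : Fin 3, x (i, A) ^ 2) * (∑ A, x (j, A) ^ 2) =
      e1 x ^ 2 := by
    rw [e1, sq, Finset.sum_mul_sum]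
  have h4 : ∑ i : Fin 9, ∑ j : Fin 9, ∑ A : Fin 3, ∑ B : Fin 3,
      (x (i, A) * x (i, B)) * (x (j, A) * x (j, B)) = ∑ A, ∑ B, Sm A B x ^ 2 := by
    have : ∀ A B, Sm A B x ^ 2 = ∑ i : Fin 9, ∑ j : Fin 9,
        (x (i, A) * x (i, B)) * (x (j, A) * x (j, B)) := by
      intro A B
      rw [Sm, sq, Finset.sum_mul_sum]
    simp only [this]
    calc _ = ∑ i : Fin 9, ∑ A : Fin 3, ∑ j : Fin 9, ∑ B : Fin 3,
          (x (i, A) * x (i, B)) * (x (j, A) * x (j, B)) := by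
          refine Finset.sum_congr rfl fun i _ => ?_
          rw [Finset.sum_comm]
      _ = ∑ A : Fin 3, ∑ i : Fin 9, ∑ j : Fin 9, ∑ B : Fin 3,
          (x (i, A) * x (i, B)) * (x (j, A) * x (j, B)) := by
          rw [Finset.sum_comm]
      _ = ∑ A : Fin 3, ∑ i : Fin 9, ∑ B : Fin 3, ∑ j : Fin 9,
          (x (i, A) * x (i, B)) * (x (j, A) * x (j, B)) := by
          refine Finset.sum_congr rfl fun A _ => Finset.sum_congr rfl fun i _ => ?_
          rw [Finset.sum_comm]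
      _ = _ := by
          refine Finset.sum_congr rfl fun A _ => ?_
          rw [Finset.sum_comm]
  rw [← h3, ← h4]
  simp only [mul_sub, Finset.sum_sub_distrib, ← Finset.mul_sum]
  ring

lemma hasFDerivAt_e1 (x : X3) : HasFDerivAt e1
    (∑ i, ∑ A, (2 * x (i, A)) • (EuclideanSpace.proj (𝕜 := ℝ) (i, A) : X3 →L[ℝ] ℝ)) x := by
  unfold e1
  refine HasFDerivAt.fun_sum fun i _ => HasFDerivAt.fun_sum fun A _ => ?_
  have h := (Setup.hasFDerivAt_coord (i, A) x).pow 2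
  simpa using h

lemma hasFDerivAt_Sm (A B : Fin 3) (x : X3) : HasFDerivAt (Sm A B)
    (∑ i, (x (i, A) • (EuclideanSpace.proj (𝕜 := ℝ) (i, B) : X3 →L[ℝ] ℝ) +
      x (i, B) • (EuclideanSpace.proj (𝕜 := ℝ) (i, A) : X3 →L[ℝ] ℝ))) x := by
  unfold Sm
  refine HasFDerivAt.fun_sum fun i _ => ?_
  exact (Setup.hasFDerivAt_coord (i, A) x).mul (Setup.hasFDerivAt_coord (i, B) x)

lemma pdr_coord (i j : Fin 9) (A B : Fin 3) (x : X3) :
    pdr j B (fun y => y (i, A)) x = if i = j ∧ A = B then 1 else 0 := by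
  unfold pdr
  rw [(Setup.hasFDerivAt_coord (i, A) x).fderiv]
  simp [PiLp.single_apply]

lemma pdr_e1 (j : Fin 9) (B : Fin 3) (x : X3) : pdr j B e1 x = 2 * x (j, B) := by
  unfold pdr
  rw [(hasFDerivAt_e1 x).fderiv]
  simp only [_root_.sum_apply, _root_.smul_apply, PiLp.proj_apply, PiLp.single_apply,
    Prod.mk.injEq, smul_eq_mul, mul_ite, mul_one, mul_zero]
  rw [Finset.sum_eq_single j, Finset.sum_eq_single B]
  · simp
  · intro A _ hA; simp [hA]
  · intro h; exact absurd (Finset.mem_univ _) h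
  · intro i _ hi
    refine Finset.sum_eq_zero fun A _ => ?_
    simp [hi]
  · intro h; exact absurd (Finset.mem_univ _) h

lemma pdr_Sm (A C : Fin 3) (j : Fin 9) (B : Fin 3) (x : X3) : pdr j B (Sm A C) x =
    (if C = B then x (j, A) else 0) + (if A = B then x (j, C) else 0) := by
  unfold pdr
  rw [(hasFDerivAt_Sm A C x).fderiv]
  simp only [_root_.sum_apply, _root_.smul_apply, _root_.add_apply, PiLp.proj_apply,
    PiLp.single_apply, Prod.mk.injEq, smul_eq_mul, mul_ite, mul_one, mul_zero]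
  rw [Finset.sum_eq_single j]
  · simp
  · intro i _ hi; simp [hi]
  · intro h; exact absurd (Finset.mem_univ _) h

lemma contDiff_e1 : ContDiff ℝ ∞ e1 := by
  unfold e1
  exact ContDiff.sum fun i _ => ContDiff.sum fun A _ => (Setup.contDiff_coord _).pow 2

lemma contDiff_Sm (A B : Fin 3) : ContDiff ℝ ∞ (Sm A B) := by
  unfold Sm
  exact ContDiff.sum fun i _ => (Setup.contDiff_coord _).mul (Setup.contDiff_coord _)

lemma diff_e1 (x : X3) : DifferentiableAt ℝ e1 x := contDiff_e1.differentiable (by simp) x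

lemma diff_Sm (A B : Fin 3) (x : X3) : DifferentiableAt ℝ (Sm A B) x :=
  (contDiff_Sm A B).differentiable (by simp) x

lemma diff_coord (p : Fin 9 × Fin 3) (x : X3) : DifferentiableAt ℝ (fun y : X3 => y p) x :=
  (Setup.contDiff_coord p).differentiable (by simp) x

/-! rules for `pdr` -/

lemma pdr_mul {φ ψ : X3 → ℝ} {x : X3} (j : Fin 9) (B : Fin 3) (hφ : DifferentiableAt ℝ φ x)
    (hψ : DifferentiableAt ℝ ψ x) :
    pdr j B (fun y => φ y * ψ y) x = φ x * pdr j B ψ x + pdr j B φ x * ψ x := by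
  unfold pdr
  rw [fderiv_fun_mul hφ hψ]
  simp only [_root_.add_apply, _root_.smul_apply, smul_eq_mul]
  ring

lemma pdr_add {φ ψ : X3 → ℝ} {x : X3} (j : Fin 9) (B : Fin 3) (hφ : DifferentiableAt ℝ φ x)
    (hψ : DifferentiableAt ℝ ψ x) :
    pdr j B (fun y => φ y + ψ y) x = pdr j B φ x + pdr j B ψ x := by
  unfold pdr
  rw [fderiv_fun_add hφ hψ]
  rfl

lemma pdr_sub {φ ψ : X3 → ℝ} {x : X3} (j : Fin 9) (B : Fin 3) (hφ : DifferentiableAt ℝ φ x)
    (hψ : DifferentiableAt ℝ ψ x) :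
    pdr j B (fun y => φ y - ψ y) x = pdr j B φ x - pdr j B ψ x := by
  unfold pdr
  rw [fderiv_fun_sub hφ hψ]
  rfl

lemma pdr_const_mul {φ : X3 → ℝ} {x : X3} (j : Fin 9) (B : Fin 3) (c : ℝ)
    (hφ : DifferentiableAt ℝ φ x) :
    pdr j B (fun y => c * φ y) x = c * pdr j B φ x := by
  unfold pdr
  rw [fderiv_const_mul hφ]
  rfl

lemma pdr_sum {ι : Type*} (s : Finset ι) {φ : ι → X3 → ℝ} {x : X3} (j : Fin 9) (B : Fin 3)
    (hφ : ∀ i ∈ s, DifferentiableAt ℝ (φ i) x) :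
    pdr j B (fun y => ∑ i ∈ s, φ i y) x = ∑ i ∈ s, pdr j B (φ i) x := by
  unfold pdr
  rw [fderiv_fun_sum hφ]
  simp

/-- gradient of `V` -/
lemma pdr_V (S : Setup F) (j : Fin 9) (B : Fin 3) (x : X3) :
    pdr j B S.V x = S.κ ^ 2 * (e1 x * x (j, B) - ∑ C, Sm B C x * x (j, C)) := by
  have hV : S.V = fun y => S.κ ^ 2 / 4 * (e1 y * e1 y - ∑ A, ∑ C, Sm A C y * Sm A C y) := by
    ext y
    rw [V_eq]
    simp only [sq]
  have hSS : ∀ A C, DifferentiableAt ℝ (fun y => Sm A C y * Sm A C y) x := fun A C =>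
    (diff_Sm A C x).mul (diff_Sm A C x)
  have hS1 : ∀ A, DifferentiableAt ℝ (fun y => ∑ C, Sm A C y * Sm A C y) x := fun A =>
    DifferentiableAt.fun_sum fun C _ => hSS A C
  have hs : DifferentiableAt ℝ (fun y => ∑ A, ∑ C, Sm A C y * Sm A C y) x :=
    DifferentiableAt.fun_sum fun A _ => hS1 A
  have he : DifferentiableAt ℝ (fun y => e1 y * e1 y) x := (diff_e1 x).mul (diff_e1 x)
  have hes : DifferentiableAt ℝ (fun y => e1 y * e1 y - ∑ A, ∑ C, Sm A C y * Sm A C y) x :=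
    he.sub hs
  rw [hV, pdr_const_mul _ _ _ hes, pdr_sub _ _ he hs, pdr_mul _ _ (diff_e1 x) (diff_e1 x),
    pdr_sum _ _ _ (fun A _ => hS1 A), pdr_e1]
  have h1 : ∀ A, pdr j B (fun y => ∑ C, Sm A C y * Sm A C y) x =
      ∑ C, 2 * (Sm A C x * ((if C = B then x (j, A) else 0) + (if A = B then x (j, C) else 0))) := by
    intro A
    rw [pdr_sum _ _ _ (fun C _ => hSS A C)]
    refine Finset.sum_congr rfl fun C _ => ?_
    rw [pdr_mul _ _ (diff_Sm A C x) (diff_Sm A C x), pdr_Sm]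
    ring
  simp only [h1, mul_add, Finset.sum_add_distrib]
  have h2 : ∑ A, ∑ C, 2 * (Sm A C x * (if C = B then x (j, A) else 0)) =
      2 * ∑ C, Sm B C x * x (j, C) := by
    rw [Finset.mul_sum]
    refine Finset.sum_congr rfl fun A _ => ?_
    rw [Finset.sum_eq_single B]
    · simp [Sm_symm A B]
    · intro C _ hC; simp [hC]
    · intro h; exact absurd (Finset.mem_univ _) h
  have h3 : ∑ A, ∑ C, 2 * (Sm A C x * (if A = B then x (j, C) else 0)) =
      2 * ∑ C, Sm B C x * x (j, C) := by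
    rw [Finset.sum_eq_single B, Finset.mul_sum]
    · simp
    · intro A _ hA; simp [hA]
    · intro h; exact absurd (Finset.mem_univ _) h
  rw [h2, h3]
  ring

/-- `|∇V|^2` in terms of the Gram matrix -/
lemma sum_pdr_V_sq (S : Setup F) (x : X3) :
    ∑ j, ∑ B, pdr j B S.V x ^ 2 = S.κ ^ 4 * (e1 x ^ 3 - 2 * e1 x * ∑ A, ∑ B, Sm A B x ^ 2 +
      ∑ A, ∑ B, ∑ C, Sm A B x * Sm B C x * Sm C A x) := by
  simp only [pdr_V]
  have h : ∀ (j : Fin 9) (B : Fin 3), (S.κ ^ 2 * (e1 x * x (j, B) - ∑ C, Sm B C x * x (j, C))) ^ 2 =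
      S.κ ^ 4 * (e1 x ^ 2 * (x (j, B) * x (j, B)) - 2 * e1 x * ∑ C, Sm B C x * (x (j, B) * x (j, C)) +
        ∑ C, ∑ D, Sm B C x * Sm B D x * (x (j, C) * x (j, D))) := by
    intro j B
    simp only [Fin.sum_univ_three]
    ring
  simp only [h, ← Finset.mul_sum, Finset.sum_add_distrib, Finset.sum_sub_distrib]
  have t1 : ∑ j : Fin 9, ∑ B : Fin 3, x (j, B) * x (j, B) = e1 x := by
    simp only [e1, sq]
  have t2 : ∑ j : Fin 9, ∑ B : Fin 3, ∑ C : Fin 3, Sm B C x * (x (j, B) * x (j, C)) =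
      ∑ A, ∑ B, Sm A B x ^ 2 := by
    rw [Finset.sum_comm]
    refine Finset.sum_congr rfl fun B _ => ?_
    rw [Finset.sum_comm]
    refine Finset.sum_congr rfl fun C _ => ?_
    rw [← Finset.mul_sum, sq]
    rfl
  have t3 : ∑ j : Fin 9, ∑ B : Fin 3, ∑ C : Fin 3, ∑ D : Fin 3,
      Sm B C x * Sm B D x * (x (j, C) * x (j, D)) =
      ∑ A, ∑ B, ∑ C, Sm A B x * Sm B C x * Sm C A x := by
    rw [Finset.sum_comm]
    refine Finset.sum_congr rfl fun B _ => ?_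
    rw [Finset.sum_comm]
    refine Finset.sum_congr rfl fun C _ => ?_
    rw [Finset.sum_comm]
    refine Finset.sum_congr rfl fun D _ => ?_
    rw [← Finset.mul_sum]
    have : ∑ i : Fin 9, x (i, C) * x (i, D) = Sm C D x := rfl
    rw [this, Sm_symm B D]
    ring
  rw [t1, t2, t3]
  ring

lemma gram_ineq (a b c d e f : ℝ) :
    3 * (a + b + c) * (a * b * c + 2 * d * e * f - a * f ^ 2 - b * e ^ 2 - c * d ^ 2) ≤
      (a * b + b * c + c * a - d ^ 2 - e ^ 2 - f ^ 2) ^ 2 := by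
  nlinarith [sq_nonneg ((b * c - f ^ 2) - (a * c - e ^ 2)),
    sq_nonneg ((a * c - e ^ 2) - (a * b - d ^ 2)), sq_nonneg ((b * c - f ^ 2) - (a * b - d ^ 2)),
    sq_nonneg (e * f - c * d), sq_nonneg (d * f - b * e), sq_nonneg (d * e - a * f)]

theorem grad_V_sq_le (S : Setup F) (x : X3) :
    ‖x‖ ^ 2 * ∑ i, ∑ A, (pdr i A S.V x) ^ 2 ≤
      2 * S.κ ^ 2 * ‖x‖ ^ 4 * S.V x + 7 * S.V x ^ 2 := by
  have hx : ‖x‖ ^ 4 = e1 x ^ 2 := by rw [e1_eq]; ring
  rw [hx, ← e1_eq, sum_pdr_V_sq, V_eq]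
  have h := gram_ineq (Sm 0 0 x) (Sm 1 1 x) (Sm 2 2 x) (Sm 0 1 x) (Sm 0 2 x) (Sm 1 2 x)
  have s1 : Sm 1 0 x = Sm 0 1 x := Sm_symm _ _ _
  have s2 : Sm 2 0 x = Sm 0 2 x := Sm_symm _ _ _
  have s3 : Sm 2 1 x = Sm 1 2 x := Sm_symm _ _ _
  simp only [e1_eq_Sm, Fin.sum_univ_three, s1, s2, s3]
  have hk : 0 ≤ S.κ ^ 4 := by positivity
  have h2 := mul_le_mul_of_nonneg_left h hk
  have h3 : 0 ≤ S.κ ^ 4 * (Sm 0 0 x * Sm 1 1 x + Sm 1 1 x * Sm 2 2 x + Sm 2 2 x * Sm 0 0 x -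
    Sm 0 1 x ^ 2 - Sm 0 2 x ^ 2 - Sm 1 2 x ^ 2) ^ 2 := by positivity
  nlinarith [h2, h3]

end Vale.Agent.P353
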