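import Vale.Agent.P353.Ident

open Matrix

namespace Vale.Agent.P353

namespace CS

variable {R : Type*} [Ring R] [Algebra ℂ R] (S : CS R)

/-- the rotated system `θ'^A = ∑ O_{AC} θ^C` -/
noncomputable def rot (O : Matrix (Fin 3) (Fin 3) ℂ) (hO : O * Oᵀ = 1) : CS R where
  g := S.g
  g_symm := S.g_symm
  g_anti := S.g_anti
  th α A := ∑ C, O A C • S.th α C
  th_anti := by
    intro α A β B
    have h : (∑ C, O A C • S.th α C) * (∑ C, O B C • S.th β C) +
        (∑ C, O B C • S.th β C) * (∑ C, O A C • S.th α C) =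
        ∑ C, ∑ D, (O A C * O B D) • (S.th α C * S.th β D + S.th β D * S.th α C) := by
      have e1 : (∑ C, O A C • S.th α C) * (∑ C, O B C • S.th β C) =
          ∑ C, ∑ D, (O A C * O B D) • (S.th α C * S.th β D) := by
        simp only [Finset.sum_mul, Finset.mul_sum, smul_mul_smul_comm]
        rw [Finset.sum_comm]
      have e2 : (∑ C, O B C • S.th β C) * (∑ C, O A C • S.th α C) =
          ∑ C, ∑ D, (O A C * O B D) • (S.th β D * S.th α C) := by
        simp only [Finset.sum_mul, Finset.mul_sum, smul_mul_smul_comm]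
        refine Finset.sum_congr rfl fun i _ => Finset.sum_congr rfl fun j _ => ?_
        rw [mul_comm]
      rw [e1, e2]
      simp only [← Finset.sum_add_distrib, smul_add]
    rw [h]
    simp only [S.th_anti]
    have h2 : ∑ C, O A C * O B C = if A = B then 1 else 0 := by
      have := congrFun (congrFun hO A) B
      rw [Matrix.mul_apply, Matrix.one_apply] at this
      simpa only [Matrix.transpose_apply] using this
    by_cases hα : α = β
    · simp only [hα, true_and, smul_ite, smul_zero, Finset.sum_ite_eq, Finset.mem_univ, if_true,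
        ← Finset.sum_smul, h2]
      by_cases hAB : A = B <;> simp [hAB]
    · simp [hα]

section

variable (O : Matrix (Fin 3) (Fin 3) ℂ) (hO : O * Oᵀ = 1)

include hO in
lemma orth_row (A B : Fin 3) : ∑ C, O A C * O B C = if A = B then 1 else 0 := by
  have := congrFun (congrFun hO A) B
  rw [Matrix.mul_apply, Matrix.one_apply] at this
  simpa only [Matrix.transpose_apply] using this

include hO in
lemma orth_col (C D : Fin 3) : ∑ A, O A C * O A D = if C = D then 1 else 0 := by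
  have hO' : Oᵀ * O = 1 := mul_eq_one_comm.mp hO
  have := congrFun (congrFun hO' C) D
  rw [Matrix.mul_apply, Matrix.one_apply] at this
  simpa only [Matrix.transpose_apply] using this

lemma rot_vec (N : Matrix (Fin 16) (Fin 16) ℂ) (A : Fin 3) (β : Fin 16) :
    (S.rot O hO).vec N A β = ∑ C, O A C • S.vec N C β := by
  simp only [vec, rot, Finset.smul_sum]
  rw [Finset.sum_comm]
  refine Finset.sum_congr rfl fun C _ => Finset.sum_congr rfl fun γ _ => ?_
  rw [smul_comm]

lemma rot_bil (N : Matrix (Fin 16) (Fin 16) ℂ) (A B : Fin 3) :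
    (S.rot O hO).bil N A B = ∑ C, ∑ D, (O A C * O B D) • S.bil N C D := by
  have h : ∀ α, (S.rot O hO).th α A * (S.rot O hO).vec N B α =
      ∑ C, ∑ D, (O A C * O B D) • (S.th α C * S.vec N D α) := by
    intro α
    rw [rot_vec]
    simp only [rot, Finset.sum_mul, Finset.mul_sum, smul_mul_smul_comm]
    rw [Finset.sum_comm]
  rw [bil, Finset.sum_congr rfl fun α _ => h α, Finset.sum_comm]
  refine Finset.sum_congr rfl fun C _ => ?_
  rw [Finset.sum_comm]
  refine Finset.sum_congr rfl fun D _ => ?_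
  rw [bil, Finset.smul_sum]

lemma rot_g2 (k l : Fin 9) : (S.rot O hO).g2 k l = S.g2 k l := rfl

lemma rot_g (k : Fin 9) : (S.rot O hO).g k = S.g k := rfl

lemma rot_tot (N : Matrix (Fin 16) (Fin 16) ℂ) : (S.rot O hO).tot N = S.tot N := by
  simp only [tot, rot_bil]
  rw [Finset.sum_comm]
  refine Finset.sum_congr rfl fun C _ => ?_
  rw [Finset.sum_comm]
  have : ∀ D, ∑ A, (O A C * O A D) • S.bil N C D = if C = D then S.bil N C D else 0 := by
    intro D
    rw [← Finset.sum_smul, orth_col O hO]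
    split_ifs <;> simp
  simp only [this, Finset.sum_ite_eq, Finset.mem_univ, if_true]

lemma rot_Sk (k l : Fin 9) : (S.rot O hO).Sk k l = S.Sk k l := by
  rw [Sk, Sk, rot_tot, rot_g2]

/-- `det O = 1` in the form used below -/
def IsSpecial (O : Matrix (Fin 3) (Fin 3) ℂ) : Prop :=
  ∀ C D E, ∑ A, ∑ B, (eps C A B : ℂ) * (O A D * O B E) = ∑ F, O C F * (eps F D E : ℂ)

variable (hS : IsSpecial O)

include hS in
lemma cross_rot {M : Type*} [AddCommGroup M] [Module ℂ M] (b : Fin 3 → Fin 3 → M) (C : Fin 3) :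
    ∑ A, ∑ B, (eps C A B : ℂ) • ∑ D, ∑ E, (O A D * O B E) • b D E =
      ∑ F, O C F • ∑ D, ∑ E, (eps F D E : ℂ) • b D E := by
  have s1 : ∀ (f : Fin 3 → Fin 3 → Fin 3 → Fin 3 → M),
      ∑ A, ∑ B, ∑ D, ∑ E, f A B D E = ∑ D, ∑ E, ∑ A, ∑ B, f A B D E := by
    intro f
    have a1 : ∀ A, ∑ B, ∑ D, ∑ E, f A B D E = ∑ D, ∑ B, ∑ E, f A B D E := fun A =>
      Finset.sum_comm
    have a2 : ∀ A D, ∑ B, ∑ E, f A B D E = ∑ E, ∑ B, f A B D E := fun A D => Finset.sum_comm
    simp only [a1, a2]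
    rw [Finset.sum_comm]
    refine Finset.sum_congr rfl fun D _ => ?_
    rw [Finset.sum_comm]
  have s2 : ∀ (f : Fin 3 → Fin 3 → Fin 3 → M),
      ∑ A, ∑ D, ∑ E, f A D E = ∑ D, ∑ E, ∑ A, f A D E := by
    intro f
    rw [Finset.sum_comm]
    refine Finset.sum_congr rfl fun D _ => ?_
    rw [Finset.sum_comm]
  simp only [Finset.smul_sum, smul_smul]
  rw [s1, s2 (fun A D E => (O C A * (eps A D E : ℂ)) • b D E)]
  refine Finset.sum_congr rfl fun D _ => Finset.sum_congr rfl fun E _ => ?_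
  rw [← Finset.sum_smul, ← hS C D E, Finset.sum_smul]
  refine Finset.sum_congr rfl fun A _ => ?_
  rw [Finset.sum_smul]

include hS in
lemma rot_sG (C : Fin 3) : (S.rot O hO).sG C = ∑ F, O C F • S.sG F := by
  have h2 : ∀ F, O C F • S.sG F = (-Complex.I / 2) • O C F • ∑ D, ∑ E, (eps F D E : ℂ) •
      S.bil 1 D E := by
    intro F
    rw [sG, smul_comm]
  simp only [h2, ← Finset.smul_sum]
  rw [sG]
  congr 1
  simp only [rot_bil]
  rw [cross_rot O hS]

include hS in
lemma rot_CG : ∑ C, (S.rot O hO).sG C * (S.rot O hO).sG C = ∑ C, S.sG C * S.sG C := by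
  simp only [S.rot_sG O hO hS]
  have h : ∀ C, (∑ F, O C F • S.sG F) * (∑ F, O C F • S.sG F) =
      ∑ F, ∑ H, (O C F * O C H) • (S.sG F * S.sG H) := by
    intro C
    simp only [Finset.sum_mul, Finset.mul_sum, smul_mul_smul_comm]
    rw [Finset.sum_comm]
  simp only [h]
  rw [Finset.sum_comm]
  refine Finset.sum_congr rfl fun F _ => ?_
  rw [Finset.sum_comm]
  have : ∀ H, ∑ C, (O C F * O C H) • (S.sG F * S.sG H) = if F = H then S.sG F * S.sG F else 0 := by
    intro H
    rw [← Finset.sum_smul, orth_col O hO]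
    split_ifs with h
    · subst h; simp
    · simp
  simp only [this, Finset.sum_ite_eq, Finset.mem_univ, if_true]

/-- rotated coordinates -/
noncomputable def rotX (O : Matrix (Fin 3) (Fin 3) ℂ) (X : Fin 9 → Fin 3 → ℂ) (j : Fin 9)
    (A : Fin 3) : ℂ := ∑ D, O A D * X j D

include hO in
lemma rot_contr {M : Type*} [AddCommGroup M] [Module ℂ M] (X : Fin 9 → Fin 3 → ℂ) (j : Fin 9)
    (f : Fin 3 → M) :
    ∑ A, rotX O X j A • ∑ C, O A C • f C = ∑ A, X j A • f A := by
  have h : ∀ A, rotX O X j A • ∑ C, O A C • f C = ∑ D, ∑ C, (O A D * O A C) • X j D • f C := by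
    intro A
    rw [rotX, Finset.sum_smul]
    refine Finset.sum_congr rfl fun D _ => ?_
    rw [Finset.smul_sum]
    refine Finset.sum_congr rfl fun C _ => ?_
    simp only [smul_smul]
    congr 1; ring
  simp only [h]
  rw [Finset.sum_comm]
  refine Finset.sum_congr rfl fun D _ => ?_
  rw [Finset.sum_comm]
  have : ∀ C, ∑ A, (O A D * O A C) • X j D • f C = if D = C then X j D • f C else 0 := by
    intro C
    rw [← Finset.sum_smul, orth_col O hO]
    split_ifs <;> simp
  simp only [this, Finset.sum_ite_eq, Finset.mem_univ, if_true]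

lemma rot_Bv (X : Fin 9 → Fin 3 → ℂ) (β : Fin 16) :
    (S.rot O hO).Bv (rotX O X) β = S.Bv X β := by
  simp only [Bv, rot_vec, rot_g, rot_contr O hO]

lemma rot_MS (X : Fin 9 → Fin 3 → ℂ) (β : Fin 16) :
    (S.rot O hO).MS (rotX O X) β = S.MS X β := by
  simp only [MS, rot_vec, rot_g, rot_contr O hO, rot_Sk]

lemma rot_MI (X : Fin 9 → Fin 3 → ℂ) (β : Fin 16) :
    (S.rot O hO).MI (rotX O X) β = S.MI X β := by
  simp only [MI, rot_vec, rot_g, rot_g2, rot_contr O hO, rot_Sk]

lemma MG_eq (X : Fin 9 → Fin 3 → ℂ) (β : Fin 16) :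
    S.MG X β = ∑ j, ∑ A, X j A • ∑ A', ∑ C, (eps A A' C : ℂ) • (S.vec (S.g j) A' β * S.sG C) := by
  have h : ∀ C, (∑ j, ∑ A, ∑ A', ((eps A A' C : ℂ) * X j A) • S.vec (S.g j) A' β) * S.sG C =
      ∑ j, ∑ A, X j A • ∑ A', (eps A A' C : ℂ) • (S.vec (S.g j) A' β * S.sG C) := by
    intro C
    simp only [Finset.sum_mul, Finset.smul_sum, smul_mul_assoc, smul_smul]
    refine Finset.sum_congr rfl fun j _ => Finset.sum_congr rfl fun A _ =>
      Finset.sum_congr rfl fun A' _ => ?_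
    rw [mul_comm]
  simp only [MG, h]
  rw [Finset.sum_comm]
  refine Finset.sum_congr rfl fun j _ => ?_
  rw [Finset.sum_comm]
  refine Finset.sum_congr rfl fun A _ => ?_
  rw [← Finset.smul_sum, Finset.sum_comm]

include hS in
lemma rot_MG (X : Fin 9 → Fin 3 → ℂ) (β : Fin 16) :
    (S.rot O hO).MG (rotX O X) β = S.MG X β := by
  rw [MG_eq, MG_eq]
  refine Finset.sum_congr rfl fun j _ => ?_
  have h : ∀ A, ∑ A', ∑ C, (eps A A' C : ℂ) •
      ((S.rot O hO).vec ((S.rot O hO).g j) A' β * (S.rot O hO).sG C) =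
      ∑ F, O A F • ∑ A', ∑ C, (eps F A' C : ℂ) • (S.vec (S.g j) A' β * S.sG C) := by
    intro A
    rw [← cross_rot O hS]
    refine Finset.sum_congr rfl fun A' _ => Finset.sum_congr rfl fun C _ => ?_
    congr 1
    rw [rot_vec, S.rot_sG O hO hS, rot_g]
    simp only [Finset.sum_mul, Finset.mul_sum, smul_mul_smul_comm]
    rw [Finset.sum_comm]
  simp only [h]
  exact rot_contr O hO X j _

include hS in
lemma rot_Mv (X : Fin 9 → Fin 3 → ℂ) (β : Fin 16) :
    (S.rot O hO).Mv (rotX O X) β = S.Mv X β := by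
  rw [Mv, Mv, rot_MS, S.rot_MG O hO hS, rot_MI, rot_Bv]

/-- the fermionic potential -/
noncomputable def Fv (κ : ℂ) (X : Fin 9 → Fin 3 → ℂ) : R :=
  (Complex.I / 2 * κ) • ∑ q, ∑ A, ∑ B, ∑ C, ((eps A B C : ℂ) * X q C) • S.bil (S.g q) A B

lemma Fv_eq (κ : ℂ) (X : Fin 9 → Fin 3 → ℂ) :
    S.Fv κ X = (Complex.I / 2 * κ) • ∑ q, ∑ C, X q C • ∑ A, ∑ B, (eps C A B : ℂ) •
      S.bil (S.g q) A B := by
  rw [Fv]
  congr 1
  refine Finset.sum_congr rfl fun q _ => ?_
  have h : ∀ C, X q C • ∑ A, ∑ B, (eps C A B : ℂ) • S.bil (S.g q) A B =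
      ∑ A, ∑ B, ((eps A B C : ℂ) * X q C) • S.bil (S.g q) A B := by
    intro C
    simp only [Finset.smul_sum, smul_smul]
    refine Finset.sum_congr rfl fun A _ => Finset.sum_congr rfl fun B _ => ?_
    rw [eps_cyc A B C, mul_comm]
  simp only [h]
  have a1 : ∀ A, ∑ B, ∑ C, ((eps A B C : ℂ) * X q C) • S.bil (S.g q) A B =
      ∑ C, ∑ B, ((eps A B C : ℂ) * X q C) • S.bil (S.g q) A B := fun A => Finset.sum_comm
  simp only [a1]
  rw [Finset.sum_comm]

include hS in
lemma rot_Fv (κ : ℂ) (X : Fin 9 → Fin 3 → ℂ) :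
    (S.rot O hO).Fv κ (rotX O X) = S.Fv κ X := by
  rw [Fv_eq, Fv_eq]
  congr 1
  refine Finset.sum_congr rfl fun q _ => ?_
  have h : ∀ C, ∑ A, ∑ B, (eps C A B : ℂ) • (S.rot O hO).bil ((S.rot O hO).g q) A B =
      ∑ F, O C F • ∑ A, ∑ B, (eps F A B : ℂ) • S.bil (S.g q) A B := by
    intro C
    rw [← cross_rot O hS]
    simp only [rot_bil, rot_g]
  simp only [h]
  exact rot_contr O hO X q _

end

end CS
end Vale.Agent.P353
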