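import Vale.Agent.P353.Ana

open MeasureTheory Filter Topology
open scoped ContDiff

namespace Vale.Agent.P353

variable {F : Type*} [NormedAddCommGroup F] [InnerProductSpace ℂ F]

/-! ### rotations in the `(k,l)` plane -/

/-- projection to the `(k,l)` coordinates -/
noncomputable def PP (k l : Fin 9) : X3 →L[ℝ] X3 :=
  ∑ A : Fin 3, ((EuclideanSpace.proj (𝕜 := ℝ) (k, A) : X3 →L[ℝ] ℝ).smulRight
      (EuclideanSpace.single (k, A) (1 : ℝ)) +
    (EuclideanSpace.proj (𝕜 := ℝ) (l, A) : X3 →L[ℝ] ℝ).smulRight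
      (EuclideanSpace.single (l, A) (1 : ℝ)))

/-- generator of the rotations: `(Λ x)_k = x_l`, `(Λ x)_l = - x_k` -/
noncomputable def LL (k l : Fin 9) : X3 →L[ℝ] X3 :=
  ∑ A : Fin 3, ((EuclideanSpace.proj (𝕜 := ℝ) (l, A) : X3 →L[ℝ] ℝ).smulRight
      (EuclideanSpace.single (k, A) (1 : ℝ)) -
    (EuclideanSpace.proj (𝕜 := ℝ) (k, A) : X3 →L[ℝ] ℝ).smulRight
      (EuclideanSpace.single (l, A) (1 : ℝ)))

lemma PP_apply (k l i : Fin 9) (A : Fin 3) (x : X3) :
    (PP k l x) (i, A) = (if i = k then x (k, A) else 0) + (if i = l then x (l, A) else 0) := by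
  simp only [PP, _root_.sum_apply, _root_.add_apply, ContinuousLinearMap.smulRight_apply,
    PiLp.proj_apply, WithLp.ofLp_sum, Finset.sum_apply, WithLp.ofLp_add, WithLp.ofLp_smul,
    Pi.add_apply, Pi.smul_apply, PiLp.single_apply, Prod.mk.injEq, smul_eq_mul, mul_ite, mul_one,
    mul_zero]
  rw [Finset.sum_add_distrib]
  congr 1
  · by_cases h : i = k <;> simp [h]
  · by_cases h : i = l <;> simp [h]

lemma LL_apply (k l i : Fin 9) (A : Fin 3) (x : X3) :
    (LL k l x) (i, A) = (if i = k then x (l, A) else 0) - (if i = l then x (k, A) else 0) := by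
  simp only [LL, _root_.sum_apply, _root_.sub_apply, ContinuousLinearMap.smulRight_apply,
    PiLp.proj_apply, WithLp.ofLp_sum, Finset.sum_apply, WithLp.ofLp_sub, WithLp.ofLp_smul,
    Pi.sub_apply, Pi.smul_apply, PiLp.single_apply, Prod.mk.injEq, smul_eq_mul, mul_ite, mul_one,
    mul_zero]
  rw [Finset.sum_sub_distrib]
  congr 1
  · by_cases h : i = k <;> simp [h]
  · by_cases h : i = l <;> simp [h]

/-- the rotation `R_t = exp (t Λ)` -/
noncomputable def RR (k l : Fin 9) (t : ℝ) : X3 →L[ℝ] X3 :=
  ContinuousLinearMap.id ℝ X3 + (Real.cos t - 1) • PP k l + Real.sin t • LL k l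

lemma RR_apply (k l i : Fin 9) (A : Fin 3) (t : ℝ) (x : X3) :
    (RR k l t x) (i, A) = x (i, A) + (Real.cos t - 1) *
      ((if i = k then x (k, A) else 0) + (if i = l then x (l, A) else 0)) +
      Real.sin t * ((if i = k then x (l, A) else 0) - (if i = l then x (k, A) else 0)) := by
  simp only [RR, _root_.add_apply, _root_.smul_apply, ContinuousLinearMap.id_apply,
    WithLp.ofLp_add, WithLp.ofLp_smul, Pi.add_apply, Pi.smul_apply, smul_eq_mul, PP_apply,
    LL_apply]

lemma RR_zero (k l : Fin 9) : RR k l 0 = ContinuousLinearMap.id ℝ X3 := by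
  ext x ⟨i, A⟩
  rw [RR_apply]
  simp

lemma RR_add {k l : Fin 9} (h : k ≠ l) (s t : ℝ) (x : X3) :
    RR k l s (RR k l t x) = RR k l (s + t) x := by
  ext ⟨i, A⟩
  rw [RR_apply, RR_apply, RR_apply, RR_apply, RR_apply, Real.cos_add, Real.sin_add]
  have h' : ¬ l = k := fun e => h e.symm
  by_cases h1 : i = k
  · subst h1
    simp only [if_true, if_neg h, if_neg h']
    ring
  · by_cases h2 : i = l
    · subst h2
      simp only [if_true, if_neg h, if_neg h']
      ring
    · simp only [if_neg h1, if_neg h2]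
      ring

lemma PP_inner (k l : Fin 9) (x y : X3) : inner ℝ (PP k l x) y = inner ℝ x (PP k l y) := by
  simp only [PP, _root_.sum_apply, _root_.add_apply, ContinuousLinearMap.smulRight_apply,
    PiLp.proj_apply, sum_inner, inner_sum, inner_add_left, inner_add_right, inner_smul_left,
    inner_smul_right, EuclideanSpace.inner_single_left, EuclideanSpace.inner_single_right]
  refine Finset.sum_congr rfl fun A _ => ?_
  simp only [conj_trivial, map_one, one_mul]
  ring

lemma LL_inner (k l : Fin 9) (x y : X3) : inner ℝ (LL k l x) y = - inner ℝ x (LL k l y) := by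
  simp only [LL, _root_.sum_apply, _root_.sub_apply, ContinuousLinearMap.smulRight_apply,
    PiLp.proj_apply, sum_inner, inner_sum, inner_sub_left, inner_sub_right, inner_smul_left,
    inner_smul_right, EuclideanSpace.inner_single_left, EuclideanSpace.inner_single_right]
  rw [← Finset.sum_neg_distrib]
  refine Finset.sum_congr rfl fun A _ => ?_
  simp only [conj_trivial, map_one, one_mul]
  ring

lemma RR_inner (k l : Fin 9) (t : ℝ) (x y : X3) :
    inner ℝ (RR k l t x) y = inner ℝ x (RR k l (-t) y) := by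
  simp only [RR, _root_.add_apply, _root_.smul_apply, ContinuousLinearMap.id_apply,
    inner_add_left, inner_add_right, inner_smul_left, inner_smul_right, PP_inner, LL_inner,
    Real.cos_neg, Real.sin_neg, conj_trivial]
  ring

lemma RR_neg_cancel {k l : Fin 9} (h : k ≠ l) (t : ℝ) (x : X3) :
    RR k l (-t) (RR k l t x) = x := by
  rw [RR_add h, neg_add_cancel, RR_zero]; rfl

lemma RR_cancel_neg {k l : Fin 9} (h : k ≠ l) (t : ℝ) (x : X3) :
    RR k l t (RR k l (-t) x) = x := by
  rw [RR_add h, add_neg_cancel, RR_zero]; rfl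

lemma RR_norm {k l : Fin 9} (h : k ≠ l) (t : ℝ) (x : X3) : ‖RR k l t x‖ = ‖x‖ := by
  have h1 : ‖RR k l t x‖ ^ 2 = ‖x‖ ^ 2 := by
    rw [← real_inner_self_eq_norm_sq, ← real_inner_self_eq_norm_sq, RR_inner, RR_neg_cancel h]
  exact (sq_eq_sq₀ (norm_nonneg _) (norm_nonneg _)).mp h1

/-- the rotation as a linear isometry equivalence -/
noncomputable def RI {k l : Fin 9} (h : k ≠ l) (t : ℝ) : X3 ≃ₗᵢ[ℝ] X3 where
  toFun := RR k l t
  invFun := RR k l (-t)
  map_add' := fun x y => map_add _ x y
  map_smul' := fun c x => map_smul _ c x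
  left_inv := fun x => RR_neg_cancel h t x
  right_inv := fun x => RR_cancel_neg h t x
  norm_map' := fun x => RR_norm h t x

lemma integral_comp_RR {k l : Fin 9} (h : k ≠ l) (t : ℝ) {G : Type*} [NormedAddCommGroup G]
    [NormedSpace ℝ G] (f : X3 → G) : ∫ x, f (RR k l t x) = ∫ x, f x := by
  have := (RI h t).measurePreserving.integral_comp (RI h t).toHomeomorph.measurableEmbedding f
  exact this

lemma hasDerivAt_RR_neg {k l : Fin 9} (h : k ≠ l) (t : ℝ) (x : X3) :
    HasDerivAt (fun s => RR k l (-s) x) (RR k l (-t) (-(LL k l x))) t := by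
  have e : (fun s => RR k l (-s) x) = fun s => x + (Real.cos s - 1) • PP k l x -
      Real.sin s • LL k l x := by
    ext s
    simp only [RR, _root_.add_apply, _root_.smul_apply, ContinuousLinearMap.id_apply,
      Real.cos_neg, Real.sin_neg, neg_smul]
    rfl
  have h1 : HasDerivAt (fun s => x + (Real.cos s - 1) • PP k l x - Real.sin s • LL k l x)
      ((-Real.sin t) • PP k l x - Real.cos t • LL k l x) t := by
    have a := ((Real.hasDerivAt_cos t).sub_const 1).smul_const (PP k l x)
    have b := (Real.hasDerivAt_sin t).smul_const (LL k l x)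
    exact (a.const_add x).sub b
  rw [e]
  have e2 : RR k l (-t) (-(LL k l x)) = (-Real.sin t) • PP k l x - Real.cos t • LL k l x := by
    ext ⟨i, A⟩
    have h' : ¬ l = k := fun e => h e.symm
    simp only [map_neg, WithLp.ofLp_neg, Pi.neg_apply, WithLp.ofLp_sub, Pi.sub_apply,
      WithLp.ofLp_smul, Pi.smul_apply, smul_eq_mul, RR_apply, PP_apply, LL_apply, Real.cos_neg,
      Real.sin_neg]
    by_cases h1 : i = k
    · subst h1
      simp only [if_true, if_neg h, if_neg h']
      ring
    · by_cases h2 : i = l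
      · subst h2
        simp only [if_true, if_neg h, if_neg h']
        ring
      · simp only [if_neg h1, if_neg h2]
        ring
  rw [e2]
  exact h1

lemma RR_LL {k l : Fin 9} (h : k ≠ l) (t : ℝ) (x : X3) :
    RR k l t (LL k l x) = LL k l (RR k l t x) := by
  ext ⟨i, A⟩
  have h' : ¬ l = k := fun e => h e.symm
  simp only [RR_apply, LL_apply]
  by_cases h1 : i = k
  · subst h1
    simp only [if_true, if_neg h, if_neg h']
    ring
  · by_cases h2 : i = l
    · subst h2
      simp only [if_true, if_neg h, if_neg h']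
      ring
    · simp only [if_neg h1, if_neg h2]
      ring

lemma neg_LL_eq (k l : Fin 9) (x : X3) : -(LL k l x) =
    ∑ A : Fin 3, (x (k, A) • (EuclideanSpace.single (l, A) (1 : ℝ) : X3) -
      x (l, A) • (EuclideanSpace.single (k, A) (1 : ℝ) : X3)) := by
  simp only [LL, _root_.sum_apply, _root_.sub_apply, ContinuousLinearMap.smulRight_apply,
    PiLp.proj_apply]
  rw [← Finset.sum_neg_distrib]
  refine Finset.sum_congr rfl fun A _ => ?_
  rw [neg_sub]

end Vale.Agent.P353
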