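import Vale.Agent.P353.RotB
import Vale.Agent.P353.Energy

open MeasureTheory Filter Topology
open scoped ContDiff

namespace Vale.Agent.P353

variable {F : Type*} [NormedAddCommGroup F] [InnerProductSpace ℂ F]

namespace Setup

variable (S : Setup F)

/-- `X_A(x) = x_i^A γ^i` -/
noncomputable def XB (A : Fin 3) (x : X3) : Matrix (Fin 16) (Fin 16) ℂ :=
  ∑ i, ((x (i, A) : ℝ) : ℂ) • S.g i

lemma gt_mul_g {k l : Fin 9} (h : k ≠ l) (t : ℝ) (i : Fin 9) :
    S.gt k l t * S.g i = S.g i * S.gt k l t +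
      (2 * Real.sin (t / 2) : ℂ) • ((if i = l then S.g k else 0) - (if i = k then S.g l else 0)) := by
  have h' : ¬ l = k := fun e => h e.symm
  rw [gt, S.g2_eq_mul h]
  by_cases h1 : i = k
  · subst h1
    simp only [if_neg h, if_true, zero_sub]
    have e1 : S.g i * S.g l * S.g i = - S.g l := by
      rw [mul_assoc, S.g_swap_ne h', mul_neg, ← mul_assoc, S.g_sq, one_mul]
    have e2 : S.g i * (S.g i * S.g l) = S.g l := by
      rw [← mul_assoc, S.g_sq, one_mul]
    simp only [add_mul, mul_add, Matrix.smul_mul, Matrix.mul_smul, one_mul, mul_one, e1, e2]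
    module
  · by_cases h2 : i = l
    · subst h2
      simp only [if_neg h', if_true, sub_zero]
      have e1 : S.g k * S.g i * S.g i = S.g k := by
        rw [mul_assoc, S.g_sq, mul_one]
      have e2 : S.g i * (S.g k * S.g i) = - S.g k := by
        rw [S.g_swap_ne h, mul_neg, ← mul_assoc, S.g_sq, one_mul]
      simp only [add_mul, mul_add, Matrix.smul_mul, Matrix.mul_smul, one_mul, mul_one, e1, e2]
      module
    · simp only [if_neg h1, if_neg h2, sub_zero, smul_zero, add_zero]
      have e1 : S.g k * S.g l * S.g i = S.g i * (S.g k * S.g l) := by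
        have a1 : S.g l * S.g i = -(S.g i * S.g l) := S.g_swap_ne (fun e => h2 e.symm)
        have a2 : S.g k * S.g i = -(S.g i * S.g k) := S.g_swap_ne (fun e => h1 e.symm)
        rw [mul_assoc, a1, mul_neg, ← mul_assoc, a2, neg_mul, neg_neg, mul_assoc]
      simp only [add_mul, mul_add, Matrix.smul_mul, Matrix.mul_smul, one_mul, mul_one, e1]

lemma XB_RR {k l : Fin 9} (h : k ≠ l) (t : ℝ) (A : Fin 3) (y : X3) :
    S.XB A (RR k l t y) * S.gt k l t = S.gt k l t * S.XB A y := by
  have h' : ¬ l = k := fun e => h e.symm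
  have e1 : S.gt k l t * S.XB A y = S.XB A y * S.gt k l t + (2 * Real.sin (t / 2) : ℂ) •
      (((y (l, A) : ℝ) : ℂ) • S.g k - ((y (k, A) : ℝ) : ℂ) • S.g l) := by
    have : ∀ i, S.gt k l t * (((y (i, A) : ℝ) : ℂ) • S.g i) =
        ((y (i, A) : ℝ) : ℂ) • (S.g i * S.gt k l t) + ((2 * Real.sin (t / 2) : ℂ) •
        ((if i = l then ((y (i, A) : ℝ) : ℂ) • S.g k else 0) -
          (if i = k then ((y (i, A) : ℝ) : ℂ) • S.g l else 0))) := by
      intro i
      rw [Matrix.mul_smul, S.gt_mul_g h, smul_add, smul_comm, smul_sub]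
      congr 3 <;> split_ifs <;> simp
    simp only [XB, Finset.mul_sum, this, Finset.sum_add_distrib, Finset.sum_mul, Matrix.smul_mul,
      ← Finset.smul_sum, Finset.sum_sub_distrib]
    simp
  have e2 : S.XB A (RR k l t y) = S.XB A y +
      (((Real.cos t - 1) * y (k, A) + Real.sin t * y (l, A) : ℝ) : ℂ) • S.g k +
      (((Real.cos t - 1) * y (l, A) - Real.sin t * y (k, A) : ℝ) : ℂ) • S.g l := by
    have : ∀ i, (((RR k l t y) (i, A) : ℝ) : ℂ) • S.g i = ((y (i, A) : ℝ) : ℂ) • S.g i +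
        (if i = k then (((Real.cos t - 1) * y (k, A) + Real.sin t * y (l, A) : ℝ) : ℂ) • S.g k
          else 0) +
        (if i = l then (((Real.cos t - 1) * y (l, A) - Real.sin t * y (k, A) : ℝ) : ℂ) • S.g l
          else 0) := by
      intro i
      rw [RR_apply]
      by_cases h1 : i = k
      · subst h1
        simp only [if_true, if_neg h, ← add_smul, add_zero]
        congr 1
        push_cast
        ring
      · by_cases h2 : i = l
        · subst h2
          simp only [if_true, if_neg h', ← add_smul, add_zero]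
          congr 1
          push_cast
          ring
        · simp only [if_neg h1, if_neg h2]
          simp
    simp only [XB, this, Finset.sum_add_distrib]
    simp
  rw [e1, e2]
  simp only [add_mul]
  have m1 : S.g k * S.gt k l t = (Real.cos (t / 2) : ℂ) • S.g k + (Real.sin (t / 2) : ℂ) • S.g l := by
    rw [gt, S.g2_eq_mul h, mul_add, Matrix.mul_smul, Matrix.mul_smul, mul_one, ← mul_assoc,
      S.g_sq, one_mul]
  have m2 : S.g l * S.gt k l t = (Real.cos (t / 2) : ℂ) • S.g l - (Real.sin (t / 2) : ℂ) • S.g k := by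
    rw [gt, S.g2_eq_mul h, mul_add, Matrix.mul_smul, Matrix.mul_smul, mul_one, S.g_swap_ne h,
      mul_neg, ← mul_assoc, S.g_sq, one_mul, smul_neg]
    rfl
  simp only [Matrix.smul_mul, m1, m2]
  have hc : (Real.cos t : ℂ) - 1 = -2 * (Real.sin (t / 2) : ℂ) ^ 2 := by
    have : Real.cos t = 1 - 2 * Real.sin (t / 2) ^ 2 := by
      have h1 := Real.cos_two_mul (t / 2)
      have h2 := Real.sin_sq_add_cos_sq (t / 2)
      rw [show 2 * (t / 2) = t by ring] at h1
      linarith
    rw [this]; push_cast; ring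
  have hs : (Real.sin t : ℂ) = 2 * (Real.sin (t / 2) : ℂ) * (Real.cos (t / 2) : ℂ) := by
    have h1 := Real.sin_two_mul (t / 2)
    rw [show 2 * (t / 2) = t by ring] at h1
    rw [h1]; push_cast; ring
  have hsc : (Real.sin (t / 2) : ℂ) ^ 2 + (Real.cos (t / 2) : ℂ) ^ 2 = 1 := by
    have := Real.sin_sq_add_cos_sq (t / 2)
    exact_mod_cast this
  rw [add_assoc]
  congr 1
  simp only [smul_add, smul_sub, smul_smul]
  push_cast
  push_cast at hc hs hsc
  rw [hc, hs]
  have c1 : (-2 * Complex.sin (t / 2) ^ 2 * ((y (k, A) : ℝ) : ℂ) +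
      2 * Complex.sin (t / 2) * Complex.cos (t / 2) * ((y (l, A) : ℝ) : ℂ)) * Complex.cos (t / 2) -
      (-2 * Complex.sin (t / 2) ^ 2 * ((y (l, A) : ℝ) : ℂ) -
      2 * Complex.sin (t / 2) * Complex.cos (t / 2) * ((y (k, A) : ℝ) : ℂ)) * Complex.sin (t / 2) =
      2 * Complex.sin (t / 2) * ((y (l, A) : ℝ) : ℂ) := by
    linear_combination 2 * Complex.sin (t / 2) * ((y (l, A) : ℝ) : ℂ) * hsc
  have c2 : (-2 * Complex.sin (t / 2) ^ 2 * ((y (k, A) : ℝ) : ℂ) +
      2 * Complex.sin (t / 2) * Complex.cos (t / 2) * ((y (l, A) : ℝ) : ℂ)) * Complex.sin (t / 2) +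
      (-2 * Complex.sin (t / 2) ^ 2 * ((y (l, A) : ℝ) : ℂ) -
      2 * Complex.sin (t / 2) * Complex.cos (t / 2) * ((y (k, A) : ℝ) : ℂ)) * Complex.cos (t / 2) =
      -(2 * Complex.sin (t / 2) * ((y (k, A) : ℝ) : ℂ)) := by
    linear_combination -2 * Complex.sin (t / 2) * ((y (k, A) : ℝ) : ℂ) * hsc
  linear_combination (norm := module) c1 • S.g k + c2 • S.g l

lemma NA_eq_XB (A : Fin 3) (x : X3) :
    S.NA A x = (S.κ / 2 : ℂ) • ∑ B, ∑ C, (eps A B C : ℂ) • (S.XB B x * S.XB C x) := by
  have h1 : ∀ i j, ((S.FF A i j x : ℝ) : ℂ) • S.g2 i j =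
      ((S.FF A i j x : ℝ) : ℂ) • (S.g i * S.g j) := by
    intro i j
    rw [S.g2_eq]
    by_cases h : i = j
    · subst h
      have h0 : S.FF A i i x = 0 := by
        have := S.FF_swap A i i x
        linarith
      rw [h0]; simp
    · simp [h]
  have h2 : ∀ i j, ((S.FF A i j x : ℝ) : ℂ) • (S.g i * S.g j) = (S.κ : ℂ) • ∑ B, ∑ C,
      (eps A B C : ℂ) • ((((x (i, B) : ℝ) : ℂ) • S.g i) * (((x (j, C) : ℝ) : ℂ) • S.g j)) := by
    intro i j
    simp only [FF, smul_mul_smul_comm, smul_smul, ← Finset.sum_smul]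
    congr 1
    push_cast
    congr 1
    refine Finset.sum_congr rfl fun B _ => Finset.sum_congr rfl fun C _ => ?_
    ring
  simp only [NA, h1, h2, XB, Finset.sum_mul_sum]
  simp only [← Finset.smul_sum, smul_smul]
  rw [show (1 / 2 : ℂ) * (S.κ : ℂ) = (S.κ : ℂ) / 2 by ring]
  congr 1
  simp only [Finset.smul_sum]
  calc _ = ∑ i : Fin 9, ∑ B : Fin 3, ∑ j : Fin 9, ∑ C : Fin 3,
        (eps A B C : ℂ) • ((((x (i, B) : ℝ) : ℂ) • S.g i) * (((x (j, C) : ℝ) : ℂ) • S.g j)) := by
        refine Finset.sum_congr rfl fun i _ => ?_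
        rw [Finset.sum_comm]
    _ = ∑ B : Fin 3, ∑ i : Fin 9, ∑ j : Fin 9, ∑ C : Fin 3,
        (eps A B C : ℂ) • ((((x (i, B) : ℝ) : ℂ) • S.g i) * (((x (j, C) : ℝ) : ℂ) • S.g j)) := by
        rw [Finset.sum_comm]
    _ = ∑ B : Fin 3, ∑ i : Fin 9, ∑ C : Fin 3, ∑ j : Fin 9,
        (eps A B C : ℂ) • ((((x (i, B) : ℝ) : ℂ) • S.g i) * (((x (j, C) : ℝ) : ℂ) • S.g j)) := by
        refine Finset.sum_congr rfl fun B _ => Finset.sum_congr rfl fun i _ => ?_
        rw [Finset.sum_comm]
    _ = _ := by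
        refine Finset.sum_congr rfl fun B _ => ?_
        rw [Finset.sum_comm]

lemma NA_RR {k l : Fin 9} (h : k ≠ l) (t : ℝ) (A : Fin 3) (y : X3) :
    S.NA A (RR k l t y) * S.gt k l t = S.gt k l t * S.NA A y := by
  rw [NA_eq_XB, NA_eq_XB]
  simp only [Matrix.smul_mul, Matrix.mul_smul, Finset.sum_mul, Finset.mul_sum]
  congr 1
  refine Finset.sum_congr rfl fun B _ => Finset.sum_congr rfl fun C _ => ?_
  congr 1
  rw [mul_assoc, S.XB_RR h, ← mul_assoc, S.XB_RR h, mul_assoc]

section U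
variable [CompleteSpace F]

/-- the rotated wave function `(U_t u)(x) = s_t u(R_{-t} x)` -/
noncomputable def Ut (k l : Fin 9) (t : ℝ) (u : X3 → F) (x : X3) : F :=
  S.st k l t (u (RR k l (-t) x))

lemma contDiff_Ut (k l : Fin 9) (t : ℝ) {u : X3 → F} (hu : ContDiff ℝ ∞ u) :
    ContDiff ℝ ∞ (S.Ut k l t u) := by
  unfold Ut
  exact ((S.st k l t).restrictScalars ℝ).contDiff.comp (hu.comp (RR k l (-t)).contDiff)

lemma Tst.Ut {k l : Fin 9} (h : k ≠ l) (t : ℝ) {u : X3 → F} (hu : Tst u) :
    Tst (S.Ut k l t u) := by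
  refine ⟨S.contDiff_Ut k l t hu.1, ?_⟩
  have h1 : HasCompactSupport (fun x => u (RR k l (-t) x)) :=
    hu.2.comp_homeomorph (RI h (-t)).toHomeomorph
  refine h1.mono ?_
  intro x hx
  simp only [Function.mem_support, Setup.Ut] at hx ⊢
  intro h0
  exact hx (by rw [h0, map_zero])

lemma fderiv_Ut (k l : Fin 9) (t : ℝ) {u : X3 → F} (hu : Differentiable ℝ u) (x e : X3) :
    fderiv ℝ (S.Ut k l t u) x e = S.st k l t (fderiv ℝ u (RR k l (-t) x) (RR k l (-t) e)) := by
  have h1 : HasFDerivAt (fun x => u (RR k l (-t) x))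
      ((fderiv ℝ u (RR k l (-t) x)).comp (RR k l (-t))) x :=
    (hu (RR k l (-t) x)).hasFDerivAt.comp x (RR k l (-t)).hasFDerivAt
  have h2 := ((S.st k l t).restrictScalars ℝ).hasFDerivAt.comp x h1
  have h3 : fderiv ℝ (S.Ut k l t u) x = _ := h2.fderiv
  rw [h3]
  rfl

omit [CompleteSpace F] in
lemma J_eq (k l : Fin 9) (u : X3 → F) (x : X3) :
    S.J k l u x = (-Complex.I) • fderiv ℝ u x (-(LL k l x)) + S.Skl k l (u x) := by
  rw [neg_LL_eq]
  simp only [J, pd, map_sum, map_sub, map_smul, Complex.coe_smul]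

/-- `J` commutes with the rotations -/
lemma J_Ut {k l : Fin 9} (h : k ≠ l) (t : ℝ) {u : X3 → F} (hu : Differentiable ℝ u) (x : X3) :
    S.J k l (S.Ut k l t u) x = S.st k l t (S.J k l u (RR k l (-t) x)) := by
  rw [J_eq, J_eq, S.fderiv_Ut k l t hu, map_neg (RR k l (-t)), RR_LL h, map_add, map_smul]
  congr 1
  have := congrArg (fun T : F →L[ℂ] F => T (u (RR k l (-t) x))) (S.st_comm k l t)
  simpa [mul_apply_eq_comp, Ut] using this

lemma hasDerivAt_Ut {k l : Fin 9} (h : k ≠ l) (t : ℝ) {u : X3 → F} (hu : Differentiable ℝ u)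
    (x : X3) :
    HasDerivAt (fun s => S.Ut k l s u x) (Complex.I • S.J k l (S.Ut k l t u) x) t := by
  have h1 : HasDerivAt (fun s => u (RR k l (-s) x))
      (fderiv ℝ u (RR k l (-t) x) (RR k l (-t) (-(LL k l x)))) t :=
    (hu (RR k l (-t) x)).hasFDerivAt.comp_hasDerivAt t (hasDerivAt_RR_neg h t x)
  have hB : IsBoundedBilinearMap ℝ (fun p : (F →L[ℂ] F) × F => p.1 p.2) := by
    have h := (isBoundedBilinearMap_apply (𝕜 := ℂ) (E := F) (F := F))
    refine ⟨fun a b c => by simp, fun c a b => ?_, fun a b c => by simp, fun c a b => ?_, ?_⟩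
    · simp
    · simp
    · obtain ⟨C, hC, hb⟩ := h.bound
      exact ⟨C, hC, hb⟩
  have h2 := (S.hasDerivAt_st k l t).prodMk h1
  have h3 := (hB.hasFDerivAt (S.st k l t, u (RR k l (-t) x))).comp_hasDerivAt t h2
  refine HasDerivAt.congr_deriv (f := fun s => S.Ut k l s u x) h3 ?_
  rw [J_eq, S.fderiv_Ut k l t hu, smul_add, smul_smul]
  have e1 : Complex.I * -Complex.I = 1 := by
    rw [mul_neg, Complex.I_mul_I, neg_neg]
  rw [e1, one_smul]
  simp [mul_apply_eq_comp, Ut]

/-- covariance of the supercharges -/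
lemma Q_Ut {k l : Fin 9} (h : k ≠ l) (t : ℝ) {u : X3 → F} (hu : Differentiable ℝ u) (b : Fin 16)
    (x : X3) :
    S.Q b (S.Ut k l t u) x = S.st k l t (∑ c, S.gt k l t b c • S.Q c u (RR k l (-t) x)) := by
  set y := RR k l (-t) x with hy
  have hx : x = RR k l t y := (RR_cancel_neg h t x).symm
  have happ : ∀ (P : Matrix (Fin 16) (Fin 16) ℂ) (A : Fin 3) (v : F),
      S.vec P A b (S.st k l t v) = S.st k l t (S.vec (P * S.gt k l t) A b v) := by
    intro P A v
    have := congrArg (fun T : F →L[ℂ] F => T v) (S.vec_mul_st h P A b t)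
    simpa [mul_apply_eq_comp] using this
  -- the potential part
  have hW : S.W b x (S.st k l t (u y)) = S.st k l t (∑ c, S.gt k l t b c • S.W c y (u y)) := by
    rw [S.W_eq_NA b x, _root_.sum_apply]
    simp only [happ]
    rw [← map_sum]
    congr 1
    rw [hx]
    simp only [S.NA_RR h, S.vec_mul, W_eq_NA, _root_.sum_apply, _root_.smul_apply, Finset.smul_sum]
    rw [Finset.sum_comm]
  -- the derivative part
  have hD : ∑ i, ∑ A, S.vec (S.g i) A b (pd i A (S.Ut k l t u) x) =
      S.st k l t (∑ c, S.gt k l t b c • ∑ i, ∑ A, S.vec (S.g i) A c (pd i A u y)) := by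
    have hpd : ∀ i A, pd i A (S.Ut k l t u) x = S.st k l t (∑ j, ∑ C,
        ((RR k l t (EuclideanSpace.single (j, C) (1 : ℝ))) (i, A) : ℂ) • pd j C u y) := by
      intro i A
      rw [pd, S.fderiv_Ut k l t hu]
      congr 1
      have e1 : RR k l (-t) (EuclideanSpace.single (i, A) (1 : ℝ)) = ∑ j, ∑ C,
          (RR k l t (EuclideanSpace.single (j, C) (1 : ℝ)) (i, A)) •
            (EuclideanSpace.single (j, C) (1 : ℝ) : X3) := by
        have h0 : ∀ j C, RR k l t (EuclideanSpace.single (j, C) (1 : ℝ)) (i, A) =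
            RR k l (-t) (EuclideanSpace.single (i, A) (1 : ℝ)) (j, C) := by
          intro j C
          have := RR_inner k l t (EuclideanSpace.single (j, C) (1 : ℝ))
            (EuclideanSpace.single (i, A) (1 : ℝ))
          simpa [EuclideanSpace.inner_single_left, EuclideanSpace.inner_single_right] using this
        simp only [h0]
        ext ⟨j', C'⟩
        simp only [WithLp.ofLp_sum, Finset.sum_apply, WithLp.ofLp_smul, Pi.smul_apply,
          PiLp.single_apply, Prod.mk.injEq, smul_eq_mul, mul_ite, mul_one, mul_zero]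
        rw [Finset.sum_eq_single j', Finset.sum_eq_single C']
        · simp
        · intro C _ hC; simp [Ne.symm hC]
        · intro h; exact absurd (Finset.mem_univ _) h
        · intro j _ hj
          refine Finset.sum_eq_zero fun C _ => ?_
          simp [Ne.symm hj]
        · intro h; exact absurd (Finset.mem_univ _) h
      rw [e1]
      simp only [map_sum, map_smul, Complex.coe_smul, ← hy]
      rfl
    simp only [hpd, happ]
    simp only [← map_sum]
    congr 1
    simp only [map_sum, map_smul]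
    have hsw : ∀ (f : Fin 9 → Fin 3 → Fin 9 → Fin 3 → F), ∑ i, ∑ A, ∑ j, ∑ C, f i A j C =
        ∑ j, ∑ C, ∑ A, ∑ i, f i A j C := by
      intro f
      calc _ = ∑ i, ∑ j, ∑ A, ∑ C, f i A j C := by
            refine Finset.sum_congr rfl fun i _ => ?_
            rw [Finset.sum_comm]
        _ = ∑ j, ∑ i, ∑ A, ∑ C, f i A j C := by rw [Finset.sum_comm]
        _ = ∑ j, ∑ i, ∑ C, ∑ A, f i A j C := by
            refine Finset.sum_congr rfl fun j _ => Finset.sum_congr rfl fun i _ => ?_
            rw [Finset.sum_comm]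
        _ = ∑ j, ∑ C, ∑ i, ∑ A, f i A j C := by
            refine Finset.sum_congr rfl fun j _ => ?_
            rw [Finset.sum_comm]
        _ = _ := by
            refine Finset.sum_congr rfl fun j _ => Finset.sum_congr rfl fun C _ => ?_
            rw [Finset.sum_comm]
    rw [hsw]
    have hXe : ∀ (A : Fin 3) (j : Fin 9) (C : Fin 3),
        S.XB A (EuclideanSpace.single (j, C) (1 : ℝ)) = if A = C then S.g j else 0 := by
      intro A j C
      simp only [XB, PiLp.single_apply, Prod.mk.injEq]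
      rw [Finset.sum_eq_single j]
      · by_cases hA : A = C <;> simp [hA]
      · intro i _ hi; simp [hi]
      · intro h; exact absurd (Finset.mem_univ _) h
    have hin : ∀ j C, ∑ A, ∑ i, ((RR k l t (EuclideanSpace.single (j, C) (1 : ℝ)) (i, A) : ℝ) : ℂ) •
        (S.vec (S.g i * S.gt k l t) A b) (pd j C u y) =
        ∑ c, S.gt k l t b c • S.vec (S.g j) C c (pd j C u y) := by
      intro j C
      have h1 : ∀ A, ∑ i, ((RR k l t (EuclideanSpace.single (j, C) (1 : ℝ)) (i, A) : ℝ) : ℂ) •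
          (S.vec (S.g i * S.gt k l t) A b) = S.vec (S.gt k l t *
            S.XB A (EuclideanSpace.single (j, C) (1 : ℝ))) A b := by
        intro A
        rw [← S.XB_RR h]
        simp only [XB, Finset.sum_mul, Matrix.smul_mul, S.vec_sum, S.vec_smul]
      have h2 : ∀ A, ∑ i, ((RR k l t (EuclideanSpace.single (j, C) (1 : ℝ)) (i, A) : ℝ) : ℂ) •
          (S.vec (S.g i * S.gt k l t) A b) (pd j C u y) = (S.vec (S.gt k l t *
            S.XB A (EuclideanSpace.single (j, C) (1 : ℝ))) A b) (pd j C u y) := by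
        intro A
        rw [← h1 A]
        simp only [_root_.sum_apply, _root_.smul_apply]
      simp only [h2, hXe, mul_ite, mul_zero]
      rw [Finset.sum_eq_single C]
      · simp only [if_true, S.vec_mul, _root_.sum_apply, _root_.smul_apply]
      · intro A _ hA
        simp [hA, S.vec_zero]
      · intro h; exact absurd (Finset.mem_univ _) h
    simp only [hin, Finset.smul_sum]
    calc _ = ∑ j, ∑ c, ∑ C, S.gt k l t b c • S.vec (S.g j) C c (pd j C u y) := by
          refine Finset.sum_congr rfl fun j _ => ?_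
          rw [Finset.sum_comm]
      _ = _ := by rw [Finset.sum_comm]
  have hQ : S.Q b (S.Ut k l t u) x = (-Complex.I) • ∑ i, ∑ A,
      S.vec (S.g i) A b (pd i A (S.Ut k l t u) x) + S.W b x (S.Ut k l t u x) := by rw [Q]
  have hUx : S.Ut k l t u x = S.st k l t (u y) := by rw [Ut, hy]
  rw [hQ, hUx, hD, hW, ← map_smul, ← map_add]
  congr 1
  simp only [Finset.smul_sum]
  simp only [Q, smul_add, Finset.sum_add_distrib, Finset.smul_sum]
  congr 1
  refine Finset.sum_congr rfl fun c _ => Finset.sum_congr rfl fun i _ =>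
    Finset.sum_congr rfl fun A _ => ?_
  rw [smul_comm]

end U

end Setup

end Vale.Agent.P353
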