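import Vale.Agent.P353.RotD

open MeasureTheory Filter Topology
open scoped ContDiff

namespace Vale.Agent.P353

variable {F : Type*} [NormedAddCommGroup F] [InnerProductSpace ℂ F]

lemma young {δ : ℝ} (hδ : 0 < δ) (a b : ℝ) : 2 * (a * b) ≤ a ^ 2 / δ + δ * b ^ 2 := by
  have h := sq_nonneg (a - δ * b)
  rw [div_add' _ _ _ hδ.ne', le_div_iff₀ hδ]
  nlinarith

/-- the exact identity for `J` -/
def JExact (S : Setup F) (k l : Fin 9) : Prop :=
  ∀ (u : X3 → F) (x : X3), DifferentiableAt ℝ u x →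
    (112 : ℂ) • S.J k l u x = ∑ β, S.Q β (fun y => S.MJ k l β y (u y)) x +
      ∑ β, S.MJ k l β x (S.Q β u x)

lemma jExact (S : Setup F) {k l : Fin 9} (h : k ≠ l) : JExact S k l :=
  fun u x hu => S.J_exact k l h u x hu

/-- indicator of the exterior region as a radial function -/
noncomputable def wR (R s : ℝ) : ℝ := if R ≤ s then 1 else 0

lemma wR_nonneg (R s : ℝ) : 0 ≤ wR R s := by
  unfold wR; split_ifs <;> norm_num

lemma wR_le_one (R s : ℝ) : wR R s ≤ 1 := by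
  unfold wR; split_ifs <;> norm_num

omit [InnerProductSpace ℂ F] in
lemma integrable_wR (R : ℝ) {f : X3 → F} (hf : Integrable (fun x => ‖f x‖ ^ 2)) :
    Integrable (fun x => wR R ‖x‖ * ‖f x‖ ^ 2) := by
  have h1 : (fun x => wR R ‖x‖ * ‖f x‖ ^ 2) = (fun x =>
      Set.indicator {x : X3 | R ≤ ‖x‖} (fun x => ‖f x‖ ^ 2) x) := by
    ext x
    by_cases hx : R ≤ ‖x‖
    · rw [Set.indicator_of_mem (by exact hx), wR, if_pos hx, one_mul]
    · rw [Set.indicator_of_notMem (by exact hx), wR, if_neg hx, zero_mul]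
  rw [h1]
  exact hf.indicator (isClosed_le continuous_const continuous_norm).measurableSet

namespace Setup

variable (S : Setup F)

/-- pointwise bound for `|x| |Q (χ u)|` -/
lemma norm_Q_cut {K R : ℝ} (hR : 0 < R) {χ : X3 → ℝ} (hχ : IsCut K R χ) {u : X3 → F}
    (hu : Tst u) (b : Fin 16) (x : X3) :
    ‖x‖ * ‖S.Q b (fun y => ((χ y : ℝ) : ℂ) • u y) x‖ ≤ 2 * R * ‖S.Q b u x‖ +
      K * (∑ i, ∑ A, ‖S.vec (S.g i) A b‖) * (wR R ‖x‖ * ‖u x‖) := by
  obtain ⟨hsm, hcs, h0, h1, hin, hout, hgrad, hgrad0⟩ := hχ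
  rw [Q_smul S b χ u x (hsm.differentiable (by simp) x) (hu.diff x)]
  have hχx : χ x * ‖x‖ ≤ 2 * R := by
    by_cases hx : 2 * R ≤ ‖x‖
    · rw [hout x hx, zero_mul]; positivity
    · push Not at hx
      calc χ x * ‖x‖ ≤ 1 * ‖x‖ := mul_le_mul_of_nonneg_right (h1 x) (norm_nonneg _)
        _ ≤ 2 * R := by linarith
  have hg : ∀ i A, |pdr i A χ x| * ‖x‖ ≤ K * wR R ‖x‖ := by
    intro i A
    by_cases hx : R ≤ ‖x‖
    · rw [wR, if_pos hx, mul_one]; exact hgrad i A x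
    · push Not at hx
      rw [hgrad0 i A x hx, abs_zero, zero_mul, wR, if_neg (not_le.mpr hx), mul_zero]
  have e1 : ‖((χ x : ℝ) : ℂ) • S.Q b u x‖ = χ x * ‖S.Q b u x‖ := by
    rw [norm_smul, Complex.norm_real, Real.norm_of_nonneg (h0 x)]
  have e2 : ‖Complex.I • ∑ i, ∑ A, ((pdr i A χ x : ℝ) : ℂ) • S.vec (S.g i) A b (u x)‖ ≤
      ∑ i, ∑ A, |pdr i A χ x| * (‖S.vec (S.g i) A b‖ * ‖u x‖) := by
    rw [norm_smul, Complex.norm_I, one_mul]
    refine (norm_sum_le _ _).trans (Finset.sum_le_sum fun i _ => ?_)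
    refine (norm_sum_le _ _).trans (Finset.sum_le_sum fun A _ => ?_)
    rw [norm_smul, Complex.norm_real, Real.norm_eq_abs]
    exact mul_le_mul_of_nonneg_left (ContinuousLinearMap.le_opNorm _ _) (abs_nonneg _)
  calc ‖x‖ * ‖((χ x : ℝ) : ℂ) • S.Q b u x -
        Complex.I • ∑ i, ∑ A, ((pdr i A χ x : ℝ) : ℂ) • S.vec (S.g i) A b (u x)‖
      ≤ ‖x‖ * (χ x * ‖S.Q b u x‖ + ∑ i, ∑ A, |pdr i A χ x| * (‖S.vec (S.g i) A b‖ * ‖u x‖)) := by
        refine mul_le_mul_of_nonneg_left ?_ (norm_nonneg _)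
        refine (norm_sub_le _ _).trans ?_
        rw [e1]
        exact add_le_add le_rfl e2
    _ = (χ x * ‖x‖) * ‖S.Q b u x‖ + ∑ i, ∑ A, (|pdr i A χ x| * ‖x‖) *
          (‖S.vec (S.g i) A b‖ * ‖u x‖) := by
        rw [mul_add, Finset.mul_sum]
        congr 1
        · ring
        · refine Finset.sum_congr rfl fun i _ => ?_
          rw [Finset.mul_sum]
          refine Finset.sum_congr rfl fun A _ => ?_
          ring
    _ ≤ 2 * R * ‖S.Q b u x‖ + ∑ i, ∑ A, (K * wR R ‖x‖) *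
          (‖S.vec (S.g i) A b‖ * ‖u x‖) := by
        refine add_le_add (mul_le_mul_of_nonneg_right hχx (norm_nonneg _))
          (Finset.sum_le_sum fun i _ => Finset.sum_le_sum fun A _ => ?_)
        exact mul_le_mul_of_nonneg_right (hg i A) (by positivity)
    _ = _ := by
        simp only [← Finset.mul_sum, ← Finset.sum_mul]
        ring

variable [CompleteSpace F]

lemma deriv_bound {k l : Fin 9} (h : k ≠ l) (hJ : JExact S k l) {K0 : ℝ} (hK0 : 0 ≤ K0) :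
    ∃ K : ℝ, 0 ≤ K ∧ ∀ u : X3 → F, Tst u → ∀ R : ℝ, 0 < R → ∀ δ : ℝ, 0 < δ →
      ∀ χ : X3 → ℝ, IsCut K0 R χ → ∀ t : ℝ,
      ‖∫ x, inner ℂ (((χ x : ℝ) : ℂ) • u x) (S.J k l (S.Ut k l t u) x)‖ ≤
        K * (R * ((∑ b, ∫ x, ‖S.Q b u x‖ ^ 2) / δ + δ * ∫ x, ‖u x‖ ^ 2) +
          ∫ x, wR R ‖x‖ * ‖u x‖ ^ 2) := by
  choose Cb hCb0 hCb using MJ_bound S k l
  obtain ⟨Cg, hCg, hg⟩ := S.integral_Q_Ut h
  let Gb : Fin 16 → ℝ := fun b => ∑ i, ∑ A, ‖S.vec (S.g i) A b‖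
  have hGb : ∀ b, 0 ≤ Gb b := fun b => by positivity
  refine ⟨∑ b, (Cb b * (1 + K0 * Gb b) + Cb b * (1 + Cg)), ?_, ?_⟩
  · refine Finset.sum_nonneg fun b _ => ?_
    have := hCb0 b
    have := hGb b
    positivity
  intro u hu R hR δ hδ χ hχ t
  set v := S.Ut k l t u with hv
  have hvT : Tst v := hu.Ut S h t
  set q := ∑ b, ∫ x, ‖S.Q b u x‖ ^ 2 with hq
  set a := ∫ x, ‖u x‖ ^ 2 with ha
  set e := ∫ x, wR R ‖x‖ * ‖u x‖ ^ 2 with he
  have hχs : ContDiff ℝ ∞ χ := hχ.1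
  have hχ0 := hχ.2.2.1
  have hχ1 := hχ.2.2.2.1
  have hχout := hχ.2.2.2.2.2.1
  have hcu : Tst (fun x => ((χ x : ℝ) : ℂ) • u x) := hu.rsmul hχs
  have hMv : ∀ b, ContDiff ℝ ∞ (fun y => S.MJ k l b y (v y)) := fun b =>
    contDiff_clm_apply' (contDiff_MJ S k l b) hvT.1
  have hMQ : ∀ b, ContDiff ℝ ∞ (fun y => S.MJ k l b y (S.Q b v y)) := fun b =>
    contDiff_clm_apply' (contDiff_MJ S k l b) (hvT.Q S b).1
  have hq0 : ∀ b, 0 ≤ ∫ x, ‖S.Q b u x‖ ^ 2 := fun b => integral_nonneg fun x => by positivity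
  have hqb : ∀ b, ∫ x, ‖S.Q b u x‖ ^ 2 ≤ q := fun b =>
    Finset.single_le_sum (f := fun b => ∫ x, ‖S.Q b u x‖ ^ 2) (fun b _ => hq0 b)
      (Finset.mem_univ b)
  have hqn : 0 ≤ q := Finset.sum_nonneg fun b _ => hq0 b
  have ha0 : 0 ≤ a := integral_nonneg fun x => by positivity
  have he0 : 0 ≤ e := integral_nonneg fun x => mul_nonneg (wR_nonneg _ _) (by positivity)
  have hva : ∫ x, ‖v x‖ ^ 2 = a := S.integral_Ut' h t u
  have hve : ∫ x, wR R ‖x‖ * ‖v x‖ ^ 2 = e := S.integral_Ut h t u (wR R)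
  -- the identity
  have hid : (112 : ℂ) * ∫ x, inner ℂ (((χ x : ℝ) : ℂ) • u x) (S.J k l v x) =
      ∑ b, ((∫ x, inner ℂ (S.Q b (fun y => ((χ y : ℝ) : ℂ) • u y) x) (S.MJ k l b x (v x))) +
        ∫ x, inner ℂ (((χ x : ℝ) : ℂ) • u x) (S.MJ k l b x (S.Q b v x))) := by
    have h1 : ∀ x, (112 : ℂ) * inner ℂ (((χ x : ℝ) : ℂ) • u x) (S.J k l v x) =
        ∑ b, (inner ℂ (((χ x : ℝ) : ℂ) • u x) (S.Q b (fun y => S.MJ k l b y (v y)) x) +
          inner ℂ (((χ x : ℝ) : ℂ) • u x) (S.MJ k l b x (S.Q b v x))) := by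
      intro x
      rw [← inner_smul_right, hJ v x (hvT.diff x), inner_add_right, inner_sum, inner_sum,
        Finset.sum_add_distrib]
    rw [← integral_const_mul]
    simp only [h1]
    rw [integral_finsetSum]
    · refine Finset.sum_congr rfl fun b _ => ?_
      rw [integral_add]
      · rw [Q_symm S b _ _ hcu (hMv b)]
      · exact hcu.inner_int (S.contDiff_Q b (hMv b)).continuous
      · exact hcu.inner_int (hMQ b).continuous
    · intro b _
      exact (hcu.inner_int (S.contDiff_Q b (hMv b)).continuous).add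
        (hcu.inner_int (hMQ b).continuous)
  -- first term
  have ht1 : ∀ b, ‖∫ x, inner ℂ (S.Q b (fun y => ((χ y : ℝ) : ℂ) • u y) x)
      (S.MJ k l b x (v x))‖ ≤ (Cb b * (1 + K0 * Gb b)) * (R * (q / δ + δ * a) + e) := by
    intro b
    have hpt : ∀ x, ‖inner ℂ (S.Q b (fun y => ((χ y : ℝ) : ℂ) • u y) x) (S.MJ k l b x (v x))‖ ≤
        Cb b * (R * (‖S.Q b u x‖ ^ 2 / δ + δ * ‖v x‖ ^ 2) +
          K0 * Gb b * (1 / 2 * (wR R ‖x‖ * ‖u x‖ ^ 2 + wR R ‖x‖ * ‖v x‖ ^ 2))) := by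
      intro x
      refine (norm_inner_le_norm _ _).trans ?_
      have h1 : ‖S.MJ k l b x (v x)‖ ≤ Cb b * ‖x‖ * ‖v x‖ :=
        (ContinuousLinearMap.le_opNorm _ _).trans
          (mul_le_mul_of_nonneg_right (hCb b x) (norm_nonneg _))
      have h2 := S.norm_Q_cut hR hχ hu b x
      have h3 := young hδ ‖S.Q b u x‖ ‖v x‖
      have h4 : ‖u x‖ * ‖v x‖ ≤ 1 / 2 * (‖u x‖ ^ 2 + ‖v x‖ ^ 2) := by
        nlinarith [sq_nonneg (‖u x‖ - ‖v x‖)]
      calc ‖S.Q b (fun y => ((χ y : ℝ) : ℂ) • u y) x‖ * ‖S.MJ k l b x (v x)‖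
          ≤ ‖S.Q b (fun y => ((χ y : ℝ) : ℂ) • u y) x‖ * (Cb b * ‖x‖ * ‖v x‖) :=
            mul_le_mul_of_nonneg_left h1 (norm_nonneg _)
        _ = Cb b * ((‖x‖ * ‖S.Q b (fun y => ((χ y : ℝ) : ℂ) • u y) x‖) * ‖v x‖) := by ring
        _ ≤ Cb b * ((2 * R * ‖S.Q b u x‖ + K0 * Gb b * (wR R ‖x‖ * ‖u x‖)) * ‖v x‖) :=
            mul_le_mul_of_nonneg_left (mul_le_mul_of_nonneg_right h2 (norm_nonneg _)) (hCb0 b)
        _ = Cb b * (R * (2 * (‖S.Q b u x‖ * ‖v x‖)) +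
              K0 * Gb b * (wR R ‖x‖ * (‖u x‖ * ‖v x‖))) := by ring
        _ ≤ Cb b * (R * (‖S.Q b u x‖ ^ 2 / δ + δ * ‖v x‖ ^ 2) +
              K0 * Gb b * (wR R ‖x‖ * (1 / 2 * (‖u x‖ ^ 2 + ‖v x‖ ^ 2)))) := by
            refine mul_le_mul_of_nonneg_left (add_le_add (mul_le_mul_of_nonneg_left h3 hR.le)
              (mul_le_mul_of_nonneg_left (mul_le_mul_of_nonneg_left h4 (wR_nonneg _ _))
                (mul_nonneg hK0 (hGb b)))) (hCb0 b)
        _ = _ := by ring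
    have i1 : Integrable (fun x => ‖S.Q b u x‖ ^ 2 / δ) := (hu.Q S b).norm_sq_int.div_const δ
    have i2 : Integrable (fun x => δ * ‖v x‖ ^ 2) := hvT.norm_sq_int.const_mul δ
    have i3 : Integrable (fun x => wR R ‖x‖ * ‖u x‖ ^ 2) := integrable_wR R hu.norm_sq_int
    have i4 : Integrable (fun x => wR R ‖x‖ * ‖v x‖ ^ 2) := integrable_wR R hvT.norm_sq_int
    have i5 : Integrable (fun x => ‖S.Q b u x‖ ^ 2 / δ + δ * ‖v x‖ ^ 2) := i1.add i2
    have i6 : Integrable (fun x => wR R ‖x‖ * ‖u x‖ ^ 2 + wR R ‖x‖ * ‖v x‖ ^ 2) := i3.add i4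
    have i7 : Integrable (fun x => K0 * Gb b * (1 / 2 * (wR R ‖x‖ * ‖u x‖ ^ 2 +
        wR R ‖x‖ * ‖v x‖ ^ 2))) := (i6.const_mul _).const_mul _
    have i8 : Integrable (fun x => R * (‖S.Q b u x‖ ^ 2 / δ + δ * ‖v x‖ ^ 2)) := i5.const_mul _
    refine (norm_integral_le_integral_norm _).trans ?_
    calc ∫ x, ‖inner ℂ (S.Q b (fun y => ((χ y : ℝ) : ℂ) • u y) x) (S.MJ k l b x (v x))‖
        ≤ ∫ x, Cb b * (R * (‖S.Q b u x‖ ^ 2 / δ + δ * ‖v x‖ ^ 2) +
          K0 * Gb b * (1 / 2 * (wR R ‖x‖ * ‖u x‖ ^ 2 + wR R ‖x‖ * ‖v x‖ ^ 2))) :=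
          integral_mono ((hcu.Q S b).inner_int (hMv b).continuous).norm
            ((i8.add i7).const_mul _) hpt
      _ = Cb b * (R * ((∫ x, ‖S.Q b u x‖ ^ 2) / δ + δ * a) + K0 * Gb b * e) := by
          rw [integral_const_mul, integral_add i8 i7, integral_const_mul, integral_const_mul,
            integral_const_mul, integral_add i1 i2, integral_add i3 i4, integral_div,
            integral_const_mul, hva, hve]
          ring
      _ ≤ Cb b * (R * (q / δ + δ * a) + K0 * Gb b * e) := by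
          have := hqb b
          have := hCb0 b
          gcongr
      _ ≤ _ := by
          have h1 : 0 ≤ R * (q / δ + δ * a) := by positivity
          have h2 := hCb0 b
          have h3 := mul_nonneg hK0 (hGb b)
          have h4 : 0 ≤ Cb b * (K0 * Gb b * (R * (q / δ + δ * a)) + e) := by positivity
          nlinarith [h4]
  -- second term
  have ht2 : ∀ b, ‖∫ x, inner ℂ (((χ x : ℝ) : ℂ) • u x) (S.MJ k l b x (S.Q b v x))‖ ≤
      (Cb b * (1 + Cg)) * (R * (q / δ + δ * a) + e) := by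
    intro b
    have hpt : ∀ x, ‖inner ℂ (((χ x : ℝ) : ℂ) • u x) (S.MJ k l b x (S.Q b v x))‖ ≤
        Cb b * (R * (‖S.Q b v x‖ ^ 2 / δ + δ * ‖u x‖ ^ 2)) := by
      intro x
      refine (norm_inner_le_norm _ _).trans ?_
      have h1 : ‖S.MJ k l b x (S.Q b v x)‖ ≤ Cb b * ‖x‖ * ‖S.Q b v x‖ :=
        (ContinuousLinearMap.le_opNorm _ _).trans
          (mul_le_mul_of_nonneg_right (hCb b x) (norm_nonneg _))
      have hχx : χ x * ‖x‖ ≤ 2 * R := by
        by_cases hx : 2 * R ≤ ‖x‖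
        · rw [hχout x hx, zero_mul]; positivity
        · push Not at hx
          calc χ x * ‖x‖ ≤ 1 * ‖x‖ := mul_le_mul_of_nonneg_right (hχ1 x) (norm_nonneg _)
            _ ≤ 2 * R := by linarith
      have h3 := young hδ ‖S.Q b v x‖ ‖u x‖
      rw [norm_smul, Complex.norm_real, Real.norm_of_nonneg (hχ0 x)]
      calc χ x * ‖u x‖ * ‖S.MJ k l b x (S.Q b v x)‖
          ≤ χ x * ‖u x‖ * (Cb b * ‖x‖ * ‖S.Q b v x‖) :=
            mul_le_mul_of_nonneg_left h1 (mul_nonneg (hχ0 x) (norm_nonneg _))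
        _ = Cb b * ((χ x * ‖x‖) * (‖S.Q b v x‖ * ‖u x‖)) := by ring
        _ ≤ Cb b * ((2 * R) * (‖S.Q b v x‖ * ‖u x‖)) :=
            mul_le_mul_of_nonneg_left (mul_le_mul_of_nonneg_right hχx (by positivity)) (hCb0 b)
        _ = Cb b * (R * (2 * (‖S.Q b v x‖ * ‖u x‖))) := by ring
        _ ≤ _ := mul_le_mul_of_nonneg_left (mul_le_mul_of_nonneg_left h3 hR.le) (hCb0 b)
    have i1 : Integrable (fun x => ‖S.Q b v x‖ ^ 2 / δ) := (hvT.Q S b).norm_sq_int.div_const δ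
    have i2 : Integrable (fun x => δ * ‖u x‖ ^ 2) := hu.norm_sq_int.const_mul δ
    refine (norm_integral_le_integral_norm _).trans ?_
    calc ∫ x, ‖inner ℂ (((χ x : ℝ) : ℂ) • u x) (S.MJ k l b x (S.Q b v x))‖
        ≤ ∫ x, Cb b * (R * (‖S.Q b v x‖ ^ 2 / δ + δ * ‖u x‖ ^ 2)) :=
          integral_mono (hcu.inner_int (hMQ b).continuous).norm
            (((i1.add i2).const_mul _).const_mul _) hpt
      _ = Cb b * (R * ((∫ x, ‖S.Q b v x‖ ^ 2) / δ + δ * a)) := by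
          rw [integral_const_mul, integral_const_mul, integral_add i1 i2, integral_div,
            integral_const_mul]
      _ ≤ Cb b * (R * (Cg * q / δ + δ * a)) := by
          have h1 := hg t u hu b
          have h2 := hCb0 b
          gcongr
      _ ≤ _ := by
          have h2 := hCb0 b
          have h4 : 0 ≤ Cb b * (R * (q / δ + Cg * (δ * a)) + (1 + Cg) * e) := by positivity
          have h5 : Cg * q / δ = Cg * (q / δ) := by ring
          rw [h5]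
          nlinarith [h4]
  -- conclusion
  have hfin : ‖(112 : ℂ) * ∫ x, inner ℂ (((χ x : ℝ) : ℂ) • u x) (S.J k l v x)‖ ≤
      (∑ b, (Cb b * (1 + K0 * Gb b) + Cb b * (1 + Cg))) * (R * (q / δ + δ * a) + e) := by
    rw [hid, Finset.sum_mul]
    refine (norm_sum_le _ _).trans (Finset.sum_le_sum fun b _ => ?_)
    refine (norm_add_le _ _).trans ?_
    rw [add_mul]
    exact add_le_add (ht1 b) (ht2 b)
  refine le_trans ?_ hfin
  rw [norm_mul]
  have h112 : ‖(112 : ℂ)‖ = 112 := by norm_num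
  rw [h112]
  nlinarith [norm_nonneg (∫ x, inner ℂ (((χ x : ℝ) : ℂ) • u x) (S.J k l v x))]

end Setup

end Vale.Agent.P353
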