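import Vale.Agent.P353.Pot

open MeasureTheory Filter Topology
open scoped ContDiff

namespace Vale.Agent.P353

variable {F : Type*} [NormedAddCommGroup F] [InnerProductSpace ℂ F]

lemma sum_x_pdr_V (S : Setup F) (x : X3) :
    ∑ j, ∑ B, x (j, B) * pdr j B S.V x = 4 * S.V x := by
  simp only [pdr_V, V_eq]
  have h : ∀ (j : Fin 9) (B : Fin 3), x (j, B) * (S.κ ^ 2 * (e1 x * x (j, B) -
      ∑ C, Sm B C x * x (j, C))) = S.κ ^ 2 * (e1 x * (x (j, B) * x (j, B)) -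
      ∑ C, Sm B C x * (x (j, B) * x (j, C))) := by
    intro j B
    simp only [Fin.sum_univ_three]
    ring
  simp only [h, ← Finset.mul_sum, Finset.sum_sub_distrib]
  have t1 : ∑ j : Fin 9, ∑ B : Fin 3, x (j, B) * x (j, B) = e1 x := by
    simp only [e1, sq]
  have t2 : ∑ j : Fin 9, ∑ B : Fin 3, ∑ C : Fin 3, Sm B C x * (x (j, B) * x (j, C)) =
      ∑ A, ∑ B, Sm A B x ^ 2 := by
    rw [Finset.sum_comm]
    refine Finset.sum_congr rfl fun B _ => ?_
    rw [Finset.sum_comm]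
    refine Finset.sum_congr rfl fun C _ => ?_
    rw [← Finset.mul_sum, sq]
    rfl
  rw [t1, t2]
  ring

lemma pdr_pdr_V (S : Setup F) (j : Fin 9) (B : Fin 3) (x : X3) :
    pdr j B (pdr j B S.V) x = S.κ ^ 2 * (e1 x + x (j, B) ^ 2 - Sm B B x - ∑ A, x (j, A) ^ 2) := by
  have hV : pdr j B S.V = fun y => S.κ ^ 2 * (e1 y * y (j, B) - ∑ C, Sm B C y * y (j, C)) := by
    ext y
    rw [pdr_V]
  have d1 : DifferentiableAt ℝ (fun y : X3 => e1 y * y (j, B)) x := (diff_e1 x).mul (diff_coord _ x)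
  have d2 : ∀ C, DifferentiableAt ℝ (fun y : X3 => Sm B C y * y (j, C)) x := fun C =>
    (diff_Sm B C x).mul (diff_coord _ x)
  have d3 : DifferentiableAt ℝ (fun y : X3 => ∑ C, Sm B C y * y (j, C)) x :=
    DifferentiableAt.fun_sum fun C _ => d2 C
  have d4 : DifferentiableAt ℝ (fun y : X3 => e1 y * y (j, B) - ∑ C, Sm B C y * y (j, C)) x :=
    d1.sub d3
  rw [hV, pdr_const_mul _ _ _ d4, pdr_sub _ _ d1 d3, pdr_mul _ _ (diff_e1 x) (diff_coord _ x),
    pdr_sum _ _ _ (fun C _ => d2 C), pdr_e1, pdr_coord]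
  have h1 : ∀ C, pdr j B (fun y : X3 => Sm B C y * y (j, C)) x =
      (if C = B then Sm B B x + x (j, B) ^ 2 else 0) + x (j, C) ^ 2 := by
    intro C
    rw [pdr_mul _ _ (diff_Sm B C x) (diff_coord _ x), pdr_Sm, pdr_coord]
    by_cases h : C = B
    · subst h
      simp
      ring
    · simp [h]
      ring
  simp only [h1, Finset.sum_add_distrib, Finset.sum_ite_eq', Finset.mem_univ, if_true, and_self]
  ring

lemma laplacian_V (S : Setup F) (x : X3) :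
    ∑ j, ∑ B, pdr j B (pdr j B S.V) x = 16 * S.κ ^ 2 * e1 x := by
  simp only [pdr_pdr_V, ← Finset.mul_sum]
  have h : ∑ j : Fin 9, ∑ B : Fin 3, (e1 x + x (j, B) ^ 2 - Sm B B x - ∑ A, x (j, A) ^ 2) =
      16 * e1 x := by
    simp only [Finset.sum_sub_distrib, Finset.sum_add_distrib, Finset.sum_const, Finset.card_univ,
      Fintype.card_fin]
    have a1 : ∑ j : Fin 9, ∑ B : Fin 3, x (j, B) ^ 2 = e1 x := rfl
    have a2 : ∑ j : Fin 3, Sm j j x = e1 x := (e1_eq_Sm x).symm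
    rw [← Finset.smul_sum, a1, a2]
    simp only [nsmul_eq_mul]
    push_cast
    ring
  rw [h]
  ring

/-! ### the inverse norm -/

lemma pdr_inv_norm (j : Fin 9) (B : Fin 3) (x : X3) (hx : x ≠ 0) :
    pdr j B (fun y => ‖y‖⁻¹) x = - x (j, B) * ‖x‖⁻¹ ^ 3 := by
  have hn : 0 < ‖x‖ := norm_pos_iff.mpr hx
  have he : e1 x ≠ 0 := by rw [e1_eq]; positivity
  have h1 := (hasFDerivAt_e1 x).sqrt he
  have hsq : ∀ y : X3, Real.sqrt (e1 y) = ‖y‖ := by
    intro y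
    rw [e1_eq, Real.sqrt_sq (norm_nonneg y)]
  have hne : Real.sqrt (e1 x) ≠ 0 := by rw [hsq]; exact hn.ne'
  have h2 := (hasDerivAt_inv hne).comp_hasFDerivAt x h1
  have h3 : (fun y : X3 => ‖y‖⁻¹) = (fun y => (Real.sqrt (e1 y))⁻¹) := by
    ext y; rw [hsq]
  have h4 : fderiv ℝ (fun y : X3 => ‖y‖⁻¹) x =
      fderiv ℝ ((fun y => y⁻¹) ∘ fun y => Real.sqrt (e1 y)) x := by rw [h3]; rfl
  unfold pdr
  rw [h4, h2.fderiv]
  have h5 := pdr_e1 j B x
  unfold pdr at h5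
  rw [(hasFDerivAt_e1 x).fderiv] at h5
  simp only [_root_.smul_apply, smul_eq_mul]
  rw [h5, hsq]
  field_simp

lemma diff_inv_norm (x : X3) (hx : x ≠ 0) : DifferentiableAt ℝ (fun y : X3 => ‖y‖⁻¹) x := by
  have h := (differentiableAt_id (𝕜 := ℝ) (x := x)).norm ℝ hx
  exact h.inv (norm_ne_zero_iff.mpr hx)

lemma contDiffAt_inv_norm (x : X3) (hx : x ≠ 0) : ContDiffAt ℝ ∞ (fun y : X3 => ‖y‖⁻¹) x := by
  have h := contDiffAt_norm ℝ (n := ∞) hx
  exact h.inv (norm_ne_zero_iff.mpr hx)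

/-- the vector field `c ∇(V/|x|)` -/
noncomputable def GV (S : Setup F) (c : ℝ) (j : Fin 9) (B : Fin 3) (x : X3) : ℝ :=
  c * (pdr j B S.V x * ‖x‖⁻¹ - S.V x * x (j, B) * ‖x‖⁻¹ ^ 3)

lemma contDiff_pdr {φ : X3 → ℝ} (hφ : ContDiff ℝ ∞ φ) (j : Fin 9) (B : Fin 3) :
    ContDiff ℝ ∞ (pdr j B φ) := by
  unfold pdr
  exact (hφ.fderiv_right (m := ∞) (by simp)).clm_apply contDiff_const

lemma div_GV (S : Setup F) (c : ℝ) (x : X3) (hx : x ≠ 0) :
    ∑ j, ∑ B, pdr j B (GV S c j B) x =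
      c * (16 * S.κ ^ 2 * ‖x‖ - 32 * S.V x * ‖x‖⁻¹ ^ 3) := by
  have hn : 0 < ‖x‖ := norm_pos_iff.mpr hx
  have dn := diff_inv_norm x hx
  have dV : DifferentiableAt ℝ S.V x := (contDiff_V S).differentiable (by simp) x
  have h : ∀ j B, pdr j B (GV S c j B) x = c * (pdr j B (pdr j B S.V) x * ‖x‖⁻¹
      - 2 * ‖x‖⁻¹ ^ 3 * (x (j, B) * pdr j B S.V x) - S.V x * ‖x‖⁻¹ ^ 3
      + 3 * S.V x * ‖x‖⁻¹ ^ 5 * (x (j, B)) ^ 2) := by
    intro j B
    have dp : DifferentiableAt ℝ (pdr j B S.V) x :=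
      (contDiff_pdr (contDiff_V S) j B).differentiable (by simp) x
    have dc := diff_coord (j, B) x
    have e : GV S c j B = fun y => c * (pdr j B S.V y * ‖y‖⁻¹ -
        (S.V y * y (j, B)) * ((‖y‖⁻¹ * ‖y‖⁻¹) * ‖y‖⁻¹)) := by
      ext y
      rw [GV]
      ring
    have q1 : DifferentiableAt ℝ (fun y => pdr j B S.V y * ‖y‖⁻¹) x := dp.mul dn
    have q2 : DifferentiableAt ℝ (fun y => S.V y * y (j, B)) x := dV.mul dc
    have q3 : DifferentiableAt ℝ (fun y : X3 => ‖y‖⁻¹ * ‖y‖⁻¹) x := dn.mul dn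
    have q4 : DifferentiableAt ℝ (fun y : X3 => (‖y‖⁻¹ * ‖y‖⁻¹) * ‖y‖⁻¹) x := q3.mul dn
    have q5 : DifferentiableAt ℝ (fun y => (S.V y * y (j, B)) * ((‖y‖⁻¹ * ‖y‖⁻¹) * ‖y‖⁻¹)) x :=
      q2.mul q4
    have q6 : DifferentiableAt ℝ (fun y => pdr j B S.V y * ‖y‖⁻¹ -
        (S.V y * y (j, B)) * ((‖y‖⁻¹ * ‖y‖⁻¹) * ‖y‖⁻¹)) x := q1.sub q5
    rw [e, pdr_const_mul _ _ _ q6, pdr_sub _ _ q1 q5, pdr_mul _ _ dp dn, pdr_mul _ _ q2 q4,
      pdr_mul _ _ dV dc, pdr_mul _ _ q3 dn, pdr_mul _ _ dn dn, pdr_inv_norm _ _ _ hx, pdr_coord]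
    simp only [and_self, if_true]
    ring
  simp only [h, ← Finset.mul_sum, Finset.sum_add_distrib, Finset.sum_sub_distrib,
    ← Finset.sum_mul, laplacian_V, sum_x_pdr_V, Finset.sum_const, Finset.card_univ,
    Fintype.card_fin, nsmul_eq_mul]
  have a1 : ∑ j : Fin 9, ∑ B : Fin 3, x (j, B) ^ 2 = ‖x‖ ^ 2 := by rw [← e1_eq]; rfl
  rw [a1, e1_eq]
  push_cast
  field_simp
  ring

lemma sum_GV_sq (S : Setup F) (c : ℝ) (x : X3) (hx : x ≠ 0) :
    ∑ j, ∑ B, GV S c j B x ^ 2 ≤ c ^ 2 * (2 * S.κ ^ 2 * S.V x) := by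
  have hn : 0 < ‖x‖ := norm_pos_iff.mpr hx
  have h : ∀ j B, GV S c j B x ^ 2 = c ^ 2 * (‖x‖⁻¹ ^ 2 * pdr j B S.V x ^ 2
      - 2 * S.V x * ‖x‖⁻¹ ^ 4 * (x (j, B) * pdr j B S.V x)
      + S.V x ^ 2 * ‖x‖⁻¹ ^ 6 * (x (j, B)) ^ 2) := by
    intro j B
    rw [GV]
    ring
  simp only [h, ← Finset.mul_sum, Finset.sum_add_distrib, Finset.sum_sub_distrib, sum_x_pdr_V]
  have a1 : ∑ j : Fin 9, ∑ B : Fin 3, x (j, B) ^ 2 = ‖x‖ ^ 2 := by rw [← e1_eq]; rfl
  rw [a1]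
  refine mul_le_mul_of_nonneg_left ?_ (sq_nonneg c)
  have g := grad_V_sq_le S x
  have e : ‖x‖⁻¹ ^ 2 * ∑ j, ∑ B, pdr j B S.V x ^ 2 - 2 * S.V x * ‖x‖⁻¹ ^ 4 * (4 * S.V x)
      + S.V x ^ 2 * ‖x‖⁻¹ ^ 6 * ‖x‖ ^ 2 =
      ‖x‖⁻¹ ^ 4 * (‖x‖ ^ 2 * ∑ j, ∑ B, pdr j B S.V x ^ 2 - 7 * S.V x ^ 2) := by
    field_simp
    ring
  rw [e]
  calc ‖x‖⁻¹ ^ 4 * (‖x‖ ^ 2 * ∑ j, ∑ B, pdr j B S.V x ^ 2 - 7 * S.V x ^ 2) ≤
      ‖x‖⁻¹ ^ 4 * (2 * S.κ ^ 2 * ‖x‖ ^ 4 * S.V x) :=
        mul_le_mul_of_nonneg_left (by linarith) (by positivity)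
    _ = 2 * S.κ ^ 2 * S.V x := by field_simp

omit [InnerProductSpace ℂ F] in
lemma eventually_zero {u : X3 → F} {r : ℝ} (hr : 0 < r) (hsupp : ∀ x, ‖x‖ < r → u x = 0) :
    ∀ᶠ x in 𝓝 (0 : X3), u x = 0 := by
  filter_upwards [Metric.ball_mem_nhds (0 : X3) hr] with x hx
  exact hsupp x (by simpa using hx)

lemma integrable_sing {h : X3 → ℝ} (hh : ∀ x, x ≠ 0 → ContinuousAt h x) {u : X3 → F}
    (hu : Setup.Tst u) {r : ℝ} (hr : 0 < r) (hsupp : ∀ x, ‖x‖ < r → u x = 0) :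
    Integrable (fun x => h x * ‖u x‖ ^ 2) := by
  have hc : Continuous (fun x => h x * ‖u x‖ ^ 2) := by
    rw [continuous_iff_continuousAt]
    intro x
    by_cases hx : x = 0
    · subst hx
      have : (fun x => h x * ‖u x‖ ^ 2) =ᶠ[𝓝 (0 : X3)] fun _ => 0 := by
        filter_upwards [eventually_zero hr hsupp] with y hy
        simp [hy]
      exact continuousAt_const.congr this.symm
    · exact (hh x hx).mul ((hu.1.continuous.norm.pow 2).continuousAt)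
  refine hc.integrable_of_hasCompactSupport (hu.2.mono ?_)
  intro x hx
  simp only [Function.mem_support] at hx ⊢
  intro h0
  exact hx (by simp [h0])

lemma contDiffAt_GV (S : Setup F) (c : ℝ) (j : Fin 9) (B : Fin 3) (x : X3) (hx : x ≠ 0) :
    ContDiffAt ℝ ∞ (GV S c j B) x := by
  unfold GV
  have h1 := (contDiff_pdr (contDiff_V S) j B).contDiffAt (x := x)
  have h2 := contDiffAt_inv_norm x hx
  have h3 := (contDiff_V S).contDiffAt (x := x)
  have h4 := (Setup.contDiff_coord (j, B)).contDiffAt (x := x)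
  exact contDiffAt_const.mul ((h1.mul h2).sub ((h3.mul h4).mul (h2.pow 3)))

theorem square_lower_bound (S : Setup F) (u : X3 → F)
    (hu : Setup.Tst u) (r : ℝ) (hr : 0 < r) (hsupp : ∀ x, ‖x‖ < r → u x = 0)
    (ε : ℝ) (_h0 : 0 ≤ ε) (_h1 : ε ≤ 1) :
    ∫ x, ((1 - ε) * (8 * S.κ * ‖x‖ - 16 / S.κ * S.V x / ‖x‖ ^ 3) +
        (2 * ε - ε ^ 2) * S.V x) * ‖u x‖ ^ 2 ≤
      (1 / 2) * (∑ i, ∑ A, ∫ x, ‖pd i A u x‖ ^ 2) + (∫ x, S.V x * ‖u x‖ ^ 2) := by
  set c : ℝ := (1 - ε) / S.κ with hc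
  have hκ := S.κ_pos
  -- the auxiliary functions
  have hn2 : ContDiff ℝ ∞ (fun x => ‖u x‖ ^ 2) := hu.1.norm_sq ℂ
  have hd2 : ∀ j B x, fderiv ℝ (fun x => ‖u x‖ ^ 2) x (EuclideanSpace.single (j, B) (1 : ℝ)) =
      2 * (inner ℂ (u x) (pd j B u x)).re := by
    intro j B x
    have e : (fun x => ‖u x‖ ^ 2) = fun x => (inner ℂ (u x) (u x)).re := by
      ext y; rw [re_inner_self]
    have hi : DifferentiableAt ℝ (fun x => inner ℂ (u x) (u x)) x :=
      (hu.diff x).inner ℂ (hu.diff x)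
    have h := (Complex.reCLM.hasFDerivAt (x := inner ℂ (u x) (u x))).comp x hi.hasFDerivAt
    have h' : fderiv ℝ (fun x => (inner ℂ (u x) (u x)).re) x = _ := h.fderiv
    rw [e, h']
    simp only [ContinuousLinearMap.comp_apply, Complex.reCLM_apply]
    rw [fderiv_inner_apply ℂ (hu.diff x) (hu.diff x), Complex.add_re]
    have hs : (inner ℂ (fderiv ℝ u x (EuclideanSpace.single (j, B) (1 : ℝ))) (u x)).re =
        (inner ℂ (u x) (fderiv ℝ u x (EuclideanSpace.single (j, B) (1 : ℝ)))).re := by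
      rw [← inner_conj_symm, Complex.conj_re]
    rw [hs, pd]
    ring
  let w : Fin 9 → Fin 3 → X3 → ℝ := fun j B x => GV S c j B x * ‖u x‖ ^ 2
  have hw : ∀ j B, ContDiff ℝ 1 (w j B) := by
    intro j B
    rw [contDiff_iff_contDiffAt]
    intro x
    by_cases hx : x = 0
    · subst hx
      have : (w j B) =ᶠ[𝓝 (0 : X3)] fun _ => 0 := by
        filter_upwards [eventually_zero hr hsupp] with y hy
        simp [w, hy]
      exact contDiffAt_const.congr_of_eventuallyEq this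
    · exact ((contDiffAt_GV S c j B x hx).mul hn2.contDiffAt).of_le (by simp)
  have hwc : ∀ j B, HasCompactSupport (w j B) := by
    intro j B
    refine hu.2.mono ?_
    intro x hx
    simp only [Function.mem_support] at hx ⊢
    intro h0
    exact hx (by simp [w, h0])
  have hwd : ∀ j B x, fderiv ℝ (w j B) x (EuclideanSpace.single (j, B) (1 : ℝ)) =
      pdr j B (GV S c j B) x * ‖u x‖ ^ 2 +
        GV S c j B x * (2 * (inner ℂ (u x) (pd j B u x)).re) := by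
    intro j B x
    by_cases hx : x = 0
    · subst hx
      have h0 : (w j B) =ᶠ[𝓝 (0 : X3)] fun _ => 0 := by
        filter_upwards [eventually_zero hr hsupp] with y hy
        simp [w, hy]
      have hu0 : u 0 = 0 := hsupp 0 (by simpa using hr)
      rw [h0.fderiv_eq]
      simp [hu0]
    · have dG : DifferentiableAt ℝ (GV S c j B) x :=
        (contDiffAt_GV S c j B x hx).differentiableAt (by simp)
      have dn : DifferentiableAt ℝ (fun x => ‖u x‖ ^ 2) x := hn2.differentiable (by simp) x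
      have e := fderiv_fun_mul dG dn
      have : w j B = fun y => GV S c j B y * (‖u y‖ ^ 2) := rfl
      rw [this, e]
      simp only [_root_.add_apply, _root_.smul_apply, smul_eq_mul, hd2]
      rw [pdr]
      ring
  -- pointwise inequality
  have hpt : ∀ x, (2 * (((1 - ε) * (8 * S.κ * ‖x‖ - 16 / S.κ * S.V x / ‖x‖ ^ 3) +
        (2 * ε - ε ^ 2) * S.V x) * ‖u x‖ ^ 2)) ≤
      (∑ j, ∑ B, ‖pd j B u x‖ ^ 2) + 2 * (S.V x * ‖u x‖ ^ 2) +
        ∑ j, ∑ B, fderiv ℝ (w j B) x (EuclideanSpace.single (j, B) (1 : ℝ)) := by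
    intro x
    by_cases hx : x = 0
    · subst hx
      have hu0 : u 0 = 0 := hsupp 0 (by simpa using hr)
      simp only [hwd, hu0]
      simp only [norm_zero, inner_zero_left, Complex.zero_re]
      norm_num
      positivity
    · have hsq : ∀ j B, 0 ≤ ‖pd j B u x‖ ^ 2 + GV S c j B x * (2 * (inner ℂ (u x) (pd j B u x)).re)
          + GV S c j B x ^ 2 * ‖u x‖ ^ 2 := by
        intro j B
        have h := sq_nonneg ‖pd j B u x + ((GV S c j B x : ℝ) : ℂ) • u x‖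
        rw [@norm_add_sq ℂ, norm_smul, inner_smul_right] at h
        have hre : RCLike.re (((GV S c j B x : ℝ) : ℂ) * inner ℂ (pd j B u x) (u x)) =
            GV S c j B x * (inner ℂ (u x) (pd j B u x)).re := by
          have hs2 : (inner ℂ (pd j B u x) (u x)).re = (inner ℂ (u x) (pd j B u x)).re := by
            rw [← inner_conj_symm, Complex.conj_re]
          rw [← hs2]
          simp
        rw [hre, Complex.norm_real, mul_pow, Real.norm_eq_abs, sq_abs] at h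
        linarith
      have hsum := Finset.sum_nonneg (s := Finset.univ) fun j _ =>
        Finset.sum_nonneg (s := Finset.univ) fun B _ => hsq j B
      simp only [Finset.sum_add_distrib, ← Finset.sum_mul] at hsum
      simp only [hwd, Finset.sum_add_distrib, ← Finset.sum_mul]
      rw [div_GV S c x hx]
      have hG := sum_GV_sq S c x hx
      have hG' := mul_le_mul_of_nonneg_right hG (sq_nonneg ‖u x‖)
      have hn : 0 < ‖x‖ := norm_pos_iff.mpr hx
      have id1 : 2 * (((1 - ε) * (8 * S.κ * ‖x‖ - 16 / S.κ * S.V x / ‖x‖ ^ 3) +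
        (2 * ε - ε ^ 2) * S.V x) * ‖u x‖ ^ 2) =
          c * (16 * S.κ ^ 2 * ‖x‖ - 32 * S.V x * ‖x‖⁻¹ ^ 3) * ‖u x‖ ^ 2 +
          2 * (S.V x * ‖u x‖ ^ 2) - c ^ 2 * (2 * S.κ ^ 2 * S.V x) * ‖u x‖ ^ 2 := by
        rw [hc]
        field_simp
        ring
      rw [id1]
      linarith
  -- integrate
  have iw : ∀ j B, Integrable (fun x => fderiv ℝ (w j B) x
      (EuclideanSpace.single (j, B) (1 : ℝ))) := by
    intro j B
    exact (((hw j B).continuous_fderiv (by simp)).clm_apply continuous_const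
      ).integrable_of_hasCompactSupport ((hwc j B).fderiv_apply (𝕜 := ℝ) _)
  have ip : ∀ j B, Integrable (fun x => ‖pd j B u x‖ ^ 2) := fun j B => (hu.pd j B).norm_sq_int
  have iV : Integrable (fun x => 2 * (S.V x * ‖u x‖ ^ 2)) :=
    (hu.mul_norm_sq_int (contDiff_V S).continuous).const_mul 2
  have iL : Integrable (fun x => ((1 - ε) * (8 * S.κ * ‖x‖ - 16 / S.κ * S.V x / ‖x‖ ^ 3) +
        (2 * ε - ε ^ 2) * S.V x) * ‖u x‖ ^ 2) := by
    refine integrable_sing ?_ hu hr hsupp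
    intro x hx
    have hV := (contDiff_V S).continuous.continuousAt (x := x)
    have hn := continuous_norm.continuousAt (x := x)
    have hne : ‖x‖ ^ 3 ≠ 0 := pow_ne_zero 3 (norm_ne_zero_iff.mpr hx)
    exact (continuousAt_const.mul ((continuousAt_const.mul hn).sub
      ((continuousAt_const.mul hV).div (hn.pow 3) hne))).add (continuousAt_const.mul hV)
  have i1 : Integrable (fun x => ∑ j, ∑ B, ‖pd j B u x‖ ^ 2) :=
    integrable_finsetSum _ fun j _ => integrable_finsetSum _ fun B _ => ip j B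
  have i3 : Integrable (fun x => ∑ j, ∑ B, fderiv ℝ (w j B) x
      (EuclideanSpace.single (j, B) (1 : ℝ))) :=
    integrable_finsetSum _ fun j _ => integrable_finsetSum _ fun B _ => iw j B
  have i12 : Integrable (fun x => (∑ j, ∑ B, ‖pd j B u x‖ ^ 2) + 2 * (S.V x * ‖u x‖ ^ 2)) :=
    i1.add iV
  have hint := integral_mono (iL.const_mul 2) (i12.add i3) hpt
  have e1' : ∫ x, ((∑ j, ∑ B, ‖pd j B u x‖ ^ 2) + 2 * (S.V x * ‖u x‖ ^ 2)) +
      ∑ j, ∑ B, fderiv ℝ (w j B) x (EuclideanSpace.single (j, B) (1 : ℝ)) =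
      (∑ i, ∑ A, ∫ x, ‖pd i A u x‖ ^ 2) + 2 * (∫ x, S.V x * ‖u x‖ ^ 2) := by
    rw [integral_add i12 i3, integral_add i1 iV, integral_const_mul]
    rw [integral_finsetSum _ fun j _ => integrable_finsetSum _ fun B _ => ip j B,
      integral_finsetSum _ fun j _ => integrable_finsetSum _ fun B _ => iw j B]
    have z1 : ∑ j, ∫ x, ∑ B, fderiv ℝ (w j B) x (EuclideanSpace.single (j, B) (1 : ℝ)) = 0 := by
      refine Finset.sum_eq_zero fun j _ => ?_
      rw [integral_finsetSum _ fun B _ => iw j B]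
      refine Finset.sum_eq_zero fun B _ => ?_
      exact integral_fderiv_eq_zero _ (hw j B) (hwc j B) _
    rw [z1, add_zero]
    congr 1
    refine Finset.sum_congr rfl fun j _ => ?_
    rw [integral_finsetSum _ fun B _ => ip j B]
  have hint2 : 2 * ∫ x, ((1 - ε) * (8 * S.κ * ‖x‖ - 16 / S.κ * S.V x / ‖x‖ ^ 3) +
        (2 * ε - ε ^ 2) * S.V x) * ‖u x‖ ^ 2 ≤
      (∑ i, ∑ A, ∫ x, ‖pd i A u x‖ ^ 2) + 2 * (∫ x, S.V x * ‖u x‖ ^ 2) := by
    rw [← e1', ← integral_const_mul]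
    exact hint
  linarith

end Vale.Agent.P353
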