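import Vale.Agent.P353.JTerm

open MeasureTheory Filter Topology
open scoped ContDiff

namespace Vale.Agent.P353

variable {F : Type*} [NormedAddCommGroup F] [InnerProductSpace ℂ F]

namespace Setup

variable (S : Setup F)

lemma B_symm (β : Fin 16) (x : X3) (v w : F) : inner ℂ (S.B β x v) w = inner ℂ v (S.B β x w) := by
  simp only [B, _root_.sum_apply, _root_.smul_apply, sum_inner, inner_sum, inner_smul_left,
    inner_smul_right, Complex.conj_ofReal, S.vec_symm _ (S.g_im _)]

/-- radial coefficient of the gradient -/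
noncomputable def dg (g : ℝ → ℝ) (x : X3) : ℝ := 2 * deriv g (‖x‖ ^ 2)

lemma continuous_dg {g : ℝ → ℝ} (hg : ContDiff ℝ ∞ g) : Continuous (dg g) :=
  continuous_const.mul ((hg.continuous_deriv (by simp)).comp (continuous_norm.pow 2))

lemma hcs_dg {g : ℝ → ℝ} (hgc : HasCompactSupport g) : HasCompactSupport (dg g) := by
  have h1 : HasCompactSupport (fun t => 2 * deriv g t) := by
    have := hgc.deriv
    exact this.mul_left
  have h2 := hcs_rad (f := fun t => 2 * deriv g t) h1
  have h3 : dg g = fun x : X3 => (fun t => 2 * deriv g t) (‖x‖ ^ 2) := by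
    funext x
    rfl
  rw [h3]
  exact h2

theorem ident_u {u : X3 → F} (hu : Tst u) (hG : ∀ C x, S.G C u x = 0) {g : ℝ → ℝ}
    (hg : ContDiff ℝ ∞ g) :
    (∫ x, inner ℂ (u x) ((((rad g x : ℝ) : ℂ) • S.O1) (u x)))
    - (∫ x, inner ℂ (u x) ((((dg g x : ℝ) : ℂ) • Bd S x) (u x)))
    - ∑ β, (∫ x, inner ℂ (S.Q β u x) ((((rad g x : ℝ) : ℂ) • S.Mult β x) (u x)))
    + ∑ β, (∫ x, inner ℂ (u x) ((((rad g x : ℝ) : ℂ) • S.Xop β x) (S.Q β u x)))
    - (70 / 81) * ∑ k, ∑ l, (∫ x, inner ℂ (S.Skl k l (u x))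
        (((rad g x : ℝ) : ℂ) • S.J k l u x)) = 0 := by
  have hgu : Tst (fun y => ((rad g y : ℝ) : ℂ) • u y) := Tst.rsmul (contDiff_rad hg) hu
  have hMu : ∀ β, Tst (fun y => S.Mult β y (u y)) := fun β => Tst.clm (S.contDiff_Mult β) hu
  have c1 : Continuous (rad g) := continuous_rad hg.continuous
  have c2 : Continuous (dg g) := continuous_dg hg
  -- integrability of the pieces
  have opc : ∀ {A : X3 → F →L[ℂ] F} (_ : Continuous A) {w : X3 → F} (_ : Continuous w),
      Continuous (fun x => A x (w x)) := by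
    intro A hA w hw
    have hc : Continuous (fun p : (F →L[ℂ] F) × F => p.1 p.2) :=
      (isBoundedBilinearMap_apply (𝕜 := ℂ) (E := F) (F := F)).continuous
    exact hc.comp (hA.prodMk hw)
  have i1 : Integrable (fun x => inner ℂ (u x) ((((rad g x : ℝ) : ℂ) • S.O1) (u x))) :=
    hu.inner_int (opc (continuous_rsmul_op c1 continuous_const) hu.1.continuous)
  have i2 : Integrable (fun x => inner ℂ (u x) ((((dg g x : ℝ) : ℂ) • Bd S x) (u x))) :=
    hu.inner_int (opc (continuous_rsmul_op c2 S.continuous_Bd) hu.1.continuous)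
  have i3 : ∀ β, Integrable (fun x => inner ℂ (S.Q β u x)
      ((((rad g x : ℝ) : ℂ) • S.Mult β x) (u x))) := fun β =>
    (hu.Q S β).inner_int (opc (continuous_rsmul_op c1 (S.contDiff_Mult β).continuous)
      hu.1.continuous)
  have i4 : ∀ β, Integrable (fun x => inner ℂ (u x)
      ((((rad g x : ℝ) : ℂ) • S.Xop β x) (S.Q β u x))) := fun β =>
    hu.inner_int (opc (continuous_rsmul_op c1 (S.continuous_Xop β)) (hu.Q S β).1.continuous)
  have i5 : ∀ k l, Integrable (fun x => inner ℂ (S.Skl k l (u x))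
      (((rad g x : ℝ) : ℂ) • S.J k l u x)) := fun k l =>
    (Tst.clm (T := fun _ => S.Skl k l) contDiff_const hu).inner_int
      (Tst.rsmul (contDiff_rad hg) (hu.J S k l)).1.continuous
  -- symmetry of `Q`
  have hsym : ∑ β, (∫ x, inner ℂ (((rad g x : ℝ) : ℂ) • u x)
      (S.Q β (fun y => S.Mult β y (u y)) x)) =
      ∑ β, (∫ x, inner ℂ (S.Q β (fun y => ((rad g y : ℝ) : ℂ) • u y) x)
        (S.Mult β x (u x))) := by
    refine Finset.sum_congr rfl fun β _ => ?_
    rw [Q_symm S β _ _ hgu (hMu β).1]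
  -- right side
  have hR : ∑ β, (∫ x, inner ℂ (S.Q β (fun y => ((rad g y : ℝ) : ℂ) • u y) x)
        (S.Mult β x (u x))) =
      ∑ β, (∫ x, inner ℂ (S.Q β u x) ((((rad g x : ℝ) : ℂ) • S.Mult β x) (u x))) +
      ∫ x, inner ℂ (u x) ((((dg g x : ℝ) : ℂ) • Bd S x) (u x)) := by
    have e1 : ∀ β, (∫ x, inner ℂ (S.Q β (fun y => ((rad g y : ℝ) : ℂ) • u y) x)
        (S.Mult β x (u x))) =
        (∫ x, inner ℂ (S.Q β u x) ((((rad g x : ℝ) : ℂ) • S.Mult β x) (u x))) +
        ∫ x, ((dg g x : ℝ) : ℂ) * (Complex.I * inner ℂ (u x) (S.B β x (S.Mult β x (u x)))) := by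
      intro β
      have i6 : Integrable (fun x => ((dg g x : ℝ) : ℂ) *
          (Complex.I * inner ℂ (u x) (S.B β x (S.Mult β x (u x))))) := by
        have h1 : Integrable (fun x => inner ℂ (u x) ((((dg g x : ℝ) : ℂ) •
            (Complex.I • (S.B β x * S.Mult β x))) (u x))) := by
          refine hu.inner_int (opc (continuous_rsmul_op c2 ?_) hu.1.continuous)
          have : Continuous (fun x => S.B β x * S.Mult β x) :=
            (S.contDiff_B β).continuous.mul (S.contDiff_Mult β).continuous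
          exact this.const_smul Complex.I
        refine h1.congr (Filter.Eventually.of_forall fun x => ?_)
        simp only [_root_.smul_apply, inner_smul_right, mul_apply_eq_comp]
      rw [← integral_add (i3 β) i6]
      refine integral_congr_ae (Filter.Eventually.of_forall fun x => ?_)
      simp only
      rw [S.Q_rad hg β u x (hu.diff x), inner_add_left, inner_smul_left, inner_smul_left,
        S.B_symm, Complex.conj_ofReal, _root_.smul_apply, inner_smul_right]
      simp only [map_mul, map_neg, Complex.conj_I, neg_neg, Complex.conj_ofReal, dg]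
      ring
    rw [Finset.sum_congr rfl fun β _ => e1 β, Finset.sum_add_distrib]
    congr 1
    have i6 : ∀ β, Integrable (fun x => ((dg g x : ℝ) : ℂ) *
        (Complex.I * inner ℂ (u x) (S.B β x (S.Mult β x (u x))))) := by
      intro β
      have h1 : Integrable (fun x => inner ℂ (u x) ((((dg g x : ℝ) : ℂ) •
          (Complex.I • (S.B β x * S.Mult β x))) (u x))) := by
        refine hu.inner_int (opc (continuous_rsmul_op c2 ?_) hu.1.continuous)
        have : Continuous (fun x => S.B β x * S.Mult β x) :=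
          (S.contDiff_B β).continuous.mul (S.contDiff_Mult β).continuous
        exact this.const_smul Complex.I
      refine h1.congr (Filter.Eventually.of_forall fun x => ?_)
      simp only [_root_.smul_apply, inner_smul_right, mul_apply_eq_comp]
    rw [← integral_finsetSum _ fun β _ => i6 β]
    refine integral_congr_ae (Filter.Eventually.of_forall fun x => ?_)
    simp only [Bd, _root_.smul_apply, inner_smul_right, _root_.sum_apply, inner_sum,
      mul_apply_eq_comp, Finset.mul_sum]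
  -- left side
  have hL : ∑ β, (∫ x, inner ℂ (((rad g x : ℝ) : ℂ) • u x)
      (S.Q β (fun y => S.Mult β y (u y)) x)) =
      (∫ x, inner ℂ (u x) ((((rad g x : ℝ) : ℂ) • S.O1) (u x)))
      + ∑ β, (∫ x, inner ℂ (u x) ((((rad g x : ℝ) : ℂ) • S.Xop β x) (S.Q β u x)))
      - (70 / 81) * ∑ k, ∑ l, (∫ x, inner ℂ (S.Skl k l (u x))
        (((rad g x : ℝ) : ℂ) • S.J k l u x)) := by
    have i7 : ∀ β, Integrable (fun x => inner ℂ (((rad g x : ℝ) : ℂ) • u x)
        (S.Q β (fun y => S.Mult β y (u y)) x)) := fun β =>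
      hgu.inner_int ((hMu β).Q S β).1.continuous
    rw [← integral_finsetSum _ fun β _ => i7 β, ← integral_finsetSum _ fun β _ => i4 β]
    have e2 : ∑ k, ∑ l, (∫ x, inner ℂ (S.Skl k l (u x)) (((rad g x : ℝ) : ℂ) • S.J k l u x)) =
        ∫ x, ∑ k, ∑ l, inner ℂ (S.Skl k l (u x)) (((rad g x : ℝ) : ℂ) • S.J k l u x) := by
      rw [integral_finsetSum _ fun k _ => integrable_finsetSum _ fun l _ => i5 k l]
      refine Finset.sum_congr rfl fun k _ => ?_
      rw [integral_finsetSum _ fun l _ => i5 k l]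
    have i8 : Integrable (fun x => inner ℂ (u x) ((((rad g x : ℝ) : ℂ) • S.O1) (u x)) +
        ∑ β, inner ℂ (u x) ((((rad g x : ℝ) : ℂ) • S.Xop β x) (S.Q β u x))) :=
      i1.add (integrable_finsetSum _ fun β _ => i4 β)
    have i9 : Integrable (fun x => (70 / 81 : ℂ) * ∑ k, ∑ l,
        inner ℂ (S.Skl k l (u x)) (((rad g x : ℝ) : ℂ) • S.J k l u x)) :=
      (integrable_finsetSum _ fun k _ => integrable_finsetSum _ fun l _ => i5 k l).const_mul _
    rw [e2, ← integral_const_mul, ← integral_add i1 (integrable_finsetSum _ fun β _ => i4 β),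
      ← integral_sub i8 i9]
    refine integral_congr_ae (Filter.Eventually.of_forall fun x => ?_)
    simp only
    rw [← inner_sum, S.key_identity u x (hu.diff x)]
    simp only [hG, map_zero, Finset.sum_const_zero, smul_zero, add_zero]
    simp only [inner_add_right, inner_smul_left, inner_smul_right, inner_sum, Complex.conj_ofReal,
      _root_.smul_apply, S.Skl_symm, Finset.mul_sum]
    rw [sub_eq_add_neg, ← Finset.sum_neg_distrib]
    congr 1
    refine Finset.sum_congr rfl fun k _ => ?_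
    rw [← Finset.sum_neg_distrib]
    refine Finset.sum_congr rfl fun l _ => ?_
    rw [map_smul, inner_smul_right]
    ring
  rw [hL, hR] at hsym
  linear_combination hsym

variable {S}

lemma Apx.lim_uu {Ψ : Lp F 2 (volume : Measure X3)} {u : ℕ → X3 → F} (h : S.Apx Ψ u)
    {A : X3 → F →L[ℂ] F} (hA : Continuous A) {C : ℝ} (hC : ∀ x, ‖A x‖ ≤ C) :
    Tendsto (fun n => ∫ x, inner ℂ (u n x) (A x (u n x))) atTop
      (𝓝 (∫ x, inner ℂ (Ψ x) (A x (Ψ x)))) :=
  h.L2t.lim_inner (h.L2t.op hA hC)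

lemma Apx.lim_Qu {Ψ : Lp F 2 (volume : Measure X3)} {u : ℕ → X3 → F} (h : S.Apx Ψ u)
    (β : Fin 16) {A : X3 → F →L[ℂ] F} (hA : Continuous A) {C : ℝ} (hC : ∀ x, ‖A x‖ ≤ C) :
    Tendsto (fun n => ∫ x, inner ℂ (S.Q β (u n) x) (A x (u n x))) atTop (𝓝 0) := by
  have := (h.Q0 β).lim_inner (h.L2t.op hA hC)
  simpa only [inner_zero_left, integral_zero] using this

lemma Apx.lim_uQ {Ψ : Lp F 2 (volume : Measure X3)} {u : ℕ → X3 → F} (h : S.Apx Ψ u)
    (β : Fin 16) {A : X3 → F →L[ℂ] F} (hA : Continuous A) {C : ℝ} (hC : ∀ x, ‖A x‖ ≤ C) :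
    Tendsto (fun n => ∫ x, inner ℂ (u n x) (A x (S.Q β (u n) x))) atTop (𝓝 0) := by
  have := h.L2t.lim_inner ((h.Q0 β).op hA hC)
  simpa only [map_zero, inner_zero_right, integral_zero] using this

/-- the limit identity -/
theorem ident_lim [CompleteSpace F] {Ψ : Lp F 2 (volume : Measure X3)} (hΨ : S.IsZM Ψ) {g : ℝ → ℝ}
    (hg : ContDiff ℝ ∞ g) (hgc : HasCompactSupport g) :
    ∫ x, inner ℂ (Ψ x) ((((rad g x : ℝ) : ℂ) • S.O1) (Ψ x)) =
      ∫ x, inner ℂ (Ψ x) ((((dg g x : ℝ) : ℂ) • Bd S x) (Ψ x)) := by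
  obtain ⟨u, h⟩ := hΨ
  have c1 : Continuous (rad g) := continuous_rad hg.continuous
  have c2 : Continuous (dg g) := continuous_dg hg
  obtain ⟨C1, -, b1⟩ := bdd_rsmul_op c1 (hcs_rad' hgc) (A := fun _ => S.O1) continuous_const
  obtain ⟨C2, -, b2⟩ := bdd_rsmul_op c2 (hcs_dg hgc) S.continuous_Bd
  have l1 := h.lim_uu (A := fun x => ((rad g x : ℝ) : ℂ) • S.O1)
    (continuous_rsmul_op c1 continuous_const) b1
  have l2 := h.lim_uu (A := fun x => ((dg g x : ℝ) : ℂ) • Bd S x)
    (continuous_rsmul_op c2 S.continuous_Bd) b2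
  have l3 : ∀ β, Tendsto (fun n => ∫ x, inner ℂ (S.Q β (u n) x)
      ((((rad g x : ℝ) : ℂ) • S.Mult β x) (u n x))) atTop (𝓝 0) := by
    intro β
    obtain ⟨C3, -, b3⟩ := bdd_rsmul_op c1 (hcs_rad' hgc) (S.contDiff_Mult β).continuous
    exact h.lim_Qu β (A := fun x => ((rad g x : ℝ) : ℂ) • S.Mult β x)
      (continuous_rsmul_op c1 (S.contDiff_Mult β).continuous) b3
  have l4 : ∀ β, Tendsto (fun n => ∫ x, inner ℂ (u n x)
      ((((rad g x : ℝ) : ℂ) • S.Xop β x) (S.Q β (u n) x))) atTop (𝓝 0) := by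
    intro β
    obtain ⟨C3, -, b3⟩ := bdd_rsmul_op c1 (hcs_rad' hgc) (S.continuous_Xop β)
    exact h.lim_uQ β (A := fun x => ((rad g x : ℝ) : ℂ) • S.Xop β x)
      (continuous_rsmul_op c1 (S.continuous_Xop β)) b3
  have l5 : ∀ k l, Tendsto (fun n => ∫ x, inner ℂ (S.Skl k l (u n x))
      (((rad g x : ℝ) : ℂ) • S.J k l (u n) x)) atTop (𝓝 0) := by
    intro k l
    by_cases hkl : k = l
    · subst hkl
      have h0 : ∀ v, S.Skl k k v = 0 := by
        intro v
        rw [S.Skl_eq, S.toCS.Sk_self]; rfl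
      simp [h0]
    · exact J_term h hg hgc k l hkl
  have l3' := tendsto_finsetSum Finset.univ fun β _ => l3 β
  have l4' := tendsto_finsetSum Finset.univ fun β _ => l4 β
  have l5' := (tendsto_finsetSum Finset.univ fun k _ =>
    tendsto_finsetSum Finset.univ fun l _ => l5 k l).const_mul (70 / 81 : ℂ)
  have L := (((l1.sub l2).sub l3').add l4').sub l5'
  have hz : ∀ n, (∫ x, inner ℂ (u n x) ((((rad g x : ℝ) : ℂ) • S.O1) (u n x)))
    - (∫ x, inner ℂ (u n x) ((((dg g x : ℝ) : ℂ) • Bd S x) (u n x)))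
    - ∑ β, (∫ x, inner ℂ (S.Q β (u n) x) ((((rad g x : ℝ) : ℂ) • S.Mult β x) (u n x)))
    + ∑ β, (∫ x, inner ℂ (u n x) ((((rad g x : ℝ) : ℂ) • S.Xop β x) (S.Q β (u n) x)))
    - (70 / 81) * ∑ k, ∑ l, (∫ x, inner ℂ (S.Skl k l (u n x))
        (((rad g x : ℝ) : ℂ) • S.J k l (u n) x)) = 0 := fun n =>
    S.ident_u (h.1 n) (h.2.1 n) hg
  simp only [hz] at L
  have h2 := tendsto_nhds_unique L tendsto_const_nhds
  simp only [Finset.sum_const_zero, mul_zero, sub_zero, add_zero] at h2
  exact sub_eq_zero.mp h2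

end Setup
end Vale.Agent.P353
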