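import Vale.Agent.P353.VacSum
import Vale.Agent.P353.Rot3

open Matrix

namespace Vale.Agent.P353

variable {F : Type*} [NormedAddCommGroup F] [InnerProductSpace ℂ F]

namespace Setup

variable {S : Setup F} {E : Fin 9 → ℝ} {v : F}

/-! ### the gauge part -/

lemma bil_one_swap {A B : Fin 3} (hAB : A ≠ B) (w : F) : S.bil 1 A B w = -S.bil 1 B A w := by
  rw [S.bil_swap_app 1 A B, if_neg hAB, Matrix.transpose_one, zero_sub]

lemma cS_app (C : Fin 3) (w : F) : S.cS C w = (-Complex.I / 2) • ∑ D, ∑ E, (eps C D E : ℂ) •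
    S.bil 1 D E w := by
  simp only [cS, _root_.smul_apply, _root_.sum_apply]

lemma cS2_app (w : F) : S.cS 2 w = (-Complex.I) • S.bil 1 0 1 w := by
  have h : eps 2 0 0 = 0 ∧ eps 2 0 1 = 1 ∧ eps 2 0 2 = 0 ∧ eps 2 1 0 = -1 ∧ eps 2 1 1 = 0 ∧
      eps 2 1 2 = 0 ∧ eps 2 2 0 = 0 ∧ eps 2 2 1 = 0 ∧ eps 2 2 2 = 0 := by decide
  obtain ⟨h1, h2, h3, h4, h5, h6, h7, h8, h9⟩ := h
  rw [cS_app]
  simp only [Fin.sum_univ_three, h1, h2, h3, h4, h5, h6, h7, h8, h9]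
  rw [bil_one_swap (show (1 : Fin 3) ≠ 0 by decide)]
  push_cast
  module

lemma cS0_app (w : F) : S.cS 0 w = (-Complex.I) • S.bil 1 1 2 w := by
  have h : eps 0 0 0 = 0 ∧ eps 0 0 1 = 0 ∧ eps 0 0 2 = 0 ∧ eps 0 1 0 = 0 ∧ eps 0 1 1 = 0 ∧
      eps 0 1 2 = 1 ∧ eps 0 2 0 = 0 ∧ eps 0 2 1 = -1 ∧ eps 0 2 2 = 0 := by decide
  obtain ⟨h1, h2, h3, h4, h5, h6, h7, h8, h9⟩ := h
  rw [cS_app]
  simp only [Fin.sum_univ_three, h1, h2, h3, h4, h5, h6, h7, h8, h9]
  rw [bil_one_swap (show (2 : Fin 3) ≠ 1 by decide)]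
  push_cast
  module

lemma cS1_app (w : F) : S.cS 1 w = (-Complex.I) • S.bil 1 2 0 w := by
  have h : eps 1 0 0 = 0 ∧ eps 1 0 1 = 0 ∧ eps 1 0 2 = -1 ∧ eps 1 1 0 = 0 ∧ eps 1 1 1 = 0 ∧
      eps 1 1 2 = 0 ∧ eps 1 2 0 = 1 ∧ eps 1 2 1 = 0 ∧ eps 1 2 2 = 0 := by decide
  obtain ⟨h1, h2, h3, h4, h5, h6, h7, h8, h9⟩ := h
  rw [cS_app]
  simp only [Fin.sum_univ_three, h1, h2, h3, h4, h5, h6, h7, h8, h9]
  rw [bil_one_swap (show (0 : Fin 3) ≠ 2 by decide)]
  push_cast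
  module

lemma gE_trace : (S.gE E).trace = 0 := by
  simp only [gE, Matrix.trace_sum, Matrix.trace_smul, S.toCS.trace_g, smul_zero,
    Finset.sum_const_zero]

lemma bil_gE11 (w : F) : S.bil (S.gE E) 1 1 w = 0 := by
  have h := S.bil_swap_app (S.gE E) 1 1 w
  simp only [if_true, gE_trace, zero_smul, zero_sub, S.gE_symm] at h
  have h2 : (2 : ℂ) • S.bil (S.gE E) 1 1 w = 0 := by
    rw [two_smul]; nth_rewrite 1 [h]; simp
  simpa using h2

lemma Vac.cS2 (h : S.Vac E v) : S.cS 2 v = 0 := by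
  rw [cS2_app, bil_apply]
  have h1 : ∀ α, S.th α 0 (S.vec 1 1 α v) = Complex.I • S.th α 1 (S.vec (S.gE E) 1 α v) := by
    intro α
    have e1 := S.vec_anti_app 1 1 0 1 α α v
    simp only [show ¬((0 : Fin 3) = 1) by decide, if_false, zero_sub, ← th_eq_vec] at e1
    rw [← th_eq_vec, e1, h α, map_smul]
    module
  rw [Finset.sum_congr rfl fun α _ => h1 α, ← Finset.smul_sum, ← bil_apply, bil_gE11]
  simp

lemma Vac.norm21 (h : S.Vac E v) (hE : ∑ i, E i ^ 2 = 1) (N : Matrix (Fin 16) (Fin 16) ℂ)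
    (hN : ∀ α β, (N α β).im = 0) (hNN : N * Nᵀ = 1) :
    inner ℂ (S.bil N 2 1 v) (S.bil N 2 1 v) = 4 * inner ℂ v v := by
  have h1 : ∀ α β, inner ℂ (S.th α 2 (S.vec N 1 α v)) (S.th β 2 (S.vec N 1 β v)) =
      (1 / 2) * (N * Nᵀ) α β * inner ℂ v (S.th α 2 (S.th β 2 v)) := by
    intro α β
    rw [S.th_symm, S.vec_symm N hN]
    have e1 : ∀ w, S.vec N 1 α (S.th α 2 (S.th β 2 w)) = S.th α 2 (S.th β 2 (S.vec N 1 α w)) := by
      intro w
      simp only [th_eq_vec]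
      rw [vec2_anti 1 N 1 (by decide) β α w, map_neg, vec2_anti 1 N 1 (by decide) α α, neg_neg]
    rw [e1]
    have e2 := h.two_pt hE (comm_vec22 1 1 α β) N N hN α β
    simp only [ContinuousLinearMap.comp_apply, ← th_eq_vec] at e2
    exact e2
  have h2 : inner ℂ (S.bil N 2 1 v) (S.bil N 2 1 v) =
      ∑ α, ∑ β, inner ℂ (S.th α 2 (S.vec N 1 α v)) (S.th β 2 (S.vec N 1 β v)) := by
    rw [bil_apply, sum_inner]
    refine Finset.sum_congr rfl fun α _ => ?_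
    rw [inner_sum]
  rw [h2]
  simp only [h1, hNN, Matrix.one_apply, mul_ite, mul_one, mul_zero, ite_mul, zero_mul,
    Finset.sum_ite_eq, Finset.mem_univ, if_true]
  rw [← Finset.mul_sum, ← inner_sum]
  have h3 := S.bil_one_app 2 v
  rw [bil_apply] at h3
  simp only [← th_eq_vec] at h3
  rw [h3, inner_smul_right]; ring

lemma one_im (α β : Fin 16) : ((1 : Matrix (Fin 16) (Fin 16) ℂ) α β).im = 0 := by
  rw [Matrix.one_apply]; split_ifs <;> simp

lemma Vac.cS0_norm (h : S.Vac E v) (hE : ∑ i, E i ^ 2 = 1) :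
    inner ℂ (S.cS 0 v) (S.cS 0 v) = 4 * inner ℂ v v := by
  rw [cS0_app, bil_one_swap (show (1 : Fin 3) ≠ 2 by decide), ← h.norm21 hE 1 one_im (by simp),
    inner_smul_left, inner_smul_right, inner_neg_left, inner_neg_right]
  simp only [map_neg, Complex.conj_I, neg_neg]
  have := Complex.I_mul_I
  linear_combination (-inner ℂ (S.bil 1 2 1 v) (S.bil 1 2 1 v)) * this

lemma Vac.bil120 (h : S.Vac E v) : S.bil 1 2 0 v = (-Complex.I) • S.bil (S.gE E) 2 1 v := by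
  rw [bil_apply, bil_apply, Finset.smul_sum]
  refine Finset.sum_congr rfl fun α _ => ?_
  rw [← th_eq_vec, h α, map_smul]

lemma Vac.cS1_norm (h : S.Vac E v) (hE : ∑ i, E i ^ 2 = 1) :
    inner ℂ (S.cS 1 v) (S.cS 1 v) = 4 * inner ℂ v v := by
  rw [cS1_app, h.bil120, ← h.norm21 hE (S.gE E) (S.gE_im E) (by rw [S.gE_symm, S.gE_sq E hE]),
    inner_smul_left, inner_smul_right, inner_smul_left, inner_smul_right]
  simp only [map_neg, Complex.conj_I, neg_neg]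
  have := Complex.I_mul_I
  linear_combination ((Complex.I * Complex.I - 1) * inner ℂ (S.bil (S.gE E) 2 1 v)
    (S.bil (S.gE E) 2 1 v)) * this

/-- expectation of `O1` -/
lemma Vac.O1 (h : S.Vac E v) (hE : ∑ i, E i ^ 2 = 1) :
    inner ℂ v (S.O1 v) = 56 * inner ℂ v v := by
  have h1 : inner ℂ v (S.O1 v) = 2 * ∑ k, ∑ l, inner ℂ (S.Skl k l v) (S.Skl k l v) +
      ∑ C, inner ℂ (S.cS C v) (S.cS C v) - 88 * inner ℂ v v := by
    rw [O1_apply]
    simp only [inner_sub_right, inner_add_right, inner_smul_right, inner_sum,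
      ← Setup.Skl_eq S, ← Setup.cS_eq S, S.Skl_symm, S.cS_symm]
  rw [h1, h.sum_Skl hE, Fin.sum_univ_three, h.cS0_norm hE, h.cS1_norm hE, h.cS2, inner_zero_left]
  ring

/-! ### the boundary operator -/

/-- standard-form coordinates -/
def XE (E : Fin 9 → ℝ) : Fin 9 → Fin 3 → ℂ := fun j A => if A = 2 then (E j : ℂ) else 0

lemma XE_sum {M : Type*} [AddCommGroup M] [Module ℂ M] (j : Fin 9) (f : Fin 3 → M) :
    ∑ A, XE E j A • f A = (E j : ℂ) • f 2 := by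
  simp only [XE, ite_smul, zero_smul, Finset.sum_ite_eq', Finset.mem_univ, if_true]

lemma vec_gE_app (A : Fin 3) (β : Fin 16) (w : F) :
    S.vec (S.gE E) A β w = ∑ i, (E i : ℂ) • S.vec (S.g i) A β w := by
  simp only [gE, S.toCS.vec_sum, S.toCS.vec_smul, _root_.sum_apply, _root_.smul_apply]

lemma Bv_XE (β : Fin 16) (w : F) : S.toCS.Bv (XE E) β w = S.vec (S.gE E) 2 β w := by
  rw [vec_gE_app]
  simp only [CS.Bv, XE_sum, _root_.sum_apply, _root_.smul_apply]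

lemma MS_XE (β : Fin 16) (w : F) : S.toCS.MS (XE E) β w =
    ∑ j, ∑ l, (E j : ℂ) • S.vec (S.g l) 2 β (S.Skl j l w) := by
  simp only [CS.MS, XE_sum, _root_.sum_apply, mul_apply_eq_comp, _root_.smul_apply,
    ← Setup.Skl_eq S]

lemma MI_XE (β : Fin 16) (w : F) : S.toCS.MI (XE E) β w =
    ∑ k, ∑ l, S.vec (S.g2 k l * S.gE E) 2 β (S.Skl k l w) := by
  have h : ∀ k l y, ∑ j, (E j : ℂ) • S.vec (S.g2 k l * S.g j) 2 β y =
      S.vec (S.g2 k l * S.gE E) 2 β y := by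
    intro k l y
    simp only [gE, Finset.mul_sum, mul_smul_comm, S.toCS.vec_sum, S.toCS.vec_smul,
      _root_.sum_apply, _root_.smul_apply]
  simp only [CS.MI, XE_sum, _root_.sum_apply, mul_apply_eq_comp, _root_.smul_apply,
    ← Setup.Skl_eq S, h]

lemma MG_XE (β : Fin 16) (w : F) : S.toCS.MG (XE E) β w =
    S.vec (S.gE E) 0 β (S.cS 1 w) - S.vec (S.gE E) 1 β (S.cS 0 w) := by
  have h0 : eps 2 0 0 = 0 ∧ eps 2 0 1 = 1 ∧ eps 2 0 2 = 0 ∧ eps 2 1 0 = -1 ∧ eps 2 1 1 = 0 ∧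
      eps 2 1 2 = 0 ∧ eps 2 2 0 = 0 ∧ eps 2 2 1 = 0 ∧ eps 2 2 2 = 0 := by decide
  obtain ⟨h1, h2, h3, h4, h5, h6, h7, h8, h9⟩ := h0
  rw [S.toCS.MG_eq]
  simp only [XE_sum, _root_.sum_apply, mul_apply_eq_comp, _root_.smul_apply,
    ← Setup.cS_eq S]
  simp only [Fin.sum_univ_three, h1, h2, h3, h4, h5, h6, h7, h8, h9]
  rw [vec_gE_app, vec_gE_app, ← Finset.sum_sub_distrib]
  refine Finset.sum_congr rfl fun j _ => ?_
  push_cast
  module

lemma sum_B_MS (w : F) : ∑ β, S.toCS.Bv (XE E) β (S.toCS.MS (XE E) β w) =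
    ∑ j, ∑ l, (E j : ℂ) • S.bil (S.gE E * S.g l) 2 2 (S.Skl j l w) := by
  simp only [Bv_XE, MS_XE, map_sum, map_smul]
  rw [Finset.sum_comm]
  refine Finset.sum_congr rfl fun j _ => ?_
  rw [Finset.sum_comm]
  refine Finset.sum_congr rfl fun l _ => ?_
  rw [← Finset.smul_sum, sum_vec_vec, S.gE_symm]

lemma sum_B_MI (w : F) : ∑ β, S.toCS.Bv (XE E) β (S.toCS.MI (XE E) β w) =
    ∑ k, ∑ l, S.bil (S.gE E * (S.g2 k l * S.gE E)) 2 2 (S.Skl k l w) := by
  simp only [Bv_XE, MI_XE, map_sum]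
  rw [Finset.sum_comm]
  refine Finset.sum_congr rfl fun j _ => ?_
  rw [Finset.sum_comm]
  refine Finset.sum_congr rfl fun l _ => ?_
  rw [sum_vec_vec, S.gE_symm]

lemma sum_B_MG (hE : ∑ i, E i ^ 2 = 1) (w : F) :
    ∑ β, S.toCS.Bv (XE E) β (S.toCS.MG (XE E) β w) =
    S.bil 1 2 0 (S.cS 1 w) - S.bil 1 2 1 (S.cS 0 w) := by
  simp only [Bv_XE, MG_XE, map_sub, Finset.sum_sub_distrib]
  rw [sum_vec_vec, sum_vec_vec, S.gE_symm, S.gE_sq E hE]

lemma sum_B_B (hE : ∑ i, E i ^ 2 = 1) (w : F) :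
    ∑ β, S.toCS.Bv (XE E) β (S.toCS.Bv (XE E) β w) = (8 : ℂ) • w := by
  simp only [Bv_XE]
  rw [sum_vec_vec, S.gE_symm, S.gE_sq E hE, bil_one_app]

/-- `w_l = ∑_k E_k a_{kl}` -/
noncomputable def wl (S : Setup F) (E : Fin 9 → ℝ) (v : F) (l : Fin 9) : F :=
  ∑ k, (E k : ℂ) • S.sp 2 k l v

lemma sp_swap (A : Fin 3) (k l : Fin 9) (w : F) : S.sp A k l w = -S.sp A l k w := by
  rw [sp, sp, S.toCS.g2_antisymm k l, bil_neg_app, smul_neg]

lemma sum_E_sp (k : Fin 9) : ∑ l, (E l : ℂ) • S.sp 2 k l v = -S.wl E v k := by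
  rw [wl, ← Finset.sum_neg_distrib]
  refine Finset.sum_congr rfl fun l _ => ?_
  rw [sp_swap, smul_neg]

lemma bil_g2_app (k l : Fin 9) (w : F) : S.bil (S.g2 k l) 2 2 w = (4 * Complex.I) • S.sp 2 k l w := by
  rw [sp, smul_smul]
  have : 4 * Complex.I * (-Complex.I / 4) = 1 := by
    have := Complex.I_mul_I
    linear_combination -this
  rw [this, one_smul]

lemma bil_gg_app (k l : Fin 9) (w : F) : S.bil (S.g k * S.g l) 2 2 w =
    (4 * Complex.I) • S.sp 2 k l w + (if k = l then (8 : ℂ) else 0) • w := by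
  have h : S.g k * S.g l = S.g2 k l + (if k = l then (1 : ℂ) else 0) • 1 := by
    rw [S.toCS.g2_eq]; abel
  rw [h, bil_add_app, bil_g2_app, bil_smul_app, bil_one_app, smul_smul]
  congr 2
  split_ifs <;> simp

lemma bil_gEg_app (l : Fin 9) (w : F) : S.bil (S.gE E * S.g l) 2 2 w =
    (4 * Complex.I) • ∑ k, (E k : ℂ) • S.sp 2 k l w + (8 * (E l : ℂ)) • w := by
  have h : S.gE E * S.g l = ∑ k, (E k : ℂ) • (S.g k * S.g l) := by
    simp only [gE, Finset.sum_mul, smul_mul_assoc]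
  rw [h, S.toCS.bil_sum]
  simp only [S.toCS.bil_smul, _root_.sum_apply, _root_.smul_apply, bil_gg_app, smul_add,
    Finset.sum_add_distrib]
  congr 1
  · rw [Finset.smul_sum]
    refine Finset.sum_congr rfl fun k _ => ?_
    rw [smul_comm]
  · simp only [ite_smul, zero_smul, smul_ite, smul_zero, Finset.sum_ite_eq', Finset.mem_univ,
      if_true, smul_smul]
    congr 1; ring

lemma gE_g2_gE (hE : ∑ i, E i ^ 2 = 1) (p q : Fin 9) : S.gE E * (S.g2 p q * S.gE E) =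
    S.g2 p q + (2 * (E q : ℂ)) • (S.gE E * S.g p) - (2 * (E p : ℂ)) • (S.gE E * S.g q) := by
  have h1 : S.g2 p q * S.gE E = S.gE E * S.g2 p q +
      (2 : ℂ) • ((E q : ℂ) • S.g p - (E p : ℂ) • S.g q) := by
    have : ∀ j, S.g2 p q * ((E j : ℂ) • S.g j) = (E j : ℂ) • (S.g j * S.g2 p q) +
        (2 : ℂ) • ((if q = j then (E j : ℂ) • S.g p else 0) -
          (if p = j then (E j : ℂ) • S.g q else 0)) := by
      intro j
      rw [mul_smul_comm, S.toCS.g2_mul_g, smul_add]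
      congr 1
      by_cases h1 : q = j <;> by_cases h2 : p = j <;> simp [h1, h2] <;> module
    rw [gE, Finset.mul_sum, Finset.sum_mul]
    simp only [this, Finset.sum_add_distrib, ← Finset.smul_sum, Finset.sum_sub_distrib,
      Finset.sum_ite_eq, Finset.mem_univ, if_true, smul_mul_assoc]
  rw [h1, mul_add, ← mul_assoc, S.gE_sq E hE, one_mul, mul_smul_comm, mul_sub, mul_smul_comm,
    mul_smul_comm]
  module

lemma bil_EgE_app (hE : ∑ i, E i ^ 2 = 1) (k l : Fin 9) (w : F) :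
    S.bil (S.gE E * (S.g2 k l * S.gE E)) 2 2 w =
    (4 * Complex.I) • (S.sp 2 k l w + (2 * (E l : ℂ)) • ∑ j, (E j : ℂ) • S.sp 2 j k w -
      (2 * (E k : ℂ)) • ∑ j, (E j : ℂ) • S.sp 2 j l w) := by
  rw [gE_g2_gE hE, bil_sub_app, bil_add_app, bil_smul_app, bil_smul_app, bil_gEg_app, bil_gEg_app,
    bil_g2_app]
  module

/-! ### expectations -/

lemma inner_v_spsp (i j k l : Fin 9) : inner ℂ v (S.sp 2 i j (S.sp 2 k l v)) =
    inner ℂ (S.sp 2 i j v) (S.sp 2 k l v) := (sp_adj 2 i j v _).symm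

lemma Vac.E_sp_b (h : S.Vac E v) (hE : ∑ i, E i ^ 2 = 1) (i j k l : Fin 9) :
    inner ℂ v (S.sp 2 i j (S.bb' E v k l)) = 0 := by
  rw [← sp_adj, h.cross' hE]

lemma sp_add (A : Fin 3) (k l : Fin 9) (x y : F) : S.sp A k l (x + y) = S.sp A k l x + S.sp A k l y := by
  rw [sp, map_add, smul_add]; rfl

/-- `∑ ‖w_l‖²` -/
noncomputable def WW (S : Setup F) (E : Fin 9 → ℝ) (v : F) : ℂ :=
  ∑ l, inner ℂ (S.wl E v l) (S.wl E v l)

lemma Vac.E1 (h : S.Vac E v) (hE : ∑ i, E i ^ 2 = 1) :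
    inner ℂ v (∑ β, S.toCS.Bv (XE E) β (S.toCS.MS (XE E) β v)) = (4 * Complex.I) * WW S E v := by
  rw [sum_B_MS]
  have h1 : ∀ j l, inner ℂ v ((E j : ℂ) • S.bil (S.gE E * S.g l) 2 2 (S.Skl j l v)) =
      (4 * Complex.I) * ∑ k, (E j : ℂ) * (E k : ℂ) * inner ℂ (S.sp 2 k l v) (S.sp 2 j l v) +
      8 * ((E j : ℂ) * (E l : ℂ) * inner ℂ v (S.sp 2 j l v)) := by
    intro j l
    rw [h.Skl_eq, map_add, smul_add, inner_add_right, inner_smul_right, inner_smul_right,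
      h.cross hE, mul_zero, add_zero, bil_gEg_app, inner_add_right, inner_smul_right,
      inner_smul_right, inner_sum]
    simp only [inner_smul_right, inner_v_spsp, Finset.mul_sum, mul_add]
    congr 1
    · refine Finset.sum_congr rfl fun k _ => ?_
      ring
    · ring
  simp only [inner_sum, h1, Finset.sum_add_distrib, ← Finset.mul_sum]
  have h2 : ∑ j, ∑ l, (E j : ℂ) * (E l : ℂ) * inner ℂ v (S.sp 2 j l v) = 0 := by
    have e1 : ∑ j, ∑ l, (E j : ℂ) * (E l : ℂ) * inner ℂ v (S.sp 2 j l v) =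
        -∑ j, ∑ l, (E j : ℂ) * (E l : ℂ) * inner ℂ v (S.sp 2 j l v) := by
      conv_lhs => rw [Finset.sum_comm]
      rw [← Finset.sum_neg_distrib]
      refine Finset.sum_congr rfl fun j _ => ?_
      rw [← Finset.sum_neg_distrib]
      refine Finset.sum_congr rfl fun l _ => ?_
      rw [sp_swap 2 l j, inner_neg_right]; ring
    have e2 : (2 : ℂ) * ∑ j, ∑ l, (E j : ℂ) * (E l : ℂ) * inner ℂ v (S.sp 2 j l v) = 0 := by
      linear_combination e1
    simpa using e2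
  have h3 : ∑ j, ∑ l, ∑ k, (E j : ℂ) * (E k : ℂ) * inner ℂ (S.sp 2 k l v) (S.sp 2 j l v) =
      WW S E v := by
    rw [Finset.sum_comm, WW]
    refine Finset.sum_congr rfl fun l _ => ?_
    rw [wl, sum_inner]
    simp only [inner_sum, inner_smul_left, inner_smul_right, Complex.conj_ofReal]
    rw [Finset.sum_comm]
    refine Finset.sum_congr rfl fun j _ => Finset.sum_congr rfl fun k _ => ?_
    ring
  rw [h2, h3]; ring

lemma Vac.E2 (h : S.Vac E v) (hE : ∑ i, E i ^ 2 = 1) :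
    inner ℂ v (∑ β, S.toCS.Bv (XE E) β (S.toCS.MI (XE E) β v)) =
      (4 * Complex.I) * (36 * inner ℂ v v - 4 * WW S E v) := by
  rw [sum_B_MI]
  have h1 : ∀ k l, inner ℂ v (S.bil (S.gE E * (S.g2 k l * S.gE E)) 2 2 (S.Skl k l v)) =
      (4 * Complex.I) * (inner ℂ (S.sp 2 k l v) (S.sp 2 k l v) +
        2 * inner ℂ (S.wl E v k) ((E l : ℂ) • S.sp 2 k l v) -
        2 * inner ℂ (S.wl E v l) ((E k : ℂ) • S.sp 2 k l v)) := by
    intro k l
    rw [h.Skl_eq, map_add, inner_add_right, h.cross hE, add_zero, bil_EgE_app hE,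
      inner_smul_right, inner_sub_right, inner_add_right, inner_smul_right, inner_smul_right,
      inner_sum, inner_sum, inner_smul_right, inner_smul_right, wl, wl, sum_inner, sum_inner]
    simp only [inner_smul_right, inner_smul_left, inner_v_spsp, Complex.conj_ofReal]
    ring
  simp only [inner_sum, h1, ← Finset.mul_sum, Finset.sum_add_distrib, Finset.sum_sub_distrib,
    sum_a]
  have h2 : ∑ k, ∑ l, inner ℂ (S.wl E v k) ((E l : ℂ) • S.sp 2 k l v) = -WW S E v := by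
    rw [WW, ← Finset.sum_neg_distrib]
    refine Finset.sum_congr rfl fun k _ => ?_
    rw [← inner_sum, sum_E_sp, inner_neg_right]
  have h3 : ∑ k, ∑ l, inner ℂ (S.wl E v l) ((E k : ℂ) • S.sp 2 k l v) = WW S E v := by
    rw [WW, Finset.sum_comm]
    refine Finset.sum_congr rfl fun k _ => ?_
    rw [← inner_sum, wl]
  rw [h2, h3]; ring

lemma Vac.E3 (h : S.Vac E v) (hE : ∑ i, E i ^ 2 = 1) :
    inner ℂ v (∑ β, S.toCS.Bv (XE E) β (S.toCS.MG (XE E) β v)) =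
      Complex.I * (8 * inner ℂ v v) := by
  rw [sum_B_MG hE, inner_sub_right]
  have h1 : inner ℂ v (S.bil 1 2 0 (S.cS 1 v)) = Complex.I * (4 * inner ℂ v v) := by
    have e1 := S.bil_adj 1 one_im 0 2 v (S.cS 1 v)
    rw [Matrix.transpose_one] at e1
    have e2 : S.bil 1 0 2 v = (-Complex.I) • S.cS 1 v := by
      rw [bil_one_swap (show (0 : Fin 3) ≠ 2 by decide), cS1_app, smul_smul]
      have := Complex.I_mul_I
      have h4 : -Complex.I * -Complex.I = -1 := by linear_combination this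
      rw [h4, neg_smul, one_smul]
    rw [← e1, e2, inner_smul_left, ← h.cS1_norm hE]
    simp
  have h2 : inner ℂ v (S.bil 1 2 1 (S.cS 0 v)) = -Complex.I * (4 * inner ℂ v v) := by
    have e1 := S.bil_adj 1 one_im 1 2 v (S.cS 0 v)
    rw [Matrix.transpose_one] at e1
    have e2 : S.bil 1 1 2 v = Complex.I • S.cS 0 v := by
      rw [cS0_app, smul_smul]
      have := Complex.I_mul_I
      have h4 : Complex.I * -Complex.I = 1 := by linear_combination -this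
      rw [h4, one_smul]
    rw [← e1, e2, inner_smul_left, ← h.cS0_norm hE]
    simp
  rw [h1, h2]; ring

/-- expectation of the boundary operator in the standard frame -/
lemma Vac.Bd (h : S.Vac E v) (hE : ∑ i, E i ^ 2 = 1) :
    inner ℂ v (Complex.I • ∑ β, S.toCS.Bv (XE E) β (S.toCS.Mv (XE E) β v)) =
      (1 / 27) * (-144 * inner ℂ v v + (52 / 3) * WW S E v) := by
  have h1 : ∑ β, S.toCS.Bv (XE E) β (S.toCS.Mv (XE E) β v) = (1 / 27 : ℂ) •
      (∑ β, S.toCS.Bv (XE E) β (S.toCS.MS (XE E) β v)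
      + (5 : ℂ) • ∑ β, S.toCS.Bv (XE E) β (S.toCS.MG (XE E) β v)
      + (4 / 3 : ℂ) • ∑ β, S.toCS.Bv (XE E) β (S.toCS.MI (XE E) β v)
      - (11 * Complex.I) • ∑ β, S.toCS.Bv (XE E) β (S.toCS.Bv (XE E) β v)) := by
    simp only [CS.Mv, _root_.smul_apply, _root_.add_apply, _root_.sub_apply, map_smul, map_add,
      map_sub, ← Finset.smul_sum, Finset.sum_add_distrib, Finset.sum_sub_distrib]
  rw [h1]
  simp only [inner_smul_right, inner_add_right, inner_sub_right]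
  rw [h.E1 hE, h.E2 hE, h.E3 hE, sum_B_B hE, inner_smul_right]
  have := Complex.I_mul_I
  linear_combination ((1/27) * ((4 * WW S E v) + 5 * (8 * inner ℂ v v) +
    (4/3) * 4 * (36 * inner ℂ v v - 4 * WW S E v) - 88 * inner ℂ v v)) * this

/-- `∑ ‖w_l‖² ≤ (1/2) ∑ ‖a_{kl}‖²` -/
lemma WW_le (hE : ∑ i, E i ^ 2 = 1) : (WW S E v).re ≤ 18 * ‖v‖ ^ 2 := by
  have hn : ∀ y : F, (inner ℂ y y : ℂ) = ((‖y‖ ^ 2 : ℝ) : ℂ) := by
    intro y; rw [inner_self_eq_norm_sq_to_K]; push_cast; rfl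
  -- `A'_{kl} = a_{kl} - E_k w_l + E_l w_k`
  have h0 : 0 ≤ ∑ k, ∑ l, ‖S.sp 2 k l v - (E k : ℂ) • S.wl E v l + (E l : ℂ) • S.wl E v k‖ ^ 2 :=
    Finset.sum_nonneg fun _ _ => Finset.sum_nonneg fun _ _ => by positivity
  have hWre : (WW S E v) = ((∑ l, ‖S.wl E v l‖ ^ 2 : ℝ) : ℂ) := by
    rw [WW]; push_cast
    refine Finset.sum_congr rfl fun l _ => ?_
    rw [hn]; push_cast; rfl
  have hEw : ∑ l, (E l : ℂ) • S.wl E v l = 0 := by
    have e1 : ∑ l, (E l : ℂ) • S.wl E v l = -∑ l, (E l : ℂ) • S.wl E v l := by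
      have e2 : ∑ l, (E l : ℂ) • S.wl E v l = ∑ l, ∑ k, ((E l : ℂ) * (E k : ℂ)) • S.sp 2 k l v := by
        simp only [wl, Finset.smul_sum, smul_smul]
      rw [e2]
      conv_lhs => rw [Finset.sum_comm]
      rw [← Finset.sum_neg_distrib]
      refine Finset.sum_congr rfl fun j _ => ?_
      rw [← Finset.sum_neg_distrib]
      refine Finset.sum_congr rfl fun l _ => ?_
      rw [sp_swap 2 j l, smul_neg, mul_comm]
    have e3 : (2 : ℂ) • ∑ l, (E l : ℂ) • S.wl E v l = 0 := by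
      rw [two_smul]; nth_rewrite 1 [e1]; simp
    simpa using e3
  have hE' : ∑ i, (E i : ℂ) * (E i : ℂ) = 1 := by
    have : ∑ i, (E i : ℂ) * (E i : ℂ) = ((∑ i, E i ^ 2 : ℝ) : ℂ) := by
      push_cast; refine Finset.sum_congr rfl fun i _ => by ring
    rw [this, hE]; simp
  have hsum : ((∑ k, ∑ l, ‖S.sp 2 k l v - (E k : ℂ) • S.wl E v l + (E l : ℂ) • S.wl E v k‖ ^ 2 : ℝ)
      : ℂ) = 36 * inner ℂ v v - 2 * WW S E v := by
    have e0 : ∀ k l, inner ℂ (S.sp 2 k l v - (E k : ℂ) • S.wl E v l + (E l : ℂ) • S.wl E v k)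
        (S.sp 2 k l v - (E k : ℂ) • S.wl E v l + (E l : ℂ) • S.wl E v k) =
        inner ℂ (S.sp 2 k l v) (S.sp 2 k l v)
        - inner ℂ ((E k : ℂ) • S.sp 2 k l v) (S.wl E v l)
        + inner ℂ ((E l : ℂ) • S.sp 2 k l v) (S.wl E v k)
        - inner ℂ (S.wl E v l) ((E k : ℂ) • S.sp 2 k l v)
        + inner ℂ (S.wl E v k) ((E l : ℂ) • S.sp 2 k l v)
        + (E k : ℂ) * (E k : ℂ) * inner ℂ (S.wl E v l) (S.wl E v l)
        + (E l : ℂ) * (E l : ℂ) * inner ℂ (S.wl E v k) (S.wl E v k)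
        - inner ℂ ((E l : ℂ) • S.wl E v l) ((E k : ℂ) • S.wl E v k)
        - inner ℂ ((E k : ℂ) • S.wl E v k) ((E l : ℂ) • S.wl E v l) := by
      intro k l
      simp only [inner_add_left, inner_add_right, inner_sub_left, inner_sub_right,
        inner_smul_left, inner_smul_right, Complex.conj_ofReal]
      ring
    push_cast
    have e1 : ∀ k l, ((‖S.sp 2 k l v - (E k : ℂ) • S.wl E v l + (E l : ℂ) • S.wl E v k‖ : ℝ) : ℂ) ^ 2
        = inner ℂ (S.sp 2 k l v - (E k : ℂ) • S.wl E v l + (E l : ℂ) • S.wl E v k)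
        (S.sp 2 k l v - (E k : ℂ) • S.wl E v l + (E l : ℂ) • S.wl E v k) := by
      intro k l; rw [hn]; push_cast; rfl
    simp only [e1, e0, Finset.sum_add_distrib, Finset.sum_sub_distrib, sum_a]
    have f1 : ∑ k, ∑ l, inner ℂ ((E k : ℂ) • S.sp 2 k l v) (S.wl E v l) = WW S E v := by
      rw [WW, Finset.sum_comm]
      refine Finset.sum_congr rfl fun k _ => ?_
      rw [← sum_inner, wl]
    have f2 : ∑ k, ∑ l, inner ℂ ((E l : ℂ) • S.sp 2 k l v) (S.wl E v k) = -WW S E v := by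
      rw [WW, ← Finset.sum_neg_distrib]
      refine Finset.sum_congr rfl fun k _ => ?_
      rw [← sum_inner, sum_E_sp, inner_neg_left]
    have f3 : ∑ k, ∑ l, inner ℂ (S.wl E v l) ((E k : ℂ) • S.sp 2 k l v) = WW S E v := by
      rw [WW, Finset.sum_comm]
      refine Finset.sum_congr rfl fun k _ => ?_
      rw [← inner_sum, wl]
    have f4 : ∑ k, ∑ l, inner ℂ (S.wl E v k) ((E l : ℂ) • S.sp 2 k l v) = -WW S E v := by
      rw [WW, ← Finset.sum_neg_distrib]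
      refine Finset.sum_congr rfl fun k _ => ?_
      rw [← inner_sum, sum_E_sp, inner_neg_right]
    have f5 : ∑ k, ∑ l, (E k : ℂ) * (E k : ℂ) * inner ℂ (S.wl E v l) (S.wl E v l) = WW S E v := by
      simp only [← Finset.mul_sum, ← Finset.sum_mul, hE', one_mul, WW]
    have f6 : ∑ k, ∑ l, (E l : ℂ) * (E l : ℂ) * inner ℂ (S.wl E v k) (S.wl E v k) = WW S E v := by
      simp only [← Finset.sum_mul, hE', one_mul, WW]
    have f7 : ∑ k, ∑ l, inner ℂ ((E l : ℂ) • S.wl E v l) ((E k : ℂ) • S.wl E v k) = 0 := by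
      simp only [← sum_inner, hEw, inner_zero_left, Finset.sum_const_zero]
    have f8 : ∑ k, ∑ l, inner ℂ ((E k : ℂ) • S.wl E v k) ((E l : ℂ) • S.wl E v l) = 0 := by
      simp only [← inner_sum, hEw, inner_zero_right, Finset.sum_const_zero]
    rw [f1, f2, f3, f4, f5, f6, f7, f8]
    ring
  rw [hn, hWre] at hsum
  rw [hWre, Complex.ofReal_re]
  have h3 : (∑ k, ∑ l, ‖S.sp 2 k l v - (E k : ℂ) • S.wl E v l + (E l : ℂ) • S.wl E v k‖ ^ 2 : ℝ) =
      36 * ‖v‖ ^ 2 - 2 * ∑ l, ‖S.wl E v l‖ ^ 2 := by exact_mod_cast hsum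
  linarith

end Setup
end Vale.Agent.P353
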