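import Vale.Agent.P353.Fierz
import Vale.Agent.P353.Exact

open Matrix

namespace Vale.Agent.P353

variable {F : Type*} [NormedAddCommGroup F] [InnerProductSpace ℂ F]

namespace Setup

variable (S : Setup F)

/-! ### Clifford relations applied to vectors -/

lemma vec_anti_app (N M : Matrix (Fin 16) (Fin 16) ℂ) (A B : Fin 3) (β δ : Fin 16) (w : F) :
    S.vec N A β (S.vec M B δ w) = (if A = B then ((N * Mᵀ) β δ) • w else 0)
      - S.vec M B δ (S.vec N A β w) := by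
  have h := congrArg (fun T : F →L[ℂ] F => T w) (S.toCS.vec_anti N M A B β δ)
  simp only [_root_.add_apply, mul_apply_eq_comp] at h
  rw [eq_sub_iff_add_eq, h]
  by_cases hAB : A = B
  · simp only [if_pos hAB, _root_.smul_apply, one_apply_eq_self]
  · simp only [if_neg hAB, _root_.zero_apply]

lemma th_eq_vec (A : Fin 3) (β : Fin 16) (w : F) : S.th β A w = S.vec 1 A β w := by
  rw [S.toCS.vec_one]

lemma vec_apply (N : Matrix (Fin 16) (Fin 16) ℂ) (A : Fin 3) (β : Fin 16) (w : F) :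
    S.vec N A β w = ∑ γ, N β γ • S.th γ A w := by
  simp only [CS.vec, _root_.sum_apply, _root_.smul_apply]

lemma bil_apply (N : Matrix (Fin 16) (Fin 16) ℂ) (A B : Fin 3) (w : F) :
    S.bil N A B w = ∑ α, S.th α A (S.vec N B α w) := by
  simp only [CS.bil, _root_.sum_apply, mul_apply_eq_comp]

/-- `∑_β (Nθ^A)_β (Mθ^B)_β = θ^A Nᵀ M θ^B` on vectors -/
lemma sum_vec_vec (N M : Matrix (Fin 16) (Fin 16) ℂ) (A B : Fin 3) (w : F) :
    ∑ β, S.vec N A β (S.vec M B β w) = S.bil (Nᵀ * M) A B w := by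
  have h := congrArg (fun T : F →L[ℂ] F => T w) (S.toCS.sum_vec_mul_vec N M A B)
  simp only [_root_.sum_apply, mul_apply_eq_comp] at h
  exact h

lemma bil_swap_app (N : Matrix (Fin 16) (Fin 16) ℂ) (A B : Fin 3) (w : F) :
    S.bil N A B w = (if A = B then N.trace • w else 0) - S.bil Nᵀ B A w := by
  have h := congrArg (fun T : F →L[ℂ] F => T w) (S.toCS.bil_swap N A B)
  simp only [_root_.sub_apply] at h
  rw [h]
  by_cases hAB : A = B
  · simp only [if_pos hAB, _root_.smul_apply, one_apply_eq_self]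
  · simp only [if_neg hAB, _root_.zero_apply]

lemma bil_add_app (N M : Matrix (Fin 16) (Fin 16) ℂ) (A B : Fin 3) (w : F) :
    S.bil (N + M) A B w = S.bil N A B w + S.bil M A B w := by
  rw [S.toCS.bil_add, _root_.add_apply]

lemma bil_sub_app (N M : Matrix (Fin 16) (Fin 16) ℂ) (A B : Fin 3) (w : F) :
    S.bil (N - M) A B w = S.bil N A B w - S.bil M A B w := by
  rw [S.toCS.bil_sub, _root_.sub_apply]

lemma bil_neg_app (N : Matrix (Fin 16) (Fin 16) ℂ) (A B : Fin 3) (w : F) :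
    S.bil (-N) A B w = -S.bil N A B w := by
  rw [S.toCS.bil_neg, _root_.neg_apply]

lemma bil_smul_app (c : ℂ) (N : Matrix (Fin 16) (Fin 16) ℂ) (A B : Fin 3) (w : F) :
    S.bil (c • N) A B w = c • S.bil N A B w := by
  rw [S.toCS.bil_smul, _root_.smul_apply]

lemma bil_one_app (A : Fin 3) (w : F) : S.bil 1 A A w = (8 : ℂ) • w := by
  have h := congrArg (fun T : F →L[ℂ] F => T w) (S.toCS.th_sq_sum A)
  simp only [_root_.sum_apply, mul_apply_eq_comp, _root_.smul_apply, one_apply_eq_self] at h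
  rw [bil_apply, ← h]
  refine Finset.sum_congr rfl fun α _ => ?_
  rw [th_eq_vec S A α (S.th α A w), th_eq_vec, th_eq_vec]

/-! ### the vacuum condition -/

/-- `γ^E` -/
noncomputable def gE (E : Fin 9 → ℝ) : Matrix (Fin 16) (Fin 16) ℂ := ∑ i, (E i : ℂ) • S.g i

lemma gE_symm (E : Fin 9 → ℝ) : (S.gE E)ᵀ = S.gE E := by
  simp only [gE, Matrix.transpose_sum, Matrix.transpose_smul, S.g_symm]

lemma gE_im (E : Fin 9 → ℝ) (α β : Fin 16) : (S.gE E α β).im = 0 := by
  simp only [gE, Matrix.sum_apply, Matrix.smul_apply, smul_eq_mul, Complex.im_sum]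
  refine Finset.sum_eq_zero fun i _ => ?_
  rw [Complex.mul_im, S.g_real]; simp

lemma gE_sq (E : Fin 9 → ℝ) (hE : ∑ i, E i ^ 2 = 1) : S.gE E * S.gE E = 1 := by
  have h1 : S.gE E * S.gE E = ∑ i, ∑ j, ((E i : ℂ) * (E j : ℂ)) • (S.g i * S.g j) := by
    simp only [gE, Finset.sum_mul, Finset.mul_sum, smul_mul_smul_comm]
    rw [Finset.sum_comm]
  have h2 : S.gE E * S.gE E = ∑ i, ∑ j, ((E i : ℂ) * (E j : ℂ)) • (S.g j * S.g i) := by
    rw [h1, Finset.sum_comm]
    refine Finset.sum_congr rfl fun i _ => Finset.sum_congr rfl fun j _ => ?_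
    rw [mul_comm]
  have h3 : (2 : ℂ) • (S.gE E * S.gE E) = (2 : ℂ) • 1 := by
    rw [two_smul]
    nth_rewrite 1 [h1]
    rw [h2, ← Finset.sum_add_distrib]
    simp only [← Finset.sum_add_distrib, ← smul_add, S.g_anti]
    have : ∀ i, ∑ j, ((E i : ℂ) * (E j : ℂ)) • (if i = j then (2 : Matrix (Fin 16) (Fin 16) ℂ) else 0)
        = ((E i : ℂ) ^ 2) • (2 : Matrix (Fin 16) (Fin 16) ℂ) := by
      intro i
      simp only [smul_ite, smul_zero, Finset.sum_ite_eq, Finset.mem_univ, if_true, sq]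
    simp only [this, ← Finset.sum_smul]
    have hE' : ∑ i, (E i : ℂ) ^ 2 = 1 := by exact_mod_cast hE
    rw [hE', one_smul, two_smul]
    norm_num
  have h4 := congrArg (fun M => (1 / 2 : ℂ) • M) h3
  simpa [smul_smul] using h4

lemma real_mul {N M : Matrix (Fin 16) (Fin 16) ℂ} (hN : ∀ α β, (N α β).im = 0)
    (hM : ∀ α β, (M α β).im = 0) : ∀ α β, ((N * M) α β).im = 0 := fun α β =>
  mul_im_zero hN hM α β

/-- the vacuum condition in the standard frame -/
def Vac (E : Fin 9 → ℝ) (v : F) : Prop :=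
  ∀ α, S.th α 0 v = (-Complex.I) • S.vec (S.gE E) 1 α v

variable {S} {E : Fin 9 → ℝ} {v : F}

lemma Vac.vec0 (h : S.Vac E v) (N : Matrix (Fin 16) (Fin 16) ℂ) (α : Fin 16) :
    S.vec N 0 α v = (-Complex.I) • S.vec (N * S.gE E) 1 α v := by
  rw [vec_apply]
  simp only [h _]
  have h2 := congrArg (fun T : F →L[ℂ] F => T v) (S.toCS.vec_mul N (S.gE E) 1 α)
  simp only [_root_.sum_apply, _root_.smul_apply] at h2
  rw [h2, Finset.smul_sum]
  refine Finset.sum_congr rfl fun γ _ => ?_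
  rw [smul_comm]

lemma Vac.vec1 (h : S.Vac E v) (hE : ∑ i, E i ^ 2 = 1) (N : Matrix (Fin 16) (Fin 16) ℂ)
    (α : Fin 16) : S.vec N 1 α v = Complex.I • S.vec (N * S.gE E) 0 α v := by
  rw [h.vec0, mul_assoc, S.gE_sq E hE, mul_one, smul_smul]
  have : Complex.I * -Complex.I = 1 := by
    have := Complex.I_mul_I
    linear_combination -this
  rw [this, one_smul]

/-- cyclicity: for `Z` anticommuting with species `0` -/
lemma Vac.cyc (h : S.Vac E v) (hE : ∑ i, E i ^ 2 = 1) (Z : F → F)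
    (hZadd : ∀ a b, Z (a + b) = Z a + Z b) (hZsmul : ∀ (c : ℂ) a, Z (c • a) = c • Z a)
    (hZ : ∀ α w, Z (S.th α 0 w) = -S.th α 0 (Z w))
    (N : Matrix (Fin 16) (Fin 16) ℂ) (hN : ∀ α β, (N α β).im = 0) (δ : Fin 16) :
    inner ℂ v (Z (S.vec N 1 δ v)) = inner ℂ v (S.vec N 1 δ (Z v)) := by
  have hZv : ∀ (P : Matrix (Fin 16) (Fin 16) ℂ) w, Z (S.vec P 0 δ w) = -S.vec P 0 δ (Z w) := by
    intro P w
    let ZL : F →ₗ[ℂ] F := ⟨⟨Z, hZadd⟩, hZsmul⟩
    have : Z (S.vec P 0 δ w) = ZL (S.vec P 0 δ w) := rfl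
    rw [this, vec_apply, map_sum, vec_apply, ← Finset.sum_neg_distrib]
    refine Finset.sum_congr rfl fun γ _ => ?_
    rw [map_smul]
    have h3 : ZL (S.th γ 0 w) = -S.th γ 0 (Z w) := hZ γ w
    rw [h3, smul_neg]
  have hP : ∀ α β, ((N * S.gE E) α β).im = 0 := real_mul hN (S.gE_im E)
  rw [h.vec1 hE, hZsmul, hZv, inner_smul_right, inner_neg_right,
    ← S.vec_symm (N * S.gE E) hP 0 δ v (Z v), h.vec0, mul_assoc, S.gE_sq E hE, mul_one,
    inner_smul_left, S.vec_symm N hN]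
  simp only [map_neg, Complex.conj_I, neg_neg]
  have := Complex.I_mul_I
  linear_combination (-inner ℂ v ((S.vec N 1 δ) (Z v))) * this

variable (S) in
/-- operators commuting with species `0` and `1` -/
def Comm01 (Y : F →L[ℂ] F) : Prop :=
  ∀ α w, Y (S.th α 0 w) = S.th α 0 (Y w) ∧ Y (S.th α 1 w) = S.th α 1 (Y w)

lemma Comm01.vec1 {Y : F →L[ℂ] F} (hY : S.Comm01 Y) (N : Matrix (Fin 16) (Fin 16) ℂ) (β : Fin 16)
    (w : F) : Y (S.vec N 1 β w) = S.vec N 1 β (Y w) := by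
  rw [vec_apply, map_sum, vec_apply]
  refine Finset.sum_congr rfl fun γ _ => ?_
  rw [map_smul, (hY γ w).2]

/-- two-point function -/
lemma Vac.two_pt (h : S.Vac E v) (hE : ∑ i, E i ^ 2 = 1) {Y : F →L[ℂ] F} (hY : S.Comm01 Y)
    (N M : Matrix (Fin 16) (Fin 16) ℂ) (hM : ∀ α β, (M α β).im = 0) (α β : Fin 16) :
    inner ℂ v (Y (S.vec N 1 α (S.vec M 1 β v))) = (1 / 2) * (N * Mᵀ) α β * inner ℂ v (Y v) := by
  have h1 : inner ℂ v (Y (S.vec N 1 α (S.vec M 1 β v))) =
      inner ℂ v (S.vec M 1 β (Y (S.vec N 1 α v))) := by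
    refine h.cyc hE (fun w => Y (S.vec N 1 α w)) (fun a b => by rw [map_add, map_add])
      (fun c a => by rw [map_smul, map_smul]) ?_ M hM β
    intro γ w
    have := S.vec_anti_app N 1 1 0 α γ w
    simp only [← th_eq_vec, show ¬((1 : Fin 3) = 0) by decide, if_false, zero_sub] at this
    simp only [this, map_neg, (hY γ _).1]
  have h2 : S.vec M 1 β (Y (S.vec N 1 α v)) = Y (S.vec M 1 β (S.vec N 1 α v)) :=
    (hY.vec1 M β _).symm
  have h3 := S.vec_anti_app N M 1 1 α β v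
  simp only [if_true] at h3
  have h4 : inner ℂ v (Y (S.vec N 1 α (S.vec M 1 β v))) + inner ℂ v (Y (S.vec M 1 β
      (S.vec N 1 α v))) = (N * Mᵀ) α β * inner ℂ v (Y v) := by
    rw [h3, map_sub, map_smul, inner_sub_right, inner_smul_right]; ring
  rw [h1, h2] at *
  linear_combination (1 / 2) * h4

lemma Vac.bil11 (h : S.Vac E v) (hE : ∑ i, E i ^ 2 = 1) {Y : F →L[ℂ] F} (hY : S.Comm01 Y)
    (N : Matrix (Fin 16) (Fin 16) ℂ) (hN : ∀ α β, (N α β).im = 0) :
    inner ℂ v (Y (S.bil N 1 1 v)) = (1 / 2) * N.trace * inner ℂ v (Y v) := by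
  rw [bil_apply, map_sum, inner_sum]
  have : ∀ α, inner ℂ v (Y (S.th α 1 (S.vec N 1 α v))) =
      (1 / 2) * (N α α) * inner ℂ v (Y v) := by
    intro α
    rw [th_eq_vec, h.two_pt hE hY 1 N hN, one_mul, Matrix.transpose_apply]
  simp only [this, Matrix.trace, Matrix.diag, Finset.mul_sum, Finset.sum_mul]

lemma comm_one : S.Comm01 (ContinuousLinearMap.id ℂ F) := fun _ _ => ⟨rfl, rfl⟩

/-- species `2` vectors anticommute with the others -/
lemma vec2_anti (N M : Matrix (Fin 16) (Fin 16) ℂ) (A : Fin 3) (hA : A ≠ 2) (β δ : Fin 16) (w : F) :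
    S.vec N 2 β (S.vec M A δ w) = -S.vec M A δ (S.vec N 2 β w) := by
  have := S.vec_anti_app N M 2 A β δ w
  simpa [Ne.symm hA] using this

lemma comm_vec22 (N M : Matrix (Fin 16) (Fin 16) ℂ) (β δ : Fin 16) :
    S.Comm01 ((S.vec N 2 β).comp (S.vec M 2 δ)) := by
  intro α w
  simp only [ContinuousLinearMap.comp_apply, th_eq_vec]
  constructor
  · rw [vec2_anti M 1 0 (by decide), map_neg, vec2_anti N 1 0 (by decide), neg_neg]
  · rw [vec2_anti M 1 1 (by decide), map_neg, vec2_anti N 1 1 (by decide), neg_neg]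

lemma comm_bil22 (N : Matrix (Fin 16) (Fin 16) ℂ) : S.Comm01 (S.bil N 2 2) := by
  intro α w
  simp only [bil_apply, map_sum]
  have h : ∀ β, S.th β 2 (S.vec N 2 β (S.th α 0 w)) = S.th α 0 (S.th β 2 (S.vec N 2 β w)) ∧
      S.th β 2 (S.vec N 2 β (S.th α 1 w)) = S.th α 1 (S.th β 2 (S.vec N 2 β w)) := by
    intro β
    have := comm_vec22 (S := S) 1 N β β α w
    simpa only [ContinuousLinearMap.comp_apply, ← th_eq_vec] using this
  exact ⟨Finset.sum_congr rfl fun β _ => (h β).1, Finset.sum_congr rfl fun β _ => (h β).2⟩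

/-- commutator with a quadratic operator of species `1` -/
lemma vec_bil_comm (N M : Matrix (Fin 16) (Fin 16) ℂ) (hM : Mᵀ = -M) (β : Fin 16) (w : F) :
    S.vec N 1 β (S.bil M 1 1 w) = S.bil M 1 1 (S.vec N 1 β w) + (2 : ℂ) • S.vec (N * M) 1 β w := by
  have h1 : ∀ δ, S.vec N 1 β (S.th δ 1 (S.vec M 1 δ w)) = N β δ • S.vec M 1 δ w -
      (N * Mᵀ) β δ • S.th δ 1 w + S.th δ 1 (S.vec M 1 δ (S.vec N 1 β w)) := by
    intro δ
    have e1 := S.vec_anti_app N 1 1 1 β δ (S.vec M 1 δ w)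
    have e2 := S.vec_anti_app N M 1 1 β δ w
    simp only [if_true, Matrix.transpose_one, mul_one, ← th_eq_vec] at e1 e2
    rw [e1, e2, map_sub, map_smul]
    abel
  rw [bil_apply, map_sum, Finset.sum_congr rfl fun δ _ => h1 δ, Finset.sum_add_distrib,
    Finset.sum_sub_distrib, ← bil_apply]
  have h2 : ∑ δ, N β δ • S.vec M 1 δ w = S.vec (N * M) 1 β w := by
    have h := congrArg (fun T : F →L[ℂ] F => T w) (S.toCS.vec_mul N M 1 β)
    simp only [_root_.sum_apply, _root_.smul_apply] at h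
    exact h.symm
  have h3 : ∑ δ, (N * Mᵀ) β δ • S.th δ 1 w = -S.vec (N * M) 1 β w := by
    rw [← vec_apply, hM, mul_neg, S.toCS.vec_neg, _root_.neg_apply]
  rw [h2, h3, two_smul]
  abel

lemma bil11_th0 (M : Matrix (Fin 16) (Fin 16) ℂ) (α : Fin 16) (w : F) :
    S.bil M 1 1 (S.th α 0 w) = S.th α 0 (S.bil M 1 1 w) := by
  rw [bil_apply, bil_apply, map_sum]
  refine Finset.sum_congr rfl fun β _ => ?_
  have e1 := S.vec_anti_app M 1 1 0 β α w
  have e2 := S.vec_anti_app 1 1 1 0 β α (S.vec M 1 β w)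
  simp only [show ¬((1 : Fin 3) = 0) by decide, if_false, zero_sub, ← th_eq_vec] at e1 e2
  rw [e1, map_neg, e2, neg_neg]

/-- the four-point function -/
lemma Vac.four_pt (h : S.Vac E v) (hE : ∑ i, E i ^ 2 = 1) (M N : Matrix (Fin 16) (Fin 16) ℂ)
    (hMr : ∀ α β, (M α β).im = 0) (hNr : ∀ α β, (N α β).im = 0) (hM : Mᵀ = -M) (hN : Nᵀ = -N) :
    inner ℂ v (S.bil M 1 1 (S.bil N 1 1 v)) = (1 / 2) * (N * M).trace * inner ℂ v v := by
  have h1 : inner ℂ v (S.bil M 1 1 (S.bil N 1 1 v)) =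
      ∑ γ, inner ℂ v (S.bil M 1 1 (S.th γ 1 (S.vec N 1 γ v))) := by
    rw [S.bil_apply N, map_sum, inner_sum]
  have h2 : ∀ γ, inner ℂ v (S.bil M 1 1 (S.th γ 1 (S.vec N 1 γ v))) =
      inner ℂ v (S.bil M 1 1 (S.vec N 1 γ (S.th γ 1 v))) +
        2 * inner ℂ v (S.vec (N * M) 1 γ (S.th γ 1 v)) := by
    intro γ
    rw [h.cyc hE (fun w => S.bil M 1 1 (S.th γ 1 w)) (fun a b => by rw [map_add, map_add])
      (fun c a => by rw [map_smul, map_smul]) ?_ N hNr γ, vec_bil_comm N M hM, inner_add_right,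
      inner_smul_right]
    intro α w
    have e1 := S.vec_anti_app 1 1 1 0 γ α w
    simp only [show ¬((1 : Fin 3) = 0) by decide, if_false, zero_sub, ← th_eq_vec] at e1
    simp only [e1, map_neg, bil11_th0]
  have h3 : ∑ γ, inner ℂ v (S.bil M 1 1 (S.vec N 1 γ (S.th γ 1 v))) =
      -inner ℂ v (S.bil M 1 1 (S.bil N 1 1 v)) := by
    have : ∑ γ, S.vec N 1 γ (S.th γ 1 v) = -S.bil N 1 1 v := by
      simp only [th_eq_vec]
      rw [sum_vec_vec, hN, mul_one, bil_neg_app]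
    rw [← inner_sum, ← map_sum, this, map_neg, inner_neg_right]
  have h4 : ∑ γ, inner ℂ v (S.vec (N * M) 1 γ (S.th γ 1 v)) =
      (1 / 2) * (N * M).trace * inner ℂ v v := by
    have h5 := h.bil11 hE comm_one (N * M)ᵀ (fun α β => real_mul hNr hMr β α)
    simp only [ContinuousLinearMap.id_apply, Matrix.trace_transpose] at h5
    rw [← h5, ← inner_sum]
    simp only [th_eq_vec]
    rw [sum_vec_vec, mul_one]
  rw [Finset.sum_congr rfl fun γ _ => h2 γ, Finset.sum_add_distrib, h3, ← Finset.mul_sum, h4] at h1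
  linear_combination (1 / 2) * h1

lemma Vac.bil00 (h : S.Vac E v) (N : Matrix (Fin 16) (Fin 16) ℂ) (hN : Nᵀ = -N) :
    S.bil N 0 0 v = -S.bil (S.gE E * N * S.gE E) 1 1 v := by
  rw [bil_apply]
  have h1 : ∀ α, S.th α 0 (S.vec N 0 α v) = S.vec (N * S.gE E) 1 α (S.vec (S.gE E) 1 α v) := by
    intro α
    have e1 := S.vec_anti_app 1 (N * S.gE E) 0 1 α α v
    simp only [show ¬((0 : Fin 3) = 1) by decide, if_false, zero_sub, ← th_eq_vec] at e1
    rw [h.vec0, map_smul, e1, h α, map_smul, smul_neg, smul_smul]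
    have : -Complex.I * -Complex.I = -1 := by
      have := Complex.I_mul_I
      linear_combination this
    rw [this, neg_smul, one_smul, neg_neg]
  rw [Finset.sum_congr rfl fun α _ => h1 α, sum_vec_vec, Matrix.transpose_mul, hN, S.gE_symm,
    mul_neg, neg_mul, bil_neg_app]

end Setup
end Vale.Agent.P353
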