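import Vale.Agent.P353.VacStd

open Matrix

namespace Vale.Agent.P353

variable {F : Type*} [NormedAddCommGroup F] [InnerProductSpace ℂ F]

namespace Setup

variable {S : Setup F} {E : Fin 9 → ℝ} {v : F}

variable (S) in
/-- one-species rotation generator -/
noncomputable def sp (A : Fin 3) (k l : Fin 9) (w : F) : F :=
  (-Complex.I / 4) • S.bil (S.g2 k l) A A w

variable (S) in
/-- `D_{kl} = γ^{kl} - γ^E γ^{kl} γ^E` -/
noncomputable def DD (E : Fin 9 → ℝ) (k l : Fin 9) : Matrix (Fin 16) (Fin 16) ℂ :=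
  S.g2 k l - S.gE E * S.g2 k l * S.gE E

lemma DD_transpose (k l : Fin 9) : (S.DD E k l)ᵀ = -S.DD E k l := by
  simp only [DD, Matrix.transpose_sub, Matrix.transpose_mul, S.g2_transpose, S.gE_symm]
  noncomm_ring

lemma DD_im (k l : Fin 9) (α β : Fin 16) : (S.DD E k l α β).im = 0 := by
  have h1 := real_mul (real_mul (S.gE_im E) (S.g2_im k l)) (S.gE_im E) α β
  rw [DD, Matrix.sub_apply, Complex.sub_im, S.g2_im, h1, sub_zero]

lemma DD_trace (k l : Fin 9) (hE : ∑ i, E i ^ 2 = 1) : (S.DD E k l).trace = 0 := by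
  rw [DD, Matrix.trace_sub, Matrix.trace_mul_comm, ← mul_assoc, S.gE_sq E hE, one_mul, sub_self]

lemma g2_swap' (k l : Fin 9) : S.g2 k l = -S.g2 l k := S.toCS.g2_antisymm k l

lemma sum_trace_DD (hE : ∑ i, E i ^ 2 = 1) :
    ∑ k, ∑ l, (S.DD E k l * S.DD E k l).trace = -1024 := by
  have h1 : ∀ k l, (S.DD E k l * S.DD E k l).trace = 2 * (S.g2 k l * S.g2 k l).trace -
      2 * (S.gE E * (S.g2 k l * S.gE E * S.g2 k l)).trace := by
    intro k l
    have e1 : S.DD E k l * S.DD E k l = S.g2 k l * S.g2 k l -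
        S.g2 k l * S.gE E * S.g2 k l * S.gE E - S.gE E * (S.g2 k l * S.gE E * S.g2 k l) +
        S.gE E * (S.g2 k l * (S.gE E * S.gE E) * S.g2 k l * S.gE E) := by
      rw [DD]; noncomm_ring
    rw [e1, S.gE_sq E hE, mul_one, Matrix.trace_add, Matrix.trace_sub, Matrix.trace_sub,
      Matrix.trace_mul_comm (S.gE E) (S.g2 k l * S.g2 k l * S.gE E), mul_assoc _ (S.gE E) (S.gE E),
      S.gE_sq E hE, mul_one, Matrix.trace_mul_comm (S.g2 k l * S.gE E * S.g2 k l) (S.gE E)]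
    ring
  have h2 : ∑ k, ∑ l, S.g2 k l * S.gE E * S.g2 k l = (-40 : ℂ) • S.gE E := by
    have h3 : ∀ k l, S.g2 k l * S.gE E * S.g2 k l =
        ∑ i, (E i : ℂ) • (S.g2 k l * S.g i * S.g2 k l) := by
      intro k l
      simp only [gE, Finset.mul_sum, Finset.sum_mul, mul_smul_comm, smul_mul_assoc]
    simp only [h3]
    have s1 : ∀ k, ∑ l, ∑ i, (E i : ℂ) • (S.g2 k l * S.g i * S.g2 k l) =
        ∑ i, ∑ l, (E i : ℂ) • (S.g2 k l * S.g i * S.g2 k l) := fun k => Finset.sum_comm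
    simp only [s1]
    rw [Finset.sum_comm]
    simp only [← Finset.smul_sum, S.toCS.sum_g2_g_g2]
    simp only [gE, Finset.smul_sum]
    refine Finset.sum_congr rfl fun i _ => ?_
    rw [smul_comm]
  simp only [h1, Finset.sum_sub_distrib, ← Finset.mul_sum]
  rw [S.toCS.sum_trace_g2_sq]
  simp only [← Matrix.trace_sum, ← Finset.mul_sum]
  rw [h2, mul_smul_comm, S.gE_sq E hE, Matrix.trace_smul, Matrix.trace_one]
  norm_num

lemma Skl_app (k l : Fin 9) (w : F) : S.Skl k l w = S.sp 0 k l w + S.sp 1 k l w + S.sp 2 k l w := by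
  simp only [Skl, sp, CS.tot, Fin.sum_univ_three, _root_.smul_apply, _root_.add_apply, smul_add]

variable (S) in
/-- the perpendicular part -/
noncomputable def bb' (E : Fin 9 → ℝ) (v : F) (k l : Fin 9) : F :=
  (-Complex.I / 4) • S.bil (S.DD E k l) 1 1 v

lemma Vac.Skl_eq (h : S.Vac E v) (k l : Fin 9) :
    S.Skl k l v = S.sp 2 k l v + S.bb' E v k l := by
  rw [Skl_app, sp, sp, bb', h.bil00 _ (S.g2_transpose k l), DD, bil_sub_app]
  module

lemma conj_I4 : (starRingEnd ℂ) (-Complex.I / 4) = Complex.I / 4 := by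
  have h4 : (starRingEnd ℂ) 4 = 4 := by norm_num [Complex.ext_iff]
  simp [map_div₀, h4]

/-- cross terms vanish -/
lemma Vac.cross (h : S.Vac E v) (hE : ∑ i, E i ^ 2 = 1) (P : Matrix (Fin 16) (Fin 16) ℂ)
    (k l : Fin 9) : inner ℂ v (S.bil P 2 2 (S.bb' E v k l)) = 0 := by
  rw [bb', map_smul, inner_smul_right, h.bil11 hE (comm_bil22 P) _ (DD_im k l), DD_trace k l hE]
  ring

lemma sp_adj (A : Fin 3) (k l : Fin 9) (x y : F) : inner ℂ (S.sp A k l x) y =
    inner ℂ x (S.sp A k l y) := by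
  rw [sp, sp, inner_smul_left, inner_smul_right, S.bil_adj _ (S.g2_im k l), S.g2_transpose,
    bil_neg_app, inner_neg_right, conj_I4]
  ring

lemma Vac.cross' (h : S.Vac E v) (hE : ∑ i, E i ^ 2 = 1) (i j k l : Fin 9) :
    inner ℂ (S.sp 2 i j v) (S.bb' E v k l) = 0 := by
  rw [sp_adj, sp, inner_smul_right, h.cross hE, mul_zero]

lemma Vac.sum_b (h : S.Vac E v) (hE : ∑ i, E i ^ 2 = 1) :
    ∑ k, ∑ l, inner ℂ (S.bb' E v k l) (S.bb' E v k l) = 32 * inner ℂ v v := by
  have h1 : ∀ k l, inner ℂ (S.bb' E v k l) (S.bb' E v k l) =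
      (-1 / 32) * (S.DD E k l * S.DD E k l).trace * inner ℂ v v := by
    intro k l
    rw [bb', inner_smul_left, inner_smul_right, S.bil_adj _ (DD_im k l), DD_transpose,
      bil_neg_app, inner_neg_right, h.four_pt hE _ _ (DD_im k l) (DD_im k l) (DD_transpose k l)
      (DD_transpose k l), conj_I4]
    have := Complex.I_mul_I
    linear_combination (1/32 * (S.DD E k l * S.DD E k l).trace * inner ℂ v v) * this
  simp only [h1, ← Finset.sum_mul, ← Finset.mul_sum, sum_trace_DD hE]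
  ring

lemma sum_a : ∑ k, ∑ l, inner ℂ (S.sp 2 k l v) (S.sp 2 k l v) = 36 * inner ℂ v v := by
  have h1 : ∀ k l, inner ℂ (S.sp 2 k l v) (S.sp 2 k l v) =
      (-1 / 16) * inner ℂ v (S.bil (S.g2 k l) 2 2 (S.bil (S.g2 k l) 2 2 v)) := by
    intro k l
    rw [sp_adj, sp, sp, map_smul, smul_smul, inner_smul_right]
    have := Complex.I_mul_I
    linear_combination (1/16 * inner ℂ v (S.bil (S.g2 k l) 2 2 (S.bil (S.g2 k l) 2 2 v))) * this
  have h2 := congrArg (fun T : F →L[ℂ] F => T v) (S.toCS.casimir_one S.g_real 2)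
  simp only [_root_.sum_apply, mul_apply_eq_comp, _root_.smul_apply, one_apply_eq_self] at h2
  simp only [h1, ← Finset.mul_sum, ← inner_sum, h2]
  rw [inner_smul_right]; ring

lemma Vac.sum_Skl (h : S.Vac E v) (hE : ∑ i, E i ^ 2 = 1) :
    ∑ k, ∑ l, inner ℂ (S.Skl k l v) (S.Skl k l v) = 68 * inner ℂ v v := by
  have h1 : ∀ k l, inner ℂ (S.Skl k l v) (S.Skl k l v) =
      inner ℂ (S.sp 2 k l v) (S.sp 2 k l v) + inner ℂ (S.bb' E v k l) (S.bb' E v k l) := by
    intro k l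
    rw [h.Skl_eq, inner_add_left, inner_add_right, inner_add_right, h.cross' hE,
      ← inner_conj_symm (S.bb' E v k l) (S.sp 2 k l v), h.cross' hE, map_zero]
    ring
  simp only [h1, Finset.sum_add_distrib, sum_a, h.sum_b hE]
  ring

end Setup
end Vale.Agent.P353
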