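import Vale.Agent.P353.VacBd
import Vale.Agent.P353.BdDef

open Matrix MeasureTheory

namespace Vale.Agent.P353

variable {F : Type*} [NormedAddCommGroup F] [InnerProductSpace ℂ F]

/-! ### frames -/

/-- a unit vector orthogonal to `n` -/
lemma exists_orth (n : Fin 3 → ℝ) :
    ∃ e : Fin 3 → ℝ, ∑ A, e A ^ 2 = 1 ∧ ∑ A, e A * n A = 0 := by
  by_cases h : n 0 ^ 2 + n 1 ^ 2 = 0
  · refine ⟨![1, 0, 0], ?_, ?_⟩
    · simp [Fin.sum_univ_three]
    · have h0 : n 0 = 0 := by nlinarith [sq_nonneg (n 0), sq_nonneg (n 1)]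
      simp [Fin.sum_univ_three, h0]
  · have hpos : 0 < n 0 ^ 2 + n 1 ^ 2 := lt_of_le_of_ne (by positivity) (Ne.symm h)
    set r := Real.sqrt (n 0 ^ 2 + n 1 ^ 2) with hr
    have hr2 : r ^ 2 = n 0 ^ 2 + n 1 ^ 2 := Real.sq_sqrt hpos.le
    have hr0 : r ≠ 0 := by
      intro h0; rw [h0] at hr2; nlinarith
    refine ⟨![-n 1 / r, n 0 / r, 0], ?_, ?_⟩
    · simp only [Fin.sum_univ_three, Matrix.cons_val_zero, Matrix.cons_val_one, Matrix.cons_val]
      field_simp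
      rw [hr2]; ring
    · simp only [Fin.sum_univ_three, Matrix.cons_val_zero, Matrix.cons_val_one, Matrix.cons_val]
      field_simp
      ring

/-- matrix of a right-handed orthonormal frame -/
def frame (e n : Fin 3 → ℝ) : Matrix (Fin 3) (Fin 3) ℝ :=
  ![e, ![n 1 * e 2 - n 2 * e 1, n 2 * e 0 - n 0 * e 2, n 0 * e 1 - n 1 * e 0], n]

lemma frame_0 (e n : Fin 3 → ℝ) (C : Fin 3) : frame e n 0 C = e C := rfl
lemma frame_2 (e n : Fin 3 → ℝ) (C : Fin 3) : frame e n 2 C = n C := rfl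
lemma frame_10 (e n : Fin 3 → ℝ) : frame e n 1 0 = n 1 * e 2 - n 2 * e 1 := rfl
lemma frame_11 (e n : Fin 3 → ℝ) : frame e n 1 1 = n 2 * e 0 - n 0 * e 2 := rfl
lemma frame_12 (e n : Fin 3 → ℝ) : frame e n 1 2 = n 0 * e 1 - n 1 * e 0 := rfl

lemma frame_orth (e n : Fin 3 → ℝ) (he : ∑ A, e A ^ 2 = 1) (hn : ∑ A, n A ^ 2 = 1)
    (hen : ∑ A, e A * n A = 0) : frame e n * (frame e n)ᵀ = 1 := by
  rw [Fin.sum_univ_three] at he hn hen
  ext i j
  simp only [Matrix.mul_apply, Fin.sum_univ_three, Matrix.transpose_apply, Matrix.one_apply]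
  fin_cases i <;> fin_cases j <;>
    simp only [Fin.zero_eta, Fin.mk_one, Fin.reduceFinMk, frame_0, frame_2, frame_10, frame_11,
      frame_12, if_true, Fin.reduceEq, if_false]
  · linear_combination he
  · ring
  · linear_combination hen
  · ring
  · linear_combination (n 0 ^ 2 + n 1 ^ 2 + n 2 ^ 2) * he + hn -
      (e 0 * n 0 + e 1 * n 1 + e 2 * n 2) * hen
  · ring
  · linear_combination hen
  · ring
  · linear_combination hn

lemma frame_special (e n : Fin 3 → ℝ) (he : ∑ A, e A ^ 2 = 1) (hn : ∑ A, n A ^ 2 = 1)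
    (hen : ∑ A, e A * n A = 0) :
    CS.IsSpecial ((frame e n).map (fun r : ℝ => (r : ℂ))) := by
  rw [Fin.sum_univ_three] at he hn hen
  have hc : ∀ i j, ((frame e n).map (fun r : ℝ => (r : ℂ))) i j = ((frame e n i j : ℝ) : ℂ) :=
    fun _ _ => rfl
  have key : ∀ C D E : Fin 3, ∑ A, ∑ B, (eps C A B : ℝ) * (frame e n A D * frame e n B E) =
      ∑ F, frame e n C F * (eps F D E : ℝ) := by
    have he0 : ∀ f : Fin 3 → Fin 3 → ℝ, ∑ B, ∑ C, (eps 0 B C : ℝ) * f B C = f 1 2 - f 2 1 := by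
      intro f
      have h : eps 0 0 0 = 0 ∧ eps 0 0 1 = 0 ∧ eps 0 0 2 = 0 ∧ eps 0 1 0 = 0 ∧ eps 0 1 1 = 0 ∧
          eps 0 1 2 = 1 ∧ eps 0 2 0 = 0 ∧ eps 0 2 1 = -1 ∧ eps 0 2 2 = 0 := by decide
      obtain ⟨h1, h2, h3, h4, h5, h6, h7, h8, h9⟩ := h
      simp only [Fin.sum_univ_three, h1, h2, h3, h4, h5, h6, h7, h8, h9]
      push_cast; ring
    have he1 : ∀ f : Fin 3 → Fin 3 → ℝ, ∑ B, ∑ C, (eps 1 B C : ℝ) * f B C = f 2 0 - f 0 2 := by
      intro f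
      have h : eps 1 0 0 = 0 ∧ eps 1 0 1 = 0 ∧ eps 1 0 2 = -1 ∧ eps 1 1 0 = 0 ∧ eps 1 1 1 = 0 ∧
          eps 1 1 2 = 0 ∧ eps 1 2 0 = 1 ∧ eps 1 2 1 = 0 ∧ eps 1 2 2 = 0 := by decide
      obtain ⟨h1, h2, h3, h4, h5, h6, h7, h8, h9⟩ := h
      simp only [Fin.sum_univ_three, h1, h2, h3, h4, h5, h6, h7, h8, h9]
      push_cast; ring
    have he2 : ∀ f : Fin 3 → Fin 3 → ℝ, ∑ B, ∑ C, (eps 2 B C : ℝ) * f B C = f 0 1 - f 1 0 := by
      intro f
      have h : eps 2 0 0 = 0 ∧ eps 2 0 1 = 1 ∧ eps 2 0 2 = 0 ∧ eps 2 1 0 = -1 ∧ eps 2 1 1 = 0 ∧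
          eps 2 1 2 = 0 ∧ eps 2 2 0 = 0 ∧ eps 2 2 1 = 0 ∧ eps 2 2 2 = 0 := by decide
      obtain ⟨h1, h2, h3, h4, h5, h6, h7, h8, h9⟩ := h
      simp only [Fin.sum_univ_three, h1, h2, h3, h4, h5, h6, h7, h8, h9]
      push_cast; ring
    have hv : (eps 0 0 0 : ℝ) = 0 ∧ (eps 0 0 1 : ℝ) = 0 ∧ (eps 0 0 2 : ℝ) = 0 ∧
        (eps 0 1 0 : ℝ) = 0 ∧ (eps 0 1 1 : ℝ) = 0 ∧ (eps 0 1 2 : ℝ) = 1 ∧ (eps 0 2 0 : ℝ) = 0 ∧
        (eps 0 2 1 : ℝ) = -1 ∧ (eps 0 2 2 : ℝ) = 0 := by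
      have h : eps 0 0 0 = 0 ∧ eps 0 0 1 = 0 ∧ eps 0 0 2 = 0 ∧ eps 0 1 0 = 0 ∧ eps 0 1 1 = 0 ∧
          eps 0 1 2 = 1 ∧ eps 0 2 0 = 0 ∧ eps 0 2 1 = -1 ∧ eps 0 2 2 = 0 := by decide
      exact_mod_cast h
    have hv1 : (eps 1 0 0 : ℝ) = 0 ∧ (eps 1 0 1 : ℝ) = 0 ∧ (eps 1 0 2 : ℝ) = -1 ∧
        (eps 1 1 0 : ℝ) = 0 ∧ (eps 1 1 1 : ℝ) = 0 ∧ (eps 1 1 2 : ℝ) = 0 ∧ (eps 1 2 0 : ℝ) = 1 ∧
        (eps 1 2 1 : ℝ) = 0 ∧ (eps 1 2 2 : ℝ) = 0 := by
      have h : eps 1 0 0 = 0 ∧ eps 1 0 1 = 0 ∧ eps 1 0 2 = -1 ∧ eps 1 1 0 = 0 ∧ eps 1 1 1 = 0 ∧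
          eps 1 1 2 = 0 ∧ eps 1 2 0 = 1 ∧ eps 1 2 1 = 0 ∧ eps 1 2 2 = 0 := by decide
      exact_mod_cast h
    have hv2 : (eps 2 0 0 : ℝ) = 0 ∧ (eps 2 0 1 : ℝ) = 1 ∧ (eps 2 0 2 : ℝ) = 0 ∧
        (eps 2 1 0 : ℝ) = -1 ∧ (eps 2 1 1 : ℝ) = 0 ∧ (eps 2 1 2 : ℝ) = 0 ∧ (eps 2 2 0 : ℝ) = 0 ∧
        (eps 2 2 1 : ℝ) = 0 ∧ (eps 2 2 2 : ℝ) = 0 := by
      have h : eps 2 0 0 = 0 ∧ eps 2 0 1 = 1 ∧ eps 2 0 2 = 0 ∧ eps 2 1 0 = -1 ∧ eps 2 1 1 = 0 ∧
          eps 2 1 2 = 0 ∧ eps 2 2 0 = 0 ∧ eps 2 2 1 = 0 ∧ eps 2 2 2 = 0 := by decide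
      exact_mod_cast h
    obtain ⟨a1, a2, a3, a4, a5, a6, a7, a8, a9⟩ := hv
    obtain ⟨b1, b2, b3, b4, b5, b6, b7, b8, b9⟩ := hv1
    obtain ⟨c1, c2, c3, c4, c5, c6, c7, c8, c9⟩ := hv2
    intro C D E
    fin_cases C
    · simp only [Fin.zero_eta, he0]
      fin_cases D <;> fin_cases E <;>
        simp only [Fin.zero_eta, Fin.mk_one, Fin.reduceFinMk, Fin.sum_univ_three, frame_0, frame_2,
          frame_10, frame_11, frame_12, a1, a2, a3, a4, a5, a6, a7, a8, a9,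
          b1, b2, b3, b4, b5, b6, b7, b8, b9, c1, c2, c3, c4, c5, c6, c7, c8, c9]
      · ring
      · linear_combination e 2 * hn - n 2 * hen
      · linear_combination -e 1 * hn + n 1 * hen
      · linear_combination -e 2 * hn + n 2 * hen
      · ring
      · linear_combination e 0 * hn - n 0 * hen
      · linear_combination e 1 * hn - n 1 * hen
      · linear_combination -e 0 * hn + n 0 * hen
      · ring
    · simp only [Fin.mk_one, he1]
      fin_cases D <;> fin_cases E <;>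
        simp only [Fin.zero_eta, Fin.mk_one, Fin.reduceFinMk, Fin.sum_univ_three, frame_0, frame_2,
          frame_10, frame_11, frame_12, a1, a2, a3, a4, a5, a6, a7, a8, a9,
          b1, b2, b3, b4, b5, b6, b7, b8, b9, c1, c2, c3, c4, c5, c6, c7, c8, c9] <;> ring
    · simp only [Fin.reduceFinMk, he2]
      fin_cases D <;> fin_cases E <;>
        simp only [Fin.zero_eta, Fin.mk_one, Fin.reduceFinMk, Fin.sum_univ_three, frame_0, frame_2,
          frame_10, frame_11, frame_12, a1, a2, a3, a4, a5, a6, a7, a8, a9,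
          b1, b2, b3, b4, b5, b6, b7, b8, b9, c1, c2, c3, c4, c5, c6, c7, c8, c9]
      · ring
      · linear_combination n 2 * he - e 2 * hen
      · linear_combination -n 1 * he + e 1 * hen
      · linear_combination -n 2 * he + e 2 * hen
      · ring
      · linear_combination n 0 * he - e 0 * hen
      · linear_combination n 1 * he - e 1 * hen
      · linear_combination -n 0 * he + e 0 * hen
      · ring
  intro C D E
  simp only [hc]
  exact_mod_cast key C D E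

namespace Setup

variable (S : Setup F) {E : Fin 9 → ℝ}

lemma map_orth {O : Matrix (Fin 3) (Fin 3) ℝ} (hO : O * Oᵀ = 1) :
    (O.map (fun r : ℝ => (r : ℂ))) * (O.map (fun r : ℝ => (r : ℂ)))ᵀ = 1 := by
  have h := congrArg (fun M : Matrix (Fin 3) (Fin 3) ℝ => M.map (Complex.ofRealHom : ℝ →+* ℂ)) hO
  simp only [Matrix.map_mul] at h
  have h1 : (1 : Matrix (Fin 3) (Fin 3) ℝ).map (Complex.ofRealHom : ℝ →+* ℂ) = 1 :=
    Matrix.map_one _ (map_zero _) (map_one _)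
  rw [h1] at h
  exact h

/-- the setup rotated by `O` -/
noncomputable def rotS (O : Matrix (Fin 3) (Fin 3) ℝ) (hO : O * Oᵀ = 1) : Setup F where
  toCS := S.toCS.rot (O.map (fun r : ℝ => (r : ℂ))) (map_orth hO)
  κ := S.κ
  κ_pos := S.κ_pos
  g_real := S.g_real
  th_sa := by
    intro α A v w
    have h : ∀ y, (S.toCS.rot (O.map (fun r : ℝ => (r : ℂ))) (map_orth hO)).th α A y =
        ∑ C, ((O A C : ℝ) : ℂ) • S.th α C y := by
      intro y
      simp only [CS.rot, _root_.sum_apply, _root_.smul_apply, Matrix.map_apply]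
    rw [h, h, sum_inner, inner_sum]
    refine Finset.sum_congr rfl fun C _ => ?_
    rw [inner_smul_left, inner_smul_right, Complex.conj_ofReal, S.th_sa]

variable {S}

lemma Fx_eq (x : X3) : S.Fx x = S.toCS.Fv (S.κ : ℂ) (Xc x) := by
  ext v
  simp only [Fx, CS.Fv, Xc, _root_.sum_apply, _root_.smul_apply]

lemma Bd_app (x : X3) (v : F) : Bd S x v =
    Complex.I • ∑ β, S.toCS.Bv (Xc x) β (S.toCS.Mv (Xc x) β v) := by
  simp only [Bd, _root_.sum_apply, _root_.smul_apply, mul_apply_eq_comp, B_eq, Mult_eq]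

/-- rank-one points -/
lemma rank_one (x : X3) (hx : ‖x‖ = 1) (hV : S.V x = 0) :
    ∃ (E : Fin 9 → ℝ) (n : Fin 3 → ℝ), ∑ i, E i ^ 2 = 1 ∧ ∑ A, n A ^ 2 = 1 ∧
      ∀ i A, x (i, A) = E i * n A := by
  have hFF : ∀ A i j, S.FF A i j x = 0 := by
    have h4 : ∑ A, ∑ i, ∑ j, (S.FF A i j x) ^ 2 = 0 := by
      unfold V at hV; linarith
    intro A i j
    have n2 : ∀ A i, 0 ≤ ∑ j, (S.FF A i j x) ^ 2 := fun _ _ => Finset.sum_nonneg fun _ _ => sq_nonneg _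
    have n1 : ∀ A, 0 ≤ ∑ i, ∑ j, (S.FF A i j x) ^ 2 := fun _ => Finset.sum_nonneg fun _ _ => n2 _ _
    have z1 := (Finset.sum_eq_zero_iff_of_nonneg fun a _ => n1 a).mp h4 A (Finset.mem_univ _)
    have z2 := (Finset.sum_eq_zero_iff_of_nonneg fun a _ => n2 A a).mp z1 i (Finset.mem_univ _)
    have z3 := (Finset.sum_eq_zero_iff_of_nonneg fun a _ => sq_nonneg (S.FF A i a x)).mp z2 j
      (Finset.mem_univ _)
    simpa using z3
  have hκ : (S.κ : ℂ) ≠ 0 := by exact_mod_cast S.κ_pos.ne'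
  have h0 : ∀ i j, x (i, 1) * x (j, 2) = x (i, 2) * x (j, 1) := by
    intro i j
    have h := S.FF_eq 0 i j x
    rw [hFF, Complex.ofReal_zero, CS.FFc_0] at h
    have h2 := (mul_eq_zero.mp h.symm).resolve_left hκ
    simp only [Xc] at h2
    have h3 : x (i, 1) * x (j, 2) - x (i, 2) * x (j, 1) = 0 := by
      apply Complex.ofReal_injective; push_cast; exact h2
    linarith
  have h1 : ∀ i j, x (i, 2) * x (j, 0) = x (i, 0) * x (j, 2) := by
    intro i j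
    have h := S.FF_eq 1 i j x
    rw [hFF, Complex.ofReal_zero, CS.FFc_1] at h
    have h2 := (mul_eq_zero.mp h.symm).resolve_left hκ
    simp only [Xc] at h2
    have h3 : x (i, 2) * x (j, 0) - x (i, 0) * x (j, 2) = 0 := by
      apply Complex.ofReal_injective; push_cast; exact h2
    linarith
  have h2 : ∀ i j, x (i, 0) * x (j, 1) = x (i, 1) * x (j, 0) := by
    intro i j
    have h := S.FF_eq 2 i j x
    rw [hFF, Complex.ofReal_zero, CS.FFc_2] at h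
    have h2 := (mul_eq_zero.mp h.symm).resolve_left hκ
    simp only [Xc] at h2
    have h3 : x (i, 0) * x (j, 1) - x (i, 1) * x (j, 0) = 0 := by
      apply Complex.ofReal_injective; push_cast; exact h2
    linarith
  have hcr : ∀ i j A B, x (i, A) * x (j, B) = x (i, B) * x (j, A) := by
    intro i j A B
    fin_cases A <;> fin_cases B <;> simp only [Fin.zero_eta, Fin.mk_one, Fin.reduceFinMk]
    · exact h2 i j
    · exact (h1 i j).symm
    · exact (h2 i j).symm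
    · exact h0 i j
    · exact h1 i j
    · exact (h0 i j).symm
  have hsum : ∑ i, ∑ A, x (i, A) ^ 2 = 1 := by
    have h := EuclideanSpace.norm_sq_eq x
    rw [hx] at h
    simp only [Real.norm_eq_abs, sq_abs, Fintype.sum_prod_type] at h
    linarith
  obtain ⟨i0, hi0⟩ : ∃ i0, ∑ A, x (i0, A) ^ 2 ≠ 0 := by
    by_contra hcon
    push Not at hcon
    simp only [hcon, Finset.sum_const_zero] at hsum
    exact zero_ne_one hsum
  have hpos : 0 < ∑ A, x (i0, A) ^ 2 :=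
    lt_of_le_of_ne (Finset.sum_nonneg fun _ _ => sq_nonneg _) (Ne.symm hi0)
  set r := Real.sqrt (∑ A, x (i0, A) ^ 2) with hr
  have hr2 : r ^ 2 = ∑ A, x (i0, A) ^ 2 := Real.sq_sqrt hpos.le
  have hrp : 0 < r := Real.sqrt_pos.mpr hpos
  set n : Fin 3 → ℝ := fun A => x (i0, A) / r with hn
  have hn1 : ∑ A, n A ^ 2 = 1 := by
    simp only [hn, div_pow, ← Finset.sum_div]
    rw [← hr2]; field_simp
  have hxn : ∀ j A, x (j, A) = (∑ B, x (j, B) * n B) * n A := by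
    intro j A
    have h : ∀ B, x (j, B) * n B * n A = x (j, A) * n B ^ 2 := by
      intro B
      simp only [hn]
      have := hcr j i0 B A
      field_simp
      linear_combination (x (i0, B)) * this
    rw [Finset.sum_mul, Finset.sum_congr rfl fun B _ => h B, ← Finset.mul_sum, hn1, mul_one]
  refine ⟨fun j => ∑ B, x (j, B) * n B, n, ?_, hn1, hxn⟩
  have h3 : ∀ j, (∑ B, x (j, B) * n B) ^ 2 = ∑ A, x (j, A) ^ 2 := by
    intro j
    have : ∑ A, x (j, A) ^ 2 = ∑ A, ((∑ B, x (j, B) * n B) * n A) ^ 2 := by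
      refine Finset.sum_congr rfl fun A _ => ?_
      rw [← hxn]
    rw [this]
    simp only [mul_pow, ← Finset.mul_sum, hn1, mul_one]
  simp only [h3, hsum]

lemma Fv_XE (κ : ℂ) (w : F) : S.toCS.Fv κ (XE E) w = (Complex.I * κ) • S.bil (S.gE E) 0 1 w := by
  have h0 : eps 2 0 0 = 0 ∧ eps 2 0 1 = 1 ∧ eps 2 0 2 = 0 ∧ eps 2 1 0 = -1 ∧ eps 2 1 1 = 0 ∧
      eps 2 1 2 = 0 ∧ eps 2 2 0 = 0 ∧ eps 2 2 1 = 0 ∧ eps 2 2 2 = 0 := by decide
  obtain ⟨h1, h2, h3, h4, h5, h6, h7, h8, h9⟩ := h0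
  rw [S.toCS.Fv_eq]
  simp only [XE_sum, _root_.sum_apply, _root_.smul_apply]
  simp only [Fin.sum_univ_three, h1, h2, h3, h4, h5, h6, h7, h8, h9]
  have e1 : ∀ j, S.bil (S.g j) 1 0 w = -S.bil (S.g j) 0 1 w := by
    intro j
    have h := S.bil_swap_app (S.g j) 1 0 w
    simp only [show ¬((1 : Fin 3) = 0) by decide, if_false, zero_sub, S.g_symm] at h
    exact h
  have e2 : S.bil (S.gE E) 0 1 w = ∑ j, (E j : ℂ) • S.bil (S.g j) 0 1 w := by
    simp only [gE, S.toCS.bil_sum, S.toCS.bil_smul, _root_.sum_apply, _root_.smul_apply]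
  rw [e2, Finset.smul_sum, Finset.smul_sum]
  refine Finset.sum_congr rfl fun j _ => ?_
  rw [e1]
  push_cast
  module

/-- the vacuum bound in the standard frame -/
lemma std_vacuum (hE : ∑ i, E i ^ 2 = 1) (κ : ℝ) (v : F) :
    (inner ℂ v (S.toCS.Fv (κ : ℂ) (XE E) v)).re + 8 * κ * ‖v‖ ^ 2 =
      κ / 2 * ∑ α, ‖S.th α 0 v - (-Complex.I) • S.vec (S.gE E) 1 α v‖ ^ 2 := by
  have hn : ∀ y : F, (inner ℂ y y : ℂ) = ((‖y‖ ^ 2 : ℝ) : ℂ) := by
    intro y; rw [inner_self_eq_norm_sq_to_K]; push_cast; rfl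
  have hC : ((κ / 2 * ∑ α, ‖S.th α 0 v - (-Complex.I) • S.vec (S.gE E) 1 α v‖ ^ 2 : ℝ) : ℂ) =
      (κ / 2 : ℂ) * (16 * inner ℂ v v + 2 * (Complex.I * inner ℂ v (S.bil (S.gE E) 0 1 v))) := by
    have e1 : ∀ α, ((‖S.th α 0 v - (-Complex.I) • S.vec (S.gE E) 1 α v‖ ^ 2 : ℝ) : ℂ) =
        inner ℂ v (S.th α 0 (S.vec 1 0 α v)) +
        Complex.I * inner ℂ v (S.th α 0 (S.vec (S.gE E) 1 α v)) -
        Complex.I * inner ℂ v (S.vec (S.gE E) 1 α (S.vec 1 0 α v)) +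
        inner ℂ v (S.vec (S.gE E) 1 α (S.vec (S.gE E) 1 α v)) := by
      intro α
      rw [← hn, inner_sub_left, inner_sub_right, inner_sub_right, inner_smul_left,
        inner_smul_left, inner_smul_right, inner_smul_right, S.th_symm, S.th_symm,
        S.vec_symm _ (S.gE_im E), S.vec_symm _ (S.gE_im E), ← th_eq_vec]
      simp only [map_neg, Complex.conj_I, neg_neg]
      have := Complex.I_mul_I
      linear_combination (-inner ℂ v ((S.vec (S.gE E) 1 α) ((S.vec (S.gE E) 1 α) v))) * this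
    push_cast at e1 ⊢
    simp only [e1, Finset.sum_add_distrib, Finset.sum_sub_distrib, ← Finset.mul_sum, ← inner_sum]
    have f1 : ∑ α, S.th α 0 (S.vec 1 0 α v) = (8 : ℂ) • v := by
      rw [← bil_apply, bil_one_app]
    have f2 : ∑ α, S.th α 0 (S.vec (S.gE E) 1 α v) = S.bil (S.gE E) 0 1 v := by
      rw [← bil_apply]
    have f3 : ∑ α, S.vec (S.gE E) 1 α (S.vec 1 0 α v) = -S.bil (S.gE E) 0 1 v := by
      rw [sum_vec_vec, mul_one, S.gE_symm]
      have h := S.bil_swap_app (S.gE E) 1 0 v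
      simp only [show ¬((1 : Fin 3) = 0) by decide, if_false, zero_sub, S.gE_symm] at h
      exact h
    have f4 : ∑ α, S.vec (S.gE E) 1 α (S.vec (S.gE E) 1 α v) = (8 : ℂ) • v := by
      rw [sum_vec_vec, S.gE_symm, S.gE_sq E hE, bil_one_app]
    rw [f1, f2, f3, f4, inner_smul_right, inner_neg_right]
    ring
  have hR : (inner ℂ v (S.toCS.Fv (κ : ℂ) (XE E) v)).re + 8 * κ * ‖v‖ ^ 2 =
      ((κ / 2 : ℂ) * (16 * inner ℂ v v + 2 * (Complex.I * inner ℂ v (S.bil (S.gE E) 0 1 v)))).re := by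
    rw [Fv_XE, inner_smul_right, hn v]
    have : (κ / 2 : ℂ) * (16 * ((‖v‖ ^ 2 : ℝ) : ℂ) + 2 * (Complex.I *
        inner ℂ v (S.bil (S.gE E) 0 1 v))) = ((8 * κ * ‖v‖ ^ 2 : ℝ) : ℂ) +
        Complex.I * κ * inner ℂ v (S.bil (S.gE E) 0 1 v) := by
      push_cast; ring
    rw [this, Complex.add_re, Complex.ofReal_re]
    ring
  rw [hR, ← hC, Complex.ofReal_re]

/-- the vacuum theorem -/
theorem vacuum (S : Setup F) (x : X3) (hx : ‖x‖ = 1) (hV : S.V x = 0) (v : F) :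
    0 ≤ (inner ℂ v (S.Fx x v)).re + 8 * S.κ * ‖v‖ ^ 2 ∧
    ((inner ℂ v (S.Fx x v)).re + 8 * S.κ * ‖v‖ ^ 2 = 0 →
      56 * ‖v‖ ^ 2 ≤ (inner ℂ v (S.O1 v)).re ∧
      (inner ℂ v (Bd S x v)).re ≤ 56 / 9 * ‖v‖ ^ 2) := by
  obtain ⟨E, n, hE, hn, hxE⟩ := rank_one (S := S) x hx hV
  obtain ⟨e, he, hen⟩ := exists_orth n
  have hO := frame_orth e n he hn hen
  have hsp := frame_special e n he hn hen
  set S' := S.rotS (frame e n) hO with hS'
  have hX : CS.rotX ((frame e n).map (fun r : ℝ => (r : ℂ))) (Xc x) = XE E := by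
    funext j A
    simp only [CS.rotX, Matrix.map_apply, Xc, hxE, XE]
    have hrow := congrFun (congrFun hO A) 2
    rw [Matrix.mul_apply, Matrix.one_apply] at hrow
    simp only [Matrix.transpose_apply, frame_2] at hrow
    have : ∑ D, ((frame e n A D : ℝ) : ℂ) * ((E j * n D : ℝ) : ℂ) =
        (E j : ℂ) * ((∑ D, frame e n A D * n D : ℝ) : ℂ) := by
      push_cast
      rw [Finset.mul_sum]
      refine Finset.sum_congr rfl fun D _ => ?_
      ring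
    rw [this, hrow]
    split_ifs <;> simp
  have hF : ∀ w, S.Fx x w = S'.toCS.Fv (S.κ : ℂ) (XE E) w := by
    intro w
    rw [Fx_eq, ← hX]
    have := S.toCS.rot_Fv _ (map_orth hO) hsp (S.κ : ℂ) (Xc x)
    exact congrArg (fun T : F →L[ℂ] F => T w) this.symm
  have hB : ∀ β w, S.toCS.Bv (Xc x) β w = S'.toCS.Bv (XE E) β w := by
    intro β w
    rw [← hX]
    have := S.toCS.rot_Bv _ (map_orth hO) (Xc x) β
    exact congrArg (fun T : F →L[ℂ] F => T w) this.symm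
  have hM : ∀ β w, S.toCS.Mv (Xc x) β w = S'.toCS.Mv (XE E) β w := by
    intro β w
    rw [← hX]
    have := S.toCS.rot_Mv _ (map_orth hO) hsp (Xc x) β
    exact congrArg (fun T : F →L[ℂ] F => T w) this.symm
  have hO1 : ∀ w, S.O1 w = S'.O1 w := by
    intro w
    rw [O1_apply, O1_apply]
    have h1 : ∀ k l y, S.toCS.Sk k l y = S'.toCS.Sk k l y := by
      intro k l y
      exact congrArg (fun T : F →L[ℂ] F => T y) (S.toCS.rot_Sk _ (map_orth hO) k l).symm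
    have hTo : S'.toCS = S.toCS.rot _ (map_orth hO) := rfl
    have h2 : ∑ C, S.toCS.sG C (S.toCS.sG C w) = ∑ C, S'.toCS.sG C (S'.toCS.sG C w) := by
      have := congrArg (fun T : F →L[ℂ] F => T w) (S.toCS.rot_CG _ (map_orth hO) hsp)
      simp only [_root_.sum_apply, mul_apply_eq_comp] at this
      rw [hTo]
      exact this.symm
    have h3 : ∑ k, ∑ l, S.toCS.Sk k l (S.toCS.Sk k l w) =
        ∑ k, ∑ l, S'.toCS.Sk k l (S'.toCS.Sk k l w) :=
      Finset.sum_congr rfl fun k _ => Finset.sum_congr rfl fun l _ => by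
        rw [h1 k l, h1 k l w]
    rw [h2, h3]
  have hvac := std_vacuum (S := S') hE S.κ v
  rw [hF, hO1, Bd_app]
  simp only [hB, hM]
  rw [hvac]
  have hκ := S.κ_pos
  refine ⟨mul_nonneg (by positivity) (Finset.sum_nonneg fun _ _ => sq_nonneg _), fun h0 => ?_⟩
  have hVac : S'.Vac E v := by
    intro α
    have h1 : ∑ α, ‖S'.th α 0 v - (-Complex.I) • S'.vec (S'.gE E) 1 α v‖ ^ 2 = 0 := by
      rcases mul_eq_zero.mp h0 with h | h
      · linarith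
      · exact h
    have h2 := (Finset.sum_eq_zero_iff_of_nonneg fun a _ => sq_nonneg _).mp h1 α
      (Finset.mem_univ _)
    have h3 : S'.th α 0 v - (-Complex.I) • S'.vec (S'.gE E) 1 α v = 0 := by
      simpa using h2
    exact sub_eq_zero.mp h3
  have hnv : (inner ℂ v v : ℂ) = ((‖v‖ ^ 2 : ℝ) : ℂ) := by
    rw [inner_self_eq_norm_sq_to_K]; push_cast; rfl
  constructor
  · rw [hVac.O1 hE, hnv]
    have : (56 : ℂ) * ((‖v‖ ^ 2 : ℝ) : ℂ) = ((56 * ‖v‖ ^ 2 : ℝ) : ℂ) := by push_cast; ring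
    rw [this, Complex.ofReal_re]
  · rw [hVac.Bd hE, hnv]
    have hW := WW_le (S := S') (v := v) hE
    have : ((1 / 27 : ℂ) * (-144 * ((‖v‖ ^ 2 : ℝ) : ℂ) + 52 / 3 * WW S' E v)).re =
        (1 / 27) * (-144 * ‖v‖ ^ 2 + 52 / 3 * (WW S' E v).re) := by
      have : (1 / 27 : ℂ) * (-144 * ((‖v‖ ^ 2 : ℝ) : ℂ) + 52 / 3 * WW S' E v) =
          ((-144 / 27 * ‖v‖ ^ 2 : ℝ) : ℂ) + ((52 / 81 : ℝ) : ℂ) * WW S' E v := by
        push_cast; ring
      rw [this, Complex.add_re, Complex.ofReal_re, Complex.re_ofReal_mul]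
      ring
    rw [this]
    linarith

theorem vacuumStmt (S : Setup F) : VacuumStmt S := fun x hx hV v => S.vacuum x hx hV v

end Setup
end Vale.Agent.P353
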