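import Vale.Agent.P353.Core

open MeasureTheory Filter Topology
open scoped ContDiff

namespace Vale.Agent.P353

variable {F : Type*} [NormedAddCommGroup F] [InnerProductSpace ℂ F]

/-- the weighted inequality for zero modes -/
def WIneq (S : Setup F) (s : ℝ) : Prop :=
  ∃ R C : ℝ, 0 < R ∧ 0 < C ∧ ∀ Ψ : Lp F 2 (volume : Measure X3), S.IsZM Ψ →
    ∀ H : ℝ → ℝ, ContDiff ℝ ∞ H → HasCompactSupport H → (∀ t, t ≤ R ^ 2 → H t = 0) →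
    ∀ σ : ℝ → ℝ, Continuous σ → (∀ t, 0 ≤ σ t ∧ σ t ≤ s) →
    (∫ x : X3, ‖x‖ * H (‖x‖ ^ 2) ^ 2 * ‖Ψ x‖ ^ 2) ≤
      C * (∫ x : X3, (deriv H (‖x‖ ^ 2) ^ 2 * ‖x‖ ^ 2 +
        |2 * deriv (fun t => Real.sqrt t * H t ^ 2) (‖x‖ ^ 2) * ‖x‖ ^ 2 -
          ‖x‖ * H (‖x‖ ^ 2) ^ 2 * σ (‖x‖ ^ 2)|) * ‖Ψ x‖ ^ 2)

end Vale.Agent.P353
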