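import Vale.Agent.P353.Tail
import Vale.Agent.P353.WDef
import Vale.Agent.P353.Vacuum

open MeasureTheory Filter Topology
open scoped ContDiff

namespace Vale.Agent.P353

variable {F : Type*} [NormedAddCommGroup F] [InnerProductSpace ℂ F]

/-- the weight `√t H(t)²` -/
noncomputable def gH (H : ℝ → ℝ) (t : ℝ) : ℝ := Real.sqrt t * H t ^ 2

/-- the weight `√t H(t)² σ(t) / t` -/
noncomputable def tH (H σ : ℝ → ℝ) (t : ℝ) : ℝ := gH H t * σ t / t

section weights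

variable {H : ℝ → ℝ} {R : ℝ}

lemma contDiff_gH (hH : ContDiff ℝ ∞ H) (hR : 0 < R) (h0 : ∀ t, t ≤ R ^ 2 → H t = 0) :
    ContDiff ℝ ∞ (gH H) := by
  rw [contDiff_iff_contDiffAt]
  intro t
  rcases lt_or_ge t (R ^ 2) with h | h
  · have h1 : gH H =ᶠ[𝓝 t] fun _ => 0 := by
      filter_upwards [Iio_mem_nhds h] with y hy
      simp [gH, h0 y (le_of_lt hy)]
    exact contDiffAt_const.congr_of_eventuallyEq h1
  · have ht : t ≠ 0 := (lt_of_lt_of_le (by positivity) h).ne'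
    exact (Real.contDiffAt_sqrt ht).mul (hH.contDiffAt.pow 2)

lemma hcs_gH (hc : HasCompactSupport H) : HasCompactSupport (gH H) := by
  refine hc.mono ?_
  intro x hx
  simp only [Function.mem_support] at hx ⊢
  intro h0
  exact hx (by simp [gH, h0])

lemma hcs_tH {σ : ℝ → ℝ} (hc : HasCompactSupport H) : HasCompactSupport (tH H σ) := by
  refine hc.mono ?_
  intro x hx
  simp only [Function.mem_support] at hx ⊢
  intro h0
  exact hx (by simp [tH, gH, h0])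

lemma continuous_tH {σ : ℝ → ℝ} (hH : ContDiff ℝ ∞ H) (hσ : Continuous σ) (hR : 0 < R)
    (h0 : ∀ t, t ≤ R ^ 2 → H t = 0) : Continuous (tH H σ) := by
  rw [continuous_iff_continuousAt]
  intro t
  rcases lt_or_ge t (R ^ 2) with h | h
  · have h1 : tH H σ =ᶠ[𝓝 t] fun _ => 0 := by
      filter_upwards [Iio_mem_nhds h] with y hy
      simp [tH, gH, h0 y (le_of_lt hy)]
    exact continuousAt_const.congr h1.symm
  · have ht : t ≠ 0 := (lt_of_lt_of_le (by positivity) h).ne'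
    exact (((contDiff_gH hH hR h0).continuous.continuousAt).mul hσ.continuousAt).div
      continuousAt_id ht

lemma gH_norm (x : X3) : gH H (‖x‖ ^ 2) = ‖x‖ * H (‖x‖ ^ 2) ^ 2 := by
  rw [gH, Real.sqrt_sq (norm_nonneg _)]

end weights

namespace Setup

variable (S : Setup F)

lemma re_inner_rsmul (c : ℝ) (A : F →L[ℂ] F) (v : F) :
    (inner ℂ v (((c : ℂ) • A) v)).re = c * (inner ℂ v (A v)).re := by
  rw [_root_.smul_apply, inner_smul_right, Complex.re_ofReal_mul]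

lemma re_inner_real_smul (c : ℝ) (A : F →L[ℂ] F) (v : F) :
    (inner ℂ ((c : ℂ) • v) (A ((c : ℂ) • v))).re = c ^ 2 * (inner ℂ v (A v)).re := by
  rw [map_smul, inner_smul_left, inner_smul_right, Complex.conj_ofReal, Complex.re_ofReal_mul,
    Complex.re_ofReal_mul]
  ring

lemma continuous_opapply {A : X3 → F →L[ℂ] F} (hA : Continuous A) {w : X3 → F}
    (hw : Continuous w) : Continuous (fun x => A x (w x)) := by
  have hc : Continuous (fun p : (F →L[ℂ] F) × F => p.1 p.2) :=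
    (isBoundedBilinearMap_apply (𝕜 := ℂ) (E := F) (F := F)).continuous
  exact hc.comp (hA.prodMk hw)

/-- the inequality for test functions -/
theorem test_ineq {R ε ε' δ s : ℝ} (hR : 0 < R) (hε : 0 < ε) (hε1 : ε < 1) (_hε' : 0 < ε')
    (hpt : ∀ x : X3, R ≤ ‖x‖ → ∀ σ : ℝ, 0 ≤ σ → σ ≤ s → ∀ v : F,
        0 ≤ (inner ℂ v (S.Fx x v)).re +
          ((1 - ε) * (8 * S.κ * ‖x‖ - 16 / S.κ * S.V x / ‖x‖ ^ 3) +
            (2 * ε - ε ^ 2) * S.V x) * ‖v‖ ^ 2 +
          ε' * ‖x‖ * ((inner ℂ v (S.O1 v)).re - σ / ‖x‖ ^ 2 * (inner ℂ v (Bd S x v)).re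
            - δ * ‖v‖ ^ 2))
    {H : ℝ → ℝ} (hH : ContDiff ℝ ∞ H) (h0 : ∀ t, t ≤ R ^ 2 → H t = 0)
    {σ : ℝ → ℝ} (hσ : Continuous σ) (hσs : ∀ t, 0 ≤ σ t ∧ σ t ≤ s) {u : X3 → F} (hu : Tst u) :
    0 ≤ (1 / 16 : ℝ) * ∑ β, nsq (S.Q β (fun y => ((rad H y : ℝ) : ℂ) • u y)) +
      ε' * ((∫ x, inner ℂ (u x) ((((rad (gH H) x : ℝ) : ℂ) • S.O1) (u x))).re -
        (∫ x, inner ℂ (u x) ((((rad (tH H σ) x : ℝ) : ℂ) • Bd S x) (u x))).re -
        δ * (∫ x, inner ℂ (u x) ((((rad (gH H) x : ℝ) : ℂ) • (1 : F →L[ℂ] F)) (u x))).re) := by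
  set v : X3 → F := fun y => ((rad H y : ℝ) : ℂ) • u y with hv_def
  have hv : Tst v := Tst.rsmul (contDiff_rad hH) hu
  have hsupp : ∀ x, ‖x‖ < R → v x = 0 := by
    intro x hx
    have : rad H x = 0 := h0 _ (pow_le_pow_left₀ (norm_nonneg _) hx.le 2)
    simp [hv_def, this]
  have cg : Continuous (rad (gH H)) := continuous_rad (contDiff_gH hH hR h0).continuous
  have ct : Continuous (rad (tH H σ)) := continuous_rad (continuous_tH hH hσ hR h0)
  have j1 : Integrable (fun x => inner ℂ (u x) ((((rad (gH H) x : ℝ) : ℂ) • S.O1) (u x))) :=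
    hu.inner_int (continuous_opapply (continuous_rsmul_op cg continuous_const) hu.1.continuous)
  have j2 : Integrable (fun x => inner ℂ (u x) ((((rad (tH H σ) x : ℝ) : ℂ) • Bd S x) (u x))) :=
    hu.inner_int (continuous_opapply (continuous_rsmul_op ct S.continuous_Bd) hu.1.continuous)
  have j3 : Integrable (fun x => inner ℂ (u x)
      ((((rad (gH H) x : ℝ) : ℂ) • (1 : F →L[ℂ] F)) (u x))) :=
    hu.inner_int (continuous_opapply (continuous_rsmul_op cg continuous_const) hu.1.continuous)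
  have j4 : Integrable (fun x => inner ℂ (v x) (S.Fx x (v x))) :=
    hv.inner_int (continuous_opapply (contDiff_Fx S).continuous hv.1.continuous)
  have k1 : Integrable (fun x => (inner ℂ (u x) ((((rad (gH H) x : ℝ) : ℂ) • S.O1) (u x))).re) :=
    j1.re
  have k2 : Integrable (fun x => (inner ℂ (u x)
      ((((rad (tH H σ) x : ℝ) : ℂ) • Bd S x) (u x))).re) := j2.re
  have k3 : Integrable (fun x => (inner ℂ (u x)
      ((((rad (gH H) x : ℝ) : ℂ) • (1 : F →L[ℂ] F)) (u x))).re) := j3.re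
  have k4 : Integrable (fun x => (inner ℂ (v x) (S.Fx x (v x))).re) := j4.re
  have k5 : Integrable (fun x => ((1 - ε) * (8 * S.κ * ‖x‖ - 16 / S.κ * S.V x / ‖x‖ ^ 3) +
            (2 * ε - ε ^ 2) * S.V x) * ‖v x‖ ^ 2) := by
    refine integrable_sing ?_ hv hR hsupp
    intro x hx
    have hV := (contDiff_V S).continuous.continuousAt (x := x)
    have hn := continuous_norm.continuousAt (x := x)
    have hne : ‖x‖ ^ 3 ≠ 0 := pow_ne_zero 3 (norm_ne_zero_iff.mpr hx)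
    exact (continuousAt_const.mul ((continuousAt_const.mul hn).sub
      ((continuousAt_const.mul hV).div (hn.pow 3) hne))).add (continuousAt_const.mul hV)
  -- pointwise inequality
  have hpw : ∀ x, 0 ≤ ((inner ℂ (v x) (S.Fx x (v x))).re +
      ((1 - ε) * (8 * S.κ * ‖x‖ - 16 / S.κ * S.V x / ‖x‖ ^ 3) +
            (2 * ε - ε ^ 2) * S.V x) * ‖v x‖ ^ 2) +
      ε' * (((inner ℂ (u x) ((((rad (gH H) x : ℝ) : ℂ) • S.O1) (u x))).re -
        (inner ℂ (u x) ((((rad (tH H σ) x : ℝ) : ℂ) • Bd S x) (u x))).re) -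
        δ * (inner ℂ (u x) ((((rad (gH H) x : ℝ) : ℂ) • (1 : F →L[ℂ] F)) (u x))).re) := by
    intro x
    rw [re_inner_rsmul, re_inner_rsmul, re_inner_rsmul]
    rcases lt_or_ge ‖x‖ R with hx | hx
    · have h1 : v x = 0 := hsupp x hx
      have hH0 : H (‖x‖ ^ 2) = 0 := h0 _ (pow_le_pow_left₀ (norm_nonneg _) hx.le 2)
      have h2 : rad (gH H) x = 0 := by simp [rad, gH, hH0]
      have h3 : rad (tH H σ) x = 0 := by simp [rad, tH, gH, hH0]
      rw [h1, h2, h3]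
      simp
    · have h1 := hpt x hx (σ (‖x‖ ^ 2)) (hσs _).1 (hσs _).2 (v x)
      refine h1.trans (le_of_eq ?_)
      have hxp : 0 < ‖x‖ := lt_of_lt_of_le hR hx
      have hvx : v x = ((H (‖x‖ ^ 2) : ℝ) : ℂ) • u x := rfl
      have e1 : (inner ℂ (v x) (S.O1 (v x))).re = (H (‖x‖ ^ 2)) ^ 2 *
          (inner ℂ (u x) (S.O1 (u x))).re := by
        rw [hvx]; exact re_inner_real_smul (H (‖x‖ ^ 2)) S.O1 (u x)
      have e2 : (inner ℂ (v x) (Bd S x (v x))).re = (H (‖x‖ ^ 2)) ^ 2 *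
          (inner ℂ (u x) (Bd S x (u x))).re := by
        rw [hvx]; exact re_inner_real_smul (H (‖x‖ ^ 2)) (Bd S x) (u x)
      have e3 : (inner ℂ (u x) ((1 : F →L[ℂ] F) (u x))).re = ‖u x‖ ^ 2 := by
        rw [one_apply_eq_self, re_inner_self]
      have e4 : ‖v x‖ ^ 2 = (H (‖x‖ ^ 2)) ^ 2 * ‖u x‖ ^ 2 := by
        rw [hvx, norm_smul, Complex.norm_real, Real.norm_eq_abs, mul_pow, sq_abs]
      have e5 : rad (gH H) x = ‖x‖ * (H (‖x‖ ^ 2)) ^ 2 := gH_norm x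
      have e6 : rad (tH H σ) x = ‖x‖ * (σ (‖x‖ ^ 2) / ‖x‖ ^ 2) * (H (‖x‖ ^ 2)) ^ 2 := by
        rw [rad, tH, gH_norm]; ring
      have key : ε' * ‖x‖ * ((inner ℂ (v x) (S.O1 (v x))).re - σ (‖x‖ ^ 2) / ‖x‖ ^ 2 *
            (inner ℂ (v x) (Bd S x (v x))).re - δ * ‖v x‖ ^ 2) =
          ε' * ((rad (gH H) x * (inner ℂ (u x) (S.O1 (u x))).re -
            rad (tH H σ) x * (inner ℂ (u x) (Bd S x (u x))).re) -
            δ * (rad (gH H) x * (inner ℂ (u x) ((1 : F →L[ℂ] F) (u x))).re)) := by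
        rw [e1, e2, e3, e4, e5, e6]
        ring
      rw [key]
  have hnn := integral_nonneg_of_ae (μ := (volume : Measure X3))
    (Filter.Eventually.of_forall hpw)
  have k45 : Integrable (fun x => (inner ℂ (v x) (S.Fx x (v x))).re +
      ((1 - ε) * (8 * S.κ * ‖x‖ - 16 / S.κ * S.V x / ‖x‖ ^ 3) +
            (2 * ε - ε ^ 2) * S.V x) * ‖v x‖ ^ 2) := k4.add k5
  have k12 : Integrable (fun x => (inner ℂ (u x) ((((rad (gH H) x : ℝ) : ℂ) • S.O1) (u x))).re -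
        (inner ℂ (u x) ((((rad (tH H σ) x : ℝ) : ℂ) • Bd S x) (u x))).re) := k1.sub k2
  have k123 : Integrable (fun x => ((inner ℂ (u x)
        ((((rad (gH H) x : ℝ) : ℂ) • S.O1) (u x))).re -
        (inner ℂ (u x) ((((rad (tH H σ) x : ℝ) : ℂ) • Bd S x) (u x))).re) -
        δ * (inner ℂ (u x) ((((rad (gH H) x : ℝ) : ℂ) • (1 : F →L[ℂ] F)) (u x))).re) :=
    k12.sub (k3.const_mul δ)
  rw [integral_add k45 (k123.const_mul ε'), integral_const_mul, integral_add k4 k5,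
    integral_sub k12 (k3.const_mul δ), integral_sub k1 k2, integral_const_mul] at hnn
  have r1 : ∫ x, (inner ℂ (u x) ((((rad (gH H) x : ℝ) : ℂ) • S.O1) (u x))).re =
    (∫ x, inner ℂ (u x) ((((rad (gH H) x : ℝ) : ℂ) • S.O1) (u x))).re := integral_re j1
  have r2 : ∫ x, (inner ℂ (u x) ((((rad (tH H σ) x : ℝ) : ℂ) • Bd S x) (u x))).re =
    (∫ x, inner ℂ (u x) ((((rad (tH H σ) x : ℝ) : ℂ) • Bd S x) (u x))).re := integral_re j2
  have r3 : ∫ x, (inner ℂ (u x) ((((rad (gH H) x : ℝ) : ℂ) • (1 : F →L[ℂ] F)) (u x))).re =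
    (∫ x, inner ℂ (u x) ((((rad (gH H) x : ℝ) : ℂ) • (1 : F →L[ℂ] F)) (u x))).re := integral_re j3
  rw [r1, r2, r3] at hnn
  have hen := energy_formula S v hv
  have hsq := square_lower_bound S v hv R hR hsupp ε hε.le hε1.le
  have hen' : (1 / 16 : ℝ) * ∑ β, nsq (S.Q β v) =
      (1 / 2) * (∑ i, ∑ A, ∫ x, ‖pd i A v x‖ ^ 2) + (∫ x, S.V x * ‖v x‖ ^ 2)
        + (∫ x, (inner ℂ (v x) (S.Fx x (v x))).re) := hen
  rw [hen']
  linarith

end Setup
end Vale.Agent.P353
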