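import Vale.Agent.P353.Weighted

open MeasureTheory Filter Topology
open scoped ContDiff

namespace Vale.Agent.P353

variable {F : Type*} [NormedAddCommGroup F] [InnerProductSpace ℂ F]

omit [InnerProductSpace ℂ F] in
lemma int_weight {φ : X3 → ℝ} (hφ : Continuous φ) (hc : HasCompactSupport φ)
    (Ψ : Lp F 2 (volume : Measure X3)) : Integrable (fun x => φ x * ‖Ψ x‖ ^ 2) := by
  obtain ⟨C, hC⟩ := hc.exists_bound_of_continuous hφ
  exact (memLp_norm_sq_int (Lp.memLp Ψ)).bdd_mul (c := C) hφ.aestronglyMeasurable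
    (Filter.Eventually.of_forall hC)

namespace Setup

variable {S : Setup F}

lemma int_w0 {φ : X3 → ℝ} (hφ : Continuous φ) (hc : HasCompactSupport φ) {A : X3 → F →L[ℂ] F}
    (hA : Continuous A) (Ψ : Lp F 2 (volume : Measure X3)) :
    Integrable (fun x => inner ℂ (Ψ x) ((((φ x : ℝ) : ℂ) • A x) (Ψ x))) := by
  obtain ⟨C, -, b⟩ := bdd_rsmul_op hφ hc hA
  exact integrable_inner_memLp (Lp.memLp Ψ)
    (memLp_op (A := fun x => ((φ x : ℝ) : ℂ) • A x) (continuous_rsmul_op hφ hA) b (Lp.memLp Ψ))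

lemma int_w {φ : X3 → ℝ} (hφ : Continuous φ) (hc : HasCompactSupport φ) {A : X3 → F →L[ℂ] F}
    (hA : Continuous A) (Ψ : Lp F 2 (volume : Measure X3)) :
    Integrable (fun x => φ x * (inner ℂ (Ψ x) (A x (Ψ x))).re) := by
  have h1 : Integrable (fun x => (inner ℂ (Ψ x) ((((φ x : ℝ) : ℂ) • A x) (Ψ x))).re) :=
    (int_w0 hφ hc hA Ψ).re
  simpa only [re_inner_rsmul] using h1

lemma re_w {φ : X3 → ℝ} (hφ : Continuous φ) (hc : HasCompactSupport φ) {A : X3 → F →L[ℂ] F}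
    (hA : Continuous A) (Ψ : Lp F 2 (volume : Measure X3)) :
    (∫ x, inner ℂ (Ψ x) ((((φ x : ℝ) : ℂ) • A x) (Ψ x))).re =
      ∫ x, φ x * (inner ℂ (Ψ x) (A x (Ψ x))).re := by
  have h1 : ∫ x, (inner ℂ (Ψ x) ((((φ x : ℝ) : ℂ) • A x) (Ψ x))).re =
      (∫ x, inner ℂ (Ψ x) ((((φ x : ℝ) : ℂ) • A x) (Ψ x))).re := integral_re (int_w0 hφ hc hA Ψ)
  rw [← h1]
  simp only [re_inner_rsmul]

lemma Apx.lim_w {Ψ : Lp F 2 (volume : Measure X3)} {u : ℕ → X3 → F} (h : S.Apx Ψ u)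
    {φ : X3 → ℝ} (hφ : Continuous φ) (hc : HasCompactSupport φ) {A : X3 → F →L[ℂ] F}
    (hA : Continuous A) :
    Tendsto (fun n => (∫ x, inner ℂ (u n x) ((((φ x : ℝ) : ℂ) • A x) (u n x))).re) atTop
      (𝓝 (∫ x, φ x * (inner ℂ (Ψ x) (A x (Ψ x))).re)) := by
  rw [← re_w hφ hc hA Ψ]
  obtain ⟨C, -, b⟩ := bdd_rsmul_op hφ hc hA
  exact (Complex.continuous_re.tendsto _).comp
    (h.lim_uu (A := fun x => ((φ x : ℝ) : ℂ) • A x) (continuous_rsmul_op hφ hA) b)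

lemma ident_re [CompleteSpace F] {Ψ : Lp F 2 (volume : Measure X3)} (hΨ : S.IsZM Ψ) {g : ℝ → ℝ}
    (hg : ContDiff ℝ ∞ g) (hgc : HasCompactSupport g) :
    ∫ x, rad g x * (inner ℂ (Ψ x) (S.O1 (Ψ x))).re =
      ∫ x, dg g x * (inner ℂ (Ψ x) (Bd S x (Ψ x))).re := by
  rw [← re_w (continuous_rad hg.continuous) (hcs_rad' hgc) (A := fun _ => S.O1)
    continuous_const Ψ, ← re_w (continuous_dg hg) (hcs_dg hgc) S.continuous_Bd Ψ,
    ident_lim hΨ hg hgc]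

/-- limit of the supercharges of the cut-off approximants -/
lemma Apx.lim_Q_cut {Ψ : Lp F 2 (volume : Measure X3)} {u : ℕ → X3 → F} (h : S.Apx Ψ u)
    {H : ℝ → ℝ} (hH : ContDiff ℝ ∞ H) (hc : HasCompactSupport H) (β : Fin 16) :
    Tendsto (fun n => nsq (S.Q β (fun y => ((rad H y : ℝ) : ℂ) • u n y))) atTop
      (𝓝 (nsq (fun x => (((dg H x : ℝ) : ℂ) • ((-Complex.I) • S.B β x)) (Ψ x)))) := by
  have c1 : Continuous (rad H) := continuous_rad hH.continuous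
  have c2 : Continuous (dg H) := continuous_dg hH
  have c3 : Continuous (fun x => (-Complex.I) • S.B β x) :=
    (S.contDiff_B β).continuous.const_smul (-Complex.I)
  obtain ⟨C1, -, b1⟩ := bdd_rsmul_op c1 (hcs_rad' hc) (A := fun _ => (1 : F →L[ℂ] F))
    continuous_const
  obtain ⟨C2, -, b2⟩ := bdd_rsmul_op c2 (hcs_dg hc) c3
  have l1 := (h.Q0 β).op (continuous_rsmul_op c1 continuous_const) b1
  have l2 := h.L2t.op (continuous_rsmul_op c2 c3) b2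
  have l3 := (l1.add l2).lim_nsq
  have e1 : ∀ n, S.Q β (fun y => ((rad H y : ℝ) : ℂ) • u n y) = fun x =>
      (((rad H x : ℝ) : ℂ) • (1 : F →L[ℂ] F)) (S.Q β (u n) x) +
      (((dg H x : ℝ) : ℂ) • ((-Complex.I) • S.B β x)) (u n x) := by
    intro n
    funext x
    rw [S.Q_rad hH β (u n) x ((h.1 n).diff x)]
    simp only [_root_.smul_apply, one_apply_eq_self, smul_smul, dg]
    rw [mul_comm (-Complex.I)]
  simp only [← e1] at l3
  convert l3 using 4 with x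
  simp only [map_zero, zero_add]

/-- the limit inequality -/
lemma lim_ineq [CompleteSpace F] {R ε ε' δ s : ℝ} (hR : 0 < R) (hε : 0 < ε) (hε1 : ε < 1)
    (hε' : 0 < ε')
    (hpt : ∀ x : X3, R ≤ ‖x‖ → ∀ σ : ℝ, 0 ≤ σ → σ ≤ s → ∀ v : F,
        0 ≤ (inner ℂ v (S.Fx x v)).re +
          ((1 - ε) * (8 * S.κ * ‖x‖ - 16 / S.κ * S.V x / ‖x‖ ^ 3) +
            (2 * ε - ε ^ 2) * S.V x) * ‖v‖ ^ 2 +
          ε' * ‖x‖ * ((inner ℂ v (S.O1 v)).re - σ / ‖x‖ ^ 2 * (inner ℂ v (Bd S x v)).re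
            - δ * ‖v‖ ^ 2))
    {H : ℝ → ℝ} (hH : ContDiff ℝ ∞ H) (hHc : HasCompactSupport H) (h0 : ∀ t, t ≤ R ^ 2 → H t = 0)
    {σ : ℝ → ℝ} (hσ : Continuous σ) (hσs : ∀ t, 0 ≤ σ t ∧ σ t ≤ s)
    {Ψ : Lp F 2 (volume : Measure X3)} (hΨ : S.IsZM Ψ) :
    0 ≤ (1 / 16 : ℝ) * ∑ β, nsq (fun x => (((dg H x : ℝ) : ℂ) • ((-Complex.I) • S.B β x)) (Ψ x)) +
      ε' * ((∫ x, dg (gH H) x * (inner ℂ (Ψ x) (Bd S x (Ψ x))).re) -
        (∫ x, rad (tH H σ) x * (inner ℂ (Ψ x) (Bd S x (Ψ x))).re) -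
        δ * (∫ x, rad (gH H) x * (inner ℂ (Ψ x) ((1 : F →L[ℂ] F) (Ψ x))).re)) := by
  have hg := contDiff_gH hH hR h0
  have hgc : HasCompactSupport (gH H) := hcs_gH hHc
  have ht := continuous_tH hH hσ hR h0
  have htc : HasCompactSupport (tH H σ) := hcs_tH hHc
  have cg : Continuous (rad (gH H)) := continuous_rad hg.continuous
  have ct : Continuous (rad (tH H σ)) := continuous_rad ht
  rw [← ident_re hΨ hg hgc]
  obtain ⟨u, h⟩ := hΨ
  have l1 := h.lim_w cg (hcs_rad' hgc) (A := fun _ => S.O1) continuous_const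
  have l2 := h.lim_w ct (hcs_rad' htc) S.continuous_Bd
  have l3 := h.lim_w cg (hcs_rad' hgc) (A := fun _ => (1 : F →L[ℂ] F)) continuous_const
  have lQ := (tendsto_finsetSum Finset.univ fun β _ => h.lim_Q_cut hH hHc β).const_mul
    (1 / 16 : ℝ)
  have L := lQ.add (((l1.sub l2).sub (l3.const_mul δ)).const_mul ε')
  exact ge_of_tendsto' L fun n =>
    S.test_ineq hR hε hε1 hε' hpt hH h0 hσ hσs (h.1 n)

end Setup
end Vale.Agent.P353
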